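import Vale.Agent.P249.Full.Basic

/-!
Smooth bands on the line whose `p`-th powers sum to one.
-/

namespace Vale.Agent.P249.Full

open Finset

/-- An unnormalised band. -/
noncomputable def tent (w : ℝ) (k : ℤ) (t : ℝ) : ℝ := cl (2 - |t / w - 2 * k|)

/-- The two bands which can meet a point. -/
noncomputable def win (w t : ℝ) : Finset ℤ := {⌊t / (2 * w)⌋, ⌊t / (2 * w)⌋ + 1}

/-- The normalising factor. -/
noncomputable def tentNorm (p w t : ℝ) : ℝ := (∑ k ∈ win w t, tent w k t ^ p) ^ p⁻¹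

/-- The normalised band. -/
noncomputable def band (p w : ℝ) (k : ℤ) (t : ℝ) : ℝ := tent w k t / tentNorm p w t

variable {p w : ℝ}

lemma tent_nonneg (w : ℝ) (k : ℤ) (t : ℝ) : 0 ≤ tent w k t := cl_nonneg _

lemma of_tent_pos (hw : 0 < w) {k : ℤ} {t : ℝ} (h : 0 < tent w k t) :
    (2 * k - 2) * w < t ∧ t < (2 * k + 2) * w := by
  obtain ⟨h1, h2⟩ := abs_lt.1 (show |t / w - 2 * k| < 2 by linarith [of_cl_pos h])
  rw [lt_sub_iff_add_lt, lt_div_iff₀ hw] at h1
  rw [sub_lt_iff_lt_add, div_lt_iff₀ hw] at h2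
  constructor <;> linarith

lemma mem_win_of_tent_pos (hw : 0 < w) {k : ℤ} {t : ℝ} (h : 0 < tent w k t) : k ∈ win w t := by
  obtain ⟨h1, h2⟩ := of_tent_pos hw h
  have h3 := Int.floor_le (t / (2 * w))
  have h4 := Int.lt_floor_add_one (t / (2 * w))
  rw [le_div_iff₀ (by linarith)] at h3
  rw [div_lt_iff₀ (by linarith)] at h4
  have a1 : ((⌊t / (2 * w)⌋ : ℤ) : ℝ) < k + 1 := by nlinarith
  have a2 : (k : ℝ) < ((⌊t / (2 * w)⌋ : ℤ) : ℝ) + 2 := by nlinarith
  have b1 : ⌊t / (2 * w)⌋ < k + 1 := by exact_mod_cast a1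
  have b2 : k < ⌊t / (2 * w)⌋ + 2 := by exact_mod_cast a2
  simp only [win, Finset.mem_insert, Finset.mem_singleton]; omega

lemma tent_eq_zero (hw : 0 < w) {k : ℤ} {t : ℝ} (h : k ∉ win w t) : tent w k t = 0 := by
  by_contra hne
  exact h (mem_win_of_tent_pos hw (lt_of_le_of_ne (tent_nonneg w k t) (Ne.symm hne)))

lemma sum_tent_rpow (hp : 1 ≤ p) (hw : 0 < w) {t : ℝ} {Ks : Finset ℤ} (h : win w t ⊆ Ks) :
    ∑ k ∈ Ks, tent w k t ^ p = ∑ k ∈ win w t, tent w k t ^ p := by
  refine (Finset.sum_subset h fun k _ hk => ?_).symm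
  rw [tent_eq_zero hw hk, Real.zero_rpow (by linarith)]

lemma sum_tent_le_two (hw : 0 < w) (Ks : Finset ℤ) (t : ℝ) : ∑ k ∈ Ks, tent w k t ≤ 2 := by
  classical
  calc ∑ k ∈ Ks, tent w k t ≤ ∑ k ∈ Ks ∪ win w t, tent w k t :=
        Finset.sum_le_sum_of_subset_of_nonneg Finset.subset_union_left
          fun k _ _ => tent_nonneg w k t
    _ = ∑ k ∈ win w t, tent w k t :=
        (Finset.sum_subset Finset.subset_union_right fun k _ hk => tent_eq_zero hw hk).symm
    _ ≤ ∑ _k ∈ win w t, (1 : ℝ) := Finset.sum_le_sum fun k _ => cl_le_one _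
    _ ≤ 2 := by simp [win]

lemma one_le_tentNorm (hp : 1 ≤ p) (hw : 0 < w) (t : ℝ) : 1 ≤ tentNorm p w t := by
  set f := ⌊t / (2 * w)⌋
  have h3 := Int.floor_le (t / (2 * w))
  have h4 := Int.lt_floor_add_one (t / (2 * w))
  rw [le_div_iff₀ (by linarith)] at h3
  rw [div_lt_iff₀ (by linarith)] at h4
  have hex : ∃ k ∈ win w t, tent w k t = 1 := by
    rcases le_total (t / w - 2 * (f : ℝ)) 1 with h | h
    · refine ⟨f, by simp [win, f], cl_eq_one ?_⟩
      have : 0 ≤ t / w - 2 * (f : ℝ) := by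
        rw [sub_nonneg, le_div_iff₀ hw]; linarith
      rw [abs_of_nonneg this]; linarith
    · refine ⟨f + 1, by simp [win, f], cl_eq_one ?_⟩
      have : t / w - 2 * (f : ℝ) < 2 := by
        rw [sub_lt_iff_lt_add, div_lt_iff₀ hw]; linarith
      push_cast
      rw [abs_of_nonpos (by linarith)]; linarith
  obtain ⟨k, hk, hk1⟩ := hex
  refine Real.one_le_rpow ?_ (inv_nonneg.2 (by linarith))
  refine le_trans ?_ (Finset.single_le_sum (f := fun k => tent w k t ^ p)
    (fun k _ => Real.rpow_nonneg (tent_nonneg w k t) _) hk)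
  simp [hk1]

lemma band_nonneg (hp : 1 ≤ p) (hw : 0 < w) (k : ℤ) (t : ℝ) : 0 ≤ band p w k t :=
  div_nonneg (tent_nonneg w k t) (le_trans zero_le_one (one_le_tentNorm hp hw t))

lemma band_le_tent (hp : 1 ≤ p) (hw : 0 < w) (k : ℤ) (t : ℝ) : band p w k t ≤ tent w k t :=
  div_le_self (tent_nonneg w k t) (one_le_tentNorm hp hw t)

lemma band_le_one (hp : 1 ≤ p) (hw : 0 < w) (k : ℤ) (t : ℝ) : band p w k t ≤ 1 :=
  (band_le_tent hp hw k t).trans (cl_le_one _)

lemma sum_band_le_two (hp : 1 ≤ p) (hw : 0 < w) (Ks : Finset ℤ) (t : ℝ) :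
    ∑ k ∈ Ks, band p w k t ≤ 2 :=
  (Finset.sum_le_sum fun k _ => band_le_tent hp hw k t).trans (sum_tent_le_two hw Ks t)

lemma of_band_ne_zero (hw : 0 < w) {k : ℤ} {t : ℝ} (h : band p w k t ≠ 0) :
    (2 * k - 2) * w < t ∧ t < (2 * k + 2) * w := by
  refine of_tent_pos hw (lt_of_le_of_ne (tent_nonneg w k t) fun he => h ?_)
  rw [band, ← he, zero_div]

lemma sum_band_rpow (hp : 1 ≤ p) (hw : 0 < w) {t : ℝ} {Ks : Finset ℤ} (h : win w t ⊆ Ks) :
    ∑ k ∈ Ks, band p w k t ^ p = 1 := by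
  have hN := one_le_tentNorm hp hw t
  have hp0 : p ≠ 0 := by linarith
  have hNp : tentNorm p w t ^ p = ∑ k ∈ win w t, tent w k t ^ p :=
    Real.rpow_inv_rpow (Finset.sum_nonneg fun k _ => Real.rpow_nonneg (tent_nonneg w k t) _) hp0
  have hpos : 0 < tentNorm p w t ^ p := Real.rpow_pos_of_pos (by linarith) _
  calc ∑ k ∈ Ks, band p w k t ^ p = ∑ k ∈ Ks, tent w k t ^ p / tentNorm p w t ^ p :=
        Finset.sum_congr rfl fun k _ => Real.div_rpow (tent_nonneg w k t) (by linarith) p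
    _ = 1 := by rw [← Finset.sum_div, sum_tent_rpow hp hw h, ← hNp, div_self hpos.ne']

lemma abs_tent_sub (hw : 0 < w) (k : ℤ) (s t : ℝ) :
    |tent w k s - tent w k t| ≤ |s - t| / w := by
  refine (abs_cl_sub _ _).trans ?_
  rw [sub_sub_sub_cancel_left, abs_sub_comm]
  refine (abs_abs_sub_abs_le_abs_sub _ _).trans_eq ?_
  rw [sub_sub_sub_cancel_right, ← sub_div, abs_div, abs_of_pos hw]

lemma sum_abs_tent_sub (hw : 0 < w) (Ks : Finset ℤ) (s t : ℝ) :
    ∑ k ∈ Ks, |tent w k s - tent w k t| ≤ 4 * |s - t| / w := by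
  classical
  set U := win w s ∪ win w t
  calc ∑ k ∈ Ks, |tent w k s - tent w k t| ≤ ∑ k ∈ Ks ∪ U, |tent w k s - tent w k t| :=
        Finset.sum_le_sum_of_subset_of_nonneg Finset.subset_union_left fun k _ _ => abs_nonneg _
    _ = ∑ k ∈ U, |tent w k s - tent w k t| :=
        (Finset.sum_subset Finset.subset_union_right fun k _ hk => by
          simp only [U, Finset.mem_union, not_or] at hk
          rw [tent_eq_zero hw hk.1, tent_eq_zero hw hk.2, sub_self, abs_zero]).symm
    _ ≤ ∑ _k ∈ U, |s - t| / w := Finset.sum_le_sum fun k _ => abs_tent_sub hw k s t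
    _ ≤ 4 * |s - t| / w := by
        rw [Finset.sum_const, nsmul_eq_mul, mul_div_assoc]
        refine mul_le_mul_of_nonneg_right ?_ (by positivity)
        have h1 : ∀ u, (win w u).card ≤ 2 := fun u => Finset.card_le_two
        have := (Finset.card_union_le (win w s) (win w t)).trans (add_le_add (h1 s) (h1 t))
        exact_mod_cast this

lemma abs_tentNorm_sub (hp : 1 ≤ p) (hw : 0 < w) (s t : ℝ) :
    |tentNorm p w s - tentNorm p w t| ≤ 4 * |s - t| / w := by
  classical
  have key : ∀ s t, tentNorm p w s ≤ tentNorm p w t + 4 * |s - t| / w := by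
    intro s t
    set U := win w s ∪ win w t
    have hs : tentNorm p w s = (0 + ∑ k ∈ U, tent w k s ^ p) ^ p⁻¹ := by
      rw [zero_add, sum_tent_rpow hp hw Finset.subset_union_left]; rfl
    have ht : tentNorm p w t = (0 + ∑ k ∈ U, tent w k t ^ p) ^ p⁻¹ := by
      rw [zero_add, sum_tent_rpow hp hw Finset.subset_union_right]; rfl
    have h := root_sum hp U (le_refl (0 : ℝ)) (fun k => tent w k t)
      (fun k => |tent w k s - tent w k t|) (fun k _ => tent_nonneg w k t) fun k _ => abs_nonneg _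
    rw [← ht] at h
    refine le_trans ?_ (h.trans (add_le_add le_rfl (sum_abs_tent_sub hw U s t)))
    rw [hs]
    refine Real.rpow_le_rpow (by
      have := Finset.sum_nonneg (s := U) fun k _ => Real.rpow_nonneg (tent_nonneg w k s) p
      linarith) (add_le_add le_rfl (Finset.sum_le_sum fun k _ => ?_)) (inv_nonneg.2 (by linarith))
    exact Real.rpow_le_rpow (tent_nonneg w k s)
      (by linarith [le_abs_self (tent w k s - tent w k t)]) (by linarith)
  rw [abs_le]
  have h1 := key s t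
  have h2 := key t s
  rw [abs_sub_comm t s] at h2
  constructor <;> linarith

lemma sum_abs_band_sub (hp : 1 ≤ p) (hw : 0 < w) (Ks : Finset ℤ) (s t : ℝ) :
    ∑ k ∈ Ks, |band p w k s - band p w k t| ≤ 12 * |s - t| / w := by
  have hs := one_le_tentNorm hp hw s
  have ht := one_le_tentNorm hp hw t
  have hpt : ∀ k, |band p w k s - band p w k t| ≤ |tent w k s - tent w k t| +
      |tentNorm p w s - tentNorm p w t| * tent w k t := by
    intro k
    have e : band p w k s - band p w k t = (tent w k s - tent w k t) / tentNorm p w s +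
        (tentNorm p w t - tentNorm p w s) * (band p w k t / tentNorm p w s) := by
      simp only [band]
      have := (lt_of_lt_of_le one_pos hs).ne'
      have := (lt_of_lt_of_le one_pos ht).ne'
      field_simp
      ring
    rw [e]
    refine (abs_add_le _ _).trans (add_le_add ?_ ?_)
    · rw [abs_div, abs_of_pos (lt_of_lt_of_le one_pos hs)]
      exact div_le_self (abs_nonneg _) hs
    · rw [abs_mul, abs_sub_comm, abs_of_nonneg (div_nonneg (band_nonneg hp hw k t) (by linarith))]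
      exact mul_le_mul_of_nonneg_left
        ((div_le_self (band_nonneg hp hw k t) hs).trans (band_le_tent hp hw k t)) (abs_nonneg _)
  refine (Finset.sum_le_sum fun k _ => hpt k).trans ?_
  rw [Finset.sum_add_distrib, ← Finset.mul_sum]
  have h1 := sum_abs_tent_sub hw Ks s t
  have h2 := mul_le_mul (abs_tentNorm_sub hp hw s t) (sum_tent_le_two hw Ks t)
    (Finset.sum_nonneg fun k _ => tent_nonneg w k t) (by positivity)
  have e : 12 * |s - t| / w = 4 * |s - t| / w + 4 * |s - t| / w * 2 := by ring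
  linarith

lemma abs_band_sub (hp : 1 ≤ p) (hw : 0 < w) (k : ℤ) (s t : ℝ) :
    |band p w k s - band p w k t| ≤ 12 * |s - t| / w := by
  simpa using sum_abs_band_sub hp hw {k} s t

end Vale.Agent.P249.Full
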