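import Vale.Agent.P249.Sub.Ell

/-!
Elementary inequalities and the `p`-norm of plain functions.
-/

namespace Vale.Agent.P249.Full

open Finset Vale.Agent.P249.Sub

/-- The `p`-norm of a function on a finite type. -/
noncomputable def nrm (p : ℝ) [Fact (1 ≤ ENNReal.ofReal p)] {I : Type*} [Fintype I]
    (f : I → ℝ) : ℝ :=
  ‖(WithLp.toLp _ f : Ell p I)‖

section nrm

variable {p : ℝ} [hp : Fact (1 ≤ ENNReal.ofReal p)] {I : Type*} [Fintype I]

lemma nrm_nonneg (f : I → ℝ) : 0 ≤ nrm p f := norm_nonneg _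

lemma nrm_rpow (f : I → ℝ) : nrm p f ^ p = ∑ i, |f i| ^ p := norm_rpow_eq _

lemma nrm_eq (f : I → ℝ) : nrm p f = (∑ i, |f i| ^ p) ^ p⁻¹ := norm_eq_rpow _

lemma nrm_apply (v : Ell p I) : nrm p (fun i => v i) = ‖v‖ := rfl

lemma nrm_zero : nrm p (fun _ : I => (0 : ℝ)) = 0 := norm_zero (E := Ell p I)

lemma nrm_mono {f g : I → ℝ} (h : ∀ i, |f i| ≤ g i) : nrm p f ≤ nrm p g := by
  have hp1 : 1 ≤ p := one_le_p
  rw [nrm_eq, nrm_eq]
  refine Real.rpow_le_rpow (Finset.sum_nonneg fun i _ => Real.rpow_nonneg (abs_nonneg _) _) ?_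
    (inv_nonneg.2 (by linarith))
  exact Finset.sum_le_sum fun i _ =>
    Real.rpow_le_rpow (abs_nonneg _) ((h i).trans (le_abs_self _)) (by linarith)

lemma nrm_add_le (f g : I → ℝ) : nrm p (fun i => f i + g i) ≤ nrm p f + nrm p g :=
  norm_add_le (WithLp.toLp _ f : Ell p I) (WithLp.toLp _ g)

lemma nrm_le_add {f a b : I → ℝ} (h : ∀ i, |f i| ≤ a i + b i) :
    nrm p f ≤ nrm p a + nrm p b :=
  (nrm_mono h).trans (nrm_add_le a b)

lemma nrm_mul {c : ℝ} (hc : 0 ≤ c) (f : I → ℝ) : nrm p (fun i => c * f i) = c * nrm p f := by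
  have h := norm_smul c (WithLp.toLp _ f : Ell p I)
  rw [Real.norm_eq_abs, abs_of_nonneg hc] at h
  exact h

lemma nrm_le_mul {f g : I → ℝ} {c : ℝ} (hc : 0 ≤ c) (h : ∀ i, |f i| ≤ c * g i) :
    nrm p f ≤ c * nrm p g :=
  (nrm_mono h).trans_eq (nrm_mul hc g)

lemma nrm_sum_le {K : Type*} (s : Finset K) (f : K → I → ℝ) :
    nrm p (fun i => ∑ k ∈ s, f k i) ≤ ∑ k ∈ s, nrm p (f k) := by
  classical
  induction s using Finset.induction_on with
  | empty => simp only [Finset.sum_empty]; exact nrm_zero.le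
  | insert a s ha ih =>
    simp only [Finset.sum_insert ha]
    exact (nrm_add_le _ _).trans (by linarith)

lemma nrm_le_sum {K : Type*} {s : Finset K} {f : I → ℝ} {g : K → I → ℝ}
    (h : ∀ i, |f i| ≤ ∑ k ∈ s, g k i) : nrm p f ≤ ∑ k ∈ s, nrm p (g k) :=
  (nrm_mono h).trans (nrm_sum_le s g)

lemma nrm_weighted_le {K : Type*} (s : Finset K) (c : K → ℝ) (hc : ∀ k ∈ s, 0 ≤ c k)
    (f : K → I → ℝ) :
    nrm p (fun i => ∑ k ∈ s, c k * f k i) ≤ ∑ k ∈ s, c k * nrm p (f k) :=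
  (nrm_sum_le s fun k i => c k * f k i).trans_eq
    (Finset.sum_congr rfl fun k hk => nrm_mul (hc k hk) (f k))

end nrm

section scalar

variable {p : ℝ}

lemma exp_sub_one_le (x : ℝ) : Real.exp x - 1 ≤ x * Real.exp x := by
  have h := Real.add_one_le_exp (-x)
  have h2 := mul_le_mul_of_nonneg_left h (Real.exp_pos x).le
  rw [← Real.exp_add, add_neg_cancel, Real.exp_zero] at h2
  nlinarith

lemma exp_mul_le {c r : ℝ} (hc : 0 ≤ c) (hr : 0 ≤ r) (hr1 : r ≤ 1) :
    Real.exp (c * r) ≤ 1 + c * Real.exp c * r := by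
  have h := exp_sub_one_le (c * r)
  have h2 : Real.exp (c * r) ≤ Real.exp c := Real.exp_le_exp.2 (mul_le_of_le_one_right hc hr1)
  nlinarith [mul_le_mul_of_nonneg_left h2 (mul_nonneg hc hr)]

/-- Concavity of the `p`-th root. -/
lemma root_add_le (hp : 1 ≤ p) {S h : ℝ} (hS : 0 < S) (hh : -S ≤ h) :
    (S + h) ^ p⁻¹ ≤ S ^ p⁻¹ + p⁻¹ * h * S ^ (p⁻¹ - 1) := by
  have hs : -1 ≤ h / S := by rw [le_div_iff₀ hS]; linarith
  have := rpow_one_add_le_one_add_mul_self hs (inv_nonneg.2 (by linarith))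
    (inv_le_one_of_one_le₀ hp)
  have e : S + h = S * (1 + h / S) := by field_simp
  rw [e, Real.mul_rpow hS.le (by linarith), Real.rpow_sub_one hS.ne']
  refine (mul_le_mul_of_nonneg_left this (Real.rpow_nonneg hS.le _)).trans_eq ?_
  field_simp

lemma root_drop (hp : 1 ≤ p) {a b : ℝ} (hb : 0 ≤ b) (ha : 0 < a) :
    (a - b) * a ^ (p⁻¹ - 1) ≤ p * (a ^ p⁻¹ - b ^ p⁻¹) := by
  have h := root_add_le hp ha (h := b - a) (by linarith)
  rw [add_sub_cancel] at h
  have hp0 : 0 < p := by linarith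
  have := mul_le_mul_of_nonneg_left h hp0.le
  rw [mul_add, ← mul_assoc, ← mul_assoc, mul_inv_cancel₀ hp0.ne', one_mul] at this
  linarith

/-- Two-term Minkowski inequality. -/
lemma root_two (hp : 1 ≤ p) {X a y : ℝ} (hX : 0 ≤ X) (ha : 0 ≤ a) (hy : 0 ≤ y) :
    (X + (a + y) ^ p) ^ p⁻¹ ≤ (X + a ^ p) ^ p⁻¹ + y := by
  have hp0 : 0 < p := by linarith
  have h := Real.Lp_add_le_of_nonneg (ι := Fin 2) Finset.univ (f := ![X ^ p⁻¹, a]) (g := ![0, y]) hp
    (fun i _ => by fin_cases i <;> simp [Real.rpow_nonneg hX, ha])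
    (fun i _ => by fin_cases i <;> simp [hy])
  simpa [Real.rpow_inv_rpow hX hp0.ne', Real.zero_rpow hp0.ne', Real.rpow_rpow_inv hy hp0.ne']
    using h

lemma root_sum (hp : 1 ≤ p) {K : Type*} (s : Finset K) {X : ℝ} (hX : 0 ≤ X) (a y : K → ℝ)
    (ha : ∀ k ∈ s, 0 ≤ a k) (hy : ∀ k ∈ s, 0 ≤ y k) :
    (X + ∑ k ∈ s, (a k + y k) ^ p) ^ p⁻¹ ≤
      (X + ∑ k ∈ s, a k ^ p) ^ p⁻¹ + ∑ k ∈ s, y k := by
  classical
  induction s using Finset.induction_on generalizing X with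
  | empty => simp
  | insert c s hc ih =>
    simp only [Finset.sum_insert hc]
    have ha' := ha c (Finset.mem_insert_self _ _)
    have hy' := hy c (Finset.mem_insert_self _ _)
    have h1 := ih (X := X + (a c + y c) ^ p) (add_nonneg hX (Real.rpow_nonneg (by linarith) _))
      (fun k hk => ha k (Finset.mem_insert_of_mem hk))
      (fun k hk => hy k (Finset.mem_insert_of_mem hk))
    have hsum : 0 ≤ ∑ k ∈ s, a k ^ p := Finset.sum_nonneg fun k hk =>
      Real.rpow_nonneg (ha k (Finset.mem_insert_of_mem hk)) _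
    have h2 := root_two hp (add_nonneg hX hsum) ha' hy'
    rw [← add_assoc X ((a c + y c) ^ p)]
    rw [show X + (∑ k ∈ s, a k ^ p) + (a c + y c) ^ p = X + (a c + y c) ^ p + ∑ k ∈ s, a k ^ p
      by ring] at h2
    rw [show X + (a c ^ p + ∑ k ∈ s, a k ^ p) = X + (∑ k ∈ s, a k ^ p) + a c ^ p by ring]
    linarith

lemma mul_log_div_le {x R : ℝ} (hx : 0 ≤ x) (hR : 0 < R) : x * (Real.log R - Real.log x) ≤ R := by
  rcases eq_or_lt_of_le hx with rfl | hx
  · simp [hR.le]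
  · have h := Real.log_le_sub_one_of_pos (div_pos hR hx)
    rw [Real.log_div hR.ne' hx.ne', le_sub_iff_add_le, le_div_iff₀ hx] at h
    linarith

/-- Clamp to the unit interval. -/
noncomputable def cl (x : ℝ) : ℝ := min 1 (max 0 x)

lemma cl_nonneg (x : ℝ) : 0 ≤ cl x := le_min zero_le_one (le_max_left _ _)

lemma cl_le_one (x : ℝ) : cl x ≤ 1 := min_le_left _ _

lemma cl_eq_one {x : ℝ} (h : 1 ≤ x) : cl x = 1 := min_eq_left (le_max_of_le_right h)

lemma cl_eq_zero {x : ℝ} (h : x ≤ 0) : cl x = 0 := by simp [cl, max_eq_left h]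

lemma of_cl_pos {x : ℝ} (h : 0 < cl x) : 0 < x := by
  by_contra hc
  rw [cl_eq_zero (le_of_not_gt hc)] at h
  exact lt_irrefl _ h

lemma of_cl_lt_one {x : ℝ} (h : cl x < 1) : x < 1 := by
  by_contra hc
  rw [cl_eq_one (le_of_not_gt hc)] at h
  exact lt_irrefl _ h

lemma abs_cl_sub (x y : ℝ) : |cl x - cl y| ≤ |x - y| := by
  refine (abs_min_sub_min_le_max _ _ _ _).trans ?_
  refine max_le (by simp) ((abs_max_sub_max_le_max _ _ _ _).trans ?_)
  exact max_le (by simp) le_rfl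

/-- The scale of a level. -/
noncomputable def tt (j : ℤ) : ℝ := (2 : ℝ) ^ j

lemma tt_pos (j : ℤ) : 0 < tt j := zpow_pos two_pos j

lemma tt_add_one (j : ℤ) : tt (j + 1) = 2 * tt j := by
  unfold tt; rw [zpow_add_one₀ two_ne_zero]; ring

lemma tt_add (i j : ℤ) : tt (i + j) = tt i * tt j := zpow_add₀ two_ne_zero i j

lemma tt_nat (m : ℕ) : tt m = (2 : ℝ) ^ m := zpow_natCast _ _

lemma tt_mono {i j : ℤ} (h : i ≤ j) : tt i ≤ tt j := zpow_le_zpow_right₀ one_le_two h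

lemma tt_sub_nat (j : ℤ) (m : ℕ) : tt (j - m) = tt j / 2 ^ m := by
  rw [eq_div_iff (by positivity), ← tt_nat, ← tt_add]; simp

lemma sum_tt_le (a b : ℤ) : ∑ j ∈ Finset.Icc a b, tt j ≤ 2 * tt b := by
  suffices h : ∀ k : ℕ, ∀ b : ℤ, ∑ j ∈ Finset.Icc (b - k) b, tt j ≤ 2 * tt b by
    rcases le_or_gt a b with hab | hab
    · have := h (b - a).toNat b
      rwa [Int.toNat_of_nonneg (by omega), sub_sub_cancel] at this
    · rw [Finset.Icc_eq_empty (by omega)]
      simpa using (tt_pos b).le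
  intro k
  induction k with
  | zero => intro b; simp only [Nat.cast_zero, sub_zero, Finset.Icc_self, Finset.sum_singleton]
            linarith [tt_pos b]
  | succ k ih =>
    intro b
    have e : Finset.Icc (b - ((k + 1 : ℕ) : ℤ)) b = insert b (Finset.Icc (b - 1 - k) (b - 1)) := by
      ext j; simp only [Finset.mem_insert, Finset.mem_Icc]; omega
    rw [e, Finset.sum_insert (by simp)]
    have h1 := ih (b - 1)
    have h2 : tt b = 2 * tt (b - 1) := by rw [← tt_add_one]; congr 1; ring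
    linarith

lemma sum_div_tt_le (a b : ℤ) : ∑ j ∈ Finset.Icc a b, 1 / tt j ≤ 2 / tt a := by
  calc ∑ j ∈ Finset.Icc a b, 1 / tt j = ∑ j ∈ Finset.Icc (-b) (-a), tt j := by
        refine Finset.sum_nbij' (fun j => -j) (fun j => -j) ?_ ?_ ?_ ?_ ?_
        all_goals intro j hj
        all_goals simp_all [tt]
        all_goals omega
    _ ≤ 2 * tt (-a) := sum_tt_le _ _
    _ = 2 / tt a := by simp [tt, div_eq_mul_inv]

end scalar

end Vale.Agent.P249.Full
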