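import Vale.Agent.P249.Full.Incr

/-!
Change of the smoothed centres against the drops of the envelope.
-/

namespace Vale.Agent.P249.Full

open Finset Vale.Agent.P249.Sub

set_option linter.unusedSectionVars false
set_option linter.unusedVariables false

variable {p : ℝ} [hp : Fact (1 ≤ ENNReal.ofReal p)] {V I : Type*} [Fintype V] [Fintype I]

/-- The common reference value of a pair. -/
noncomputable def Lam (x : V → Ell p I) (P : Prm) (b J : ℤ) (v w : V) (i : I) (j : ℤ) : ℝ :=
  if j < J then max (lam x P b v i) (lam x P b w i) else max (lam x P j v i) (lam x P j w i)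

/-- The relative change of a centre of mass. -/
noncomputable def chg (x : V → Ell p I) (i₁ : ℤ) (v w : V) (i : I) : ℝ :=
  |Mf x i₁ w i - Mf x i₁ v i| / ds x v w

/-- Truncated logarithmic deficit. -/
noncomputable def defct (A lm : ℝ) : ℝ := max 0 (Real.log A - lm)

variable {x : V → Ell p I} {P : Prm} {v w : V} {J b : ℤ}

lemma sum_pw_rec (h : P.Ok x) (j : ℤ) (v : V) (f : ℤ → ℝ) :
    ∑ m ∈ Finset.range P.L, pw x P j v m * f (j - m) =
      kap x P j v * f j +
        (1 - kap x P j v) * ∑ m ∈ Finset.range P.L, pw x P (j - 1) v m * f (j - 1 - m) := by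
  have e : ∑ m ∈ Finset.range P.L, pw x P j v m * f (j - m) =
      ∑ m ∈ Finset.range (P.L + 1), pw x P j v m * f (j - m) := by
    rw [Finset.sum_range_succ, pw_eq_zero h j v le_rfl, zero_mul, add_zero]
  rw [e, Finset.sum_range_succ', pw_zero, Nat.cast_zero, sub_zero, add_comm, Finset.mul_sum]
  congr 1
  refine Finset.sum_congr rfl fun m _ => ?_
  rw [pw_succ, show j - ((m + 1 : ℕ) : ℤ) = j - 1 - (m : ℤ) by push_cast; ring]
  ring

lemma sum_tele (f : ℤ → ℝ) {J T : ℤ} (hJT : J ≤ T) :
    ∑ j ∈ Finset.Icc J T, (f (j - 1) - f j) = f (J - 1) - f T := by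
  have key : ∀ k : ℕ, ∑ j ∈ Finset.Icc J (J + k), (f (j - 1) - f j) = f (J - 1) - f (J + k) := by
    intro k
    induction k with
    | zero => simp
    | succ k ih =>
      have e : Finset.Icc J (J + ((k + 1 : ℕ) : ℤ)) = insert (J + k + 1) (Finset.Icc J (J + k)) := by
        ext j; simp only [Finset.mem_insert, Finset.mem_Icc]; omega
      rw [e, Finset.sum_insert (by simp), ih]
      push_cast
      ring_nf
  have := key (T - J).toNat
  rwa [show J + ((T - J).toNat : ℤ) = T by omega] at this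

lemma Lam_of_ge {i : I} {j : ℤ} (hj : J ≤ j) :
    Lam x P b J v w i j = max (lam x P j v i) (lam x P j w i) := if_neg (not_lt.2 hj)

lemma lam_le_Lam (h : P.Ok x) {j : ℤ} (hbj : b ≤ j) (hjT : j ≤ P.T) (i : I) :
    lam x P j v i ≤ Lam x P b J v w i j ∧ lam x P j w i ≤ Lam x P b J v w i j := by
  unfold Lam; split
  · exact ⟨(lam_anti h hbj hjT v i).trans (le_max_left _ _),
      (lam_anti h hbj hjT w i).trans (le_max_right _ _)⟩
  · exact ⟨le_max_left _ _, le_max_right _ _⟩

lemma Lam_step (h : P.Ok x) (hbJ : b ≤ J - 1) {j : ℤ} (hjT : j ≤ P.T) (i : I) :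
    Lam x P b J v w i j ≤ Lam x P b J v w i (j - 1) := by
  rcases lt_trichotomy j J with hj | hj | hj
  · rw [Lam, Lam, if_pos hj, if_pos (by omega)]
  · subst hj
    rw [Lam, Lam, if_neg (lt_irrefl _), if_pos (by omega)]
    exact max_le_max (lam_anti h (by omega) hjT v i) (lam_anti h (by omega) hjT w i)
  · rw [Lam_of_ge hj.le, Lam_of_ge (by omega)]
    exact max_le_max (lam_anti h (by omega) hjT v i) (lam_anti h (by omega) hjT w i)

lemma exp_Lam_le (h : P.Ok x) {j : ℤ} (hbj : b ≤ j) (hjT : j ≤ P.T) (i : I) :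
    Real.exp (Lam x P b J v w i j) ≤ Rf x P b v i + Rf x P b w i := by
  have hmono : Monotone Real.exp := Real.exp_monotone
  have hv := Rf_pos h b v i
  have hw := Rf_pos h b w i
  unfold Lam; split
  · rw [hmono.map_max, exp_lam h, exp_lam h]
    exact max_le (by linarith) (by linarith)
  · rw [hmono.map_max, exp_lam h, exp_lam h]
    exact max_le (by linarith [Rf_anti h hbj hjT v i]) (by linarith [Rf_anti h hbj hjT w i])

lemma exp_mul_drop {a c : ℝ} (hac : a ≤ c) : Real.exp a * (c - a) ≤ Real.exp c - Real.exp a := by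
  have h := Real.add_one_le_exp (c - a)
  have h2 := mul_le_mul_of_nonneg_left h (Real.exp_pos a).le
  rw [← Real.exp_add, add_sub_cancel] at h2
  linarith

/-- A constant times the length of an interval against the deficit and the exponential. -/
lemma mul_drop {A a c : ℝ} (hA : 0 ≤ A) (hac : a ≤ c) :
    A * (c - a) ≤ A * (defct A a - defct A c) + (Real.exp c - Real.exp a) := by
  have he : Real.exp a ≤ Real.exp c := Real.exp_le_exp.2 hac
  rcases eq_or_lt_of_le hA with rfl | hA
  · simp only [zero_mul, zero_add]; linarith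
  rcases le_total (Real.log A) a with h1 | h1
  · have e1 : defct A a = 0 := max_eq_left (by linarith)
    have e2 : defct A c = 0 := max_eq_left (by linarith)
    have h2 : A ≤ Real.exp a := by rw [← Real.exp_log hA]; exact Real.exp_le_exp.2 h1
    rw [e1, e2, sub_zero, mul_zero, zero_add]
    exact (mul_le_mul_of_nonneg_right h2 (by linarith)).trans (exp_mul_drop hac)
  have e1 : defct A a = Real.log A - a := max_eq_right (by linarith)
  rcases le_total (Real.log A) c with h2 | h2
  · have e2 : defct A c = 0 := max_eq_left (by linarith)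
    have h3 := exp_mul_drop h2
    rw [Real.exp_log hA] at h3
    have h4 : Real.exp a ≤ A := by rw [← Real.exp_log hA]; exact Real.exp_le_exp.2 h1
    rw [e1, e2, sub_zero]
    nlinarith
  · have e2 : defct A c = Real.log A - c := max_eq_right (by linarith)
    rw [e1, e2]
    nlinarith

/-- The primitive of `min (K exp, Y)`. -/
noncomputable def prim (K Y t : ℝ) : ℝ :=
  if t ≤ Real.log (Y / K) then K * Real.exp t else Y * (1 + t - Real.log (Y / K))

lemma prim_nonneg {K Y : ℝ} (hK : 0 < K) (hY : 0 < Y) (t : ℝ) : 0 ≤ prim K Y t := by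
  unfold prim; split
  · positivity
  · exact mul_nonneg hY.le (by linarith)

lemma prim_drop {K Y X a c : ℝ} (hK : 0 < K) (hY : 0 < Y) (hX1 : X ≤ K * Real.exp a)
    (hX2 : X ≤ Y) (hac : a ≤ c) : X * (c - a) ≤ prim K Y c - prim K Y a := by
  set l0 := Real.log (Y / K)
  have hl0 : K * Real.exp l0 = Y := by
    simp only [l0]; rw [Real.exp_log (by positivity)]; field_simp
  rcases le_or_gt c l0 with h1 | h1
  · rw [prim, prim, if_pos h1, if_pos (hac.trans h1)]
    have := mul_le_mul_of_nonneg_left (exp_mul_drop hac) hK.le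
    have := mul_le_mul_of_nonneg_right hX1 (sub_nonneg.2 hac)
    linarith
  rcases le_or_gt a l0 with h2 | h2
  · rw [prim, prim, if_neg (not_le.2 h1), if_pos h2]
    have e1 := mul_le_mul_of_nonneg_left (exp_mul_drop h2) hK.le
    have e2 := mul_le_mul_of_nonneg_right hX1 (sub_nonneg.2 h2)
    have e3 := mul_le_mul_of_nonneg_right hX2 (sub_nonneg.2 h1.le)
    nlinarith
  · rw [prim, prim, if_neg (not_le.2 h1), if_neg (not_le.2 h2)]
    have := mul_le_mul_of_nonneg_right hX2 (sub_nonneg.2 hac)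
    linarith

lemma prim_le {K Y R t : ℝ} (hK : 1 ≤ K) (hY : 0 < Y) (hR : 0 < R) (ht : Real.exp t ≤ R) :
    prim K Y t ≤ Y + Y * K + R := by
  have hK0 : 0 < K := by linarith
  have h1 := mul_log_div_le hY.le hR
  have h2 : Real.log K ≤ K := (Real.log_le_sub_one_of_pos hK0).trans (by linarith)
  have hl : Real.log (Y / K) = Real.log Y - Real.log K := Real.log_div hY.ne' hK0.ne'
  have h3 : t ≤ Real.log R := by
    rw [← Real.exp_le_exp, Real.exp_log hR]; exact ht
  unfold prim; split
  · rename_i hle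
    have : K * Real.exp t ≤ Y := by
      have := mul_le_mul_of_nonneg_left (Real.exp_le_exp.2 hle) hK0.le
      rw [Real.exp_log (by positivity), mul_div_cancel₀ _ hK0.ne'] at this
      exact this
    nlinarith [mul_pos hY hK0]
  · rw [hl]
    nlinarith [mul_le_mul_of_nonneg_left h2 hY.le, mul_le_mul_of_nonneg_left h3 hY.le]

lemma chg_nonneg (i₁ : ℤ) (v w : V) (i : I) : 0 ≤ chg x i₁ v w i :=
  div_nonneg (abs_nonneg _) (ds_nonneg x v w)

lemma ds_mul_chg (hD : 0 < ds x v w) (i₁ : ℤ) (i : I) :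
    ds x v w * chg x i₁ v w i = |Mf x i₁ w i - Mf x i₁ v i| := mul_div_cancel₀ _ hD.ne'

lemma chg_le_aa (h : P.Ok x) (hD : 0 < ds x v w) {i₁ : ℤ} (hk : 0 < kap x P i₁ v) (i : I) :
    chg x i₁ v w i ≤ 2 * Real.exp (2 * rf x i₁ v w) * aa x P i₁ v i := by
  rw [chg, div_le_iff₀ hD, aa, xi_eq_one_of_kap_pos h hk, one_mul, ← tt_mul_rf x i₁ v w]
  refine (abs_Mf_gain x i₁ v w i).trans ?_
  refine (mul_le_mul_of_nonneg_right (exp_sub_one_le _) (Qf_nonneg x i₁ v i₁ v i)).trans_eq ?_
  have := (tt_pos i₁).ne'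
  field_simp

/-- Bound on the deficit. -/
lemma defct_le (h : P.Ok x) (hD : 0 < ds x v w) {j : ℤ} (hbj : b ≤ j) (hjT : j ≤ P.T) (i : I)
    {m : ℕ} (hm : 0 < pw x P j v m) (hA : 0 < chg x (j - m) v w i) :
    defct (chg x (j - m) v w i) (Lam x P b J v w i j) ≤
      3 * m + 2 * rf x (j - m) v w + 1 := by
  have hk := (of_pw_pos x P hm).1
  have h1 : chg x (j - m) v w i ≤
      2 * Real.exp (2 * rf x (j - m) v w) * (4 ^ m * Real.exp (lam x P j v i)) := by
    refine (chg_le_aa h hD hk i).trans (mul_le_mul_of_nonneg_left ?_ (by positivity))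
    rw [exp_lam h]; exact aa_lag_le_Rf h hjT v i hm
  have h2 := Real.log_le_log hA h1
  rw [Real.log_mul (by positivity) (by positivity), Real.log_mul two_ne_zero (Real.exp_ne_zero _),
    Real.log_mul (by positivity) (Real.exp_ne_zero _), Real.log_exp, Real.log_exp,
    Real.log_pow] at h2
  have h4 : Real.log 4 ≤ 3 := (Real.log_le_sub_one_of_pos (by norm_num)).trans (by norm_num)
  have h2' : Real.log 2 ≤ 1 := (Real.log_le_sub_one_of_pos two_pos).trans (by norm_num)
  have hr := rf_nonneg x (j - m) v w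
  refine max_le (by positivity) ?_
  have := (lam_le_Lam (v := v) (w := w) (J := J) h hbj hjT i).1
  nlinarith [mul_le_mul_of_nonneg_left h4 (Nat.cast_nonneg (α := ℝ) m)]

lemma nrm_chg (h : P.Ok x) (hD : 0 < ds x v w) {i₁ : ℤ} (hk : 0 < kap x P i₁ v) :
    nrm p (chg x i₁ v w) ≤ 150 * P.Γ ∧
      rf x i₁ v w * nrm p (chg x i₁ v w) ≤ 150 * P.Γ + 5 * rf x i₁ v w := by
  have hΓ := h.big
  have hg := gf_lt_of_kap_pos h hk
  have hGv : Gf x i₁ v ≤ 4 * P.Γ := by linarith [Gf_le x i₁ v]
  have hr := rf_nonneg x i₁ v w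
  have ht := tt_pos i₁
  have htr := tt_mul_rf x i₁ v w
  rcases le_total (rf x i₁ v w) 1 with h1 | h1
  · have hA : nrm p (chg x i₁ v w) ≤ 150 * P.Γ := by
      refine (nrm_le_mul (c := 18 / tt i₁) (g := Qf x i₁ v i₁ v) (by positivity) fun i => ?_).trans ?_
      · rw [abs_of_nonneg (chg_nonneg i₁ v w i), chg, div_le_iff₀ hD, ← htr]
        refine (abs_Mf_gain x i₁ v w i).trans ?_
        refine (mul_le_mul_of_nonneg_right (exp_two_sub_one hr h1)
          (Qf_nonneg x i₁ v i₁ v i)).trans_eq ?_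
        field_simp
      · refine (mul_le_mul_of_nonneg_left (nrm_QQ x i₁ v i₁) (by positivity)).trans ?_
        rw [show 18 / tt i₁ * (tt i₁ * Gf x i₁ v + tt i₁ * Gf x i₁ v) = 36 * Gf x i₁ v by
          field_simp; ring]
        linarith
    refine ⟨hA, ?_⟩
    exact ((mul_le_of_le_one_left (nrm_nonneg _) h1).trans hA).trans (by linarith)
  · have hGw : Gf x i₁ w ≤ 4 * P.Γ + 4 * rf x i₁ v w := by
      linarith [Gf_le x i₁ w, (abs_le.1 (gf_lip x i₁ v w)).2]
    have hA : nrm p (chg x i₁ v w) * ds x v w ≤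
        ds x v w + tt i₁ * (8 * P.Γ + 4 * rf x i₁ v w) := by
      have h2 : nrm p (fun i => ds x v w * chg x i₁ v w i) ≤ nrm p (Qf x i₁ w i₁ v) :=
        nrm_mono fun i => by
          rw [ds_mul_chg hD, abs_abs]
          exact abs_Mf_sub_le x i₁ w i₁ v i
      rw [nrm_mul hD.le] at h2
      have h3 := nrm_Qf x i₁ w i₁ v
      rw [ds_comm x w v] at h3
      nlinarith [mul_le_mul_of_nonneg_left (add_le_add hGw hGv) ht.le]
    rw [← htr] at hA
    constructor
    · have h5 : nrm p (chg x i₁ v w) * rf x i₁ v w ≤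
          rf x i₁ v w + (8 * P.Γ + 4 * rf x i₁ v w) := by
        nlinarith
      have h6 : nrm p (chg x i₁ v w) * rf x i₁ v w ≤ (5 + 8 * P.Γ) * rf x i₁ v w := by
        nlinarith
      linarith [le_of_mul_le_mul_right h6 (by linarith)]
    · nlinarith

/-- The potential of a level. -/
noncomputable def pot (x : V → Ell p I) (P : Prm) (b J : ℤ) (v w : V) (i : I) (j : ℤ) : ℝ :=
  (1 - kap x P j v) * ∑ m ∈ Finset.range P.L, pw x P (j - 1) v m * (chg x (j - 1 - m) v w i *
    (3 * m + 2 * rf x (j - 1 - m) v w + 1 -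
      defct (chg x (j - 1 - m) v w i) (Lam x P b J v w i (j - 1))))

lemma pot_term_nonneg (h : P.Ok x) (hD : 0 < ds x v w) {j : ℤ} (hbj : b ≤ j) (hjT : j ≤ P.T)
    (i : I) (m : ℕ) :
    0 ≤ pw x P j v m * (chg x (j - m) v w i *
      (3 * m + 2 * rf x (j - m) v w + 1 - defct (chg x (j - m) v w i) (Lam x P b J v w i j))) := by
  rcases eq_or_lt_of_le (pw_nonneg x P j v m) with hz | hz
  · rw [← hz, zero_mul]
  rcases eq_or_lt_of_le (chg_nonneg (x := x) (j - m) v w i) with hA | hA
  · rw [← hA, zero_mul, mul_zero]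
  · exact mul_nonneg hz.le (mul_nonneg hA.le (sub_nonneg.2 (defct_le h hD hbj hjT i hz hA)))

lemma pot_nonneg (h : P.Ok x) (hD : 0 < ds x v w) {j : ℤ} (hbj : b ≤ j - 1) (hjT : j - 1 ≤ P.T)
    (i : I) : 0 ≤ pot x P b J v w i j :=
  mul_nonneg (sub_nonneg.2 (kap_le_one x P j v))
    (Finset.sum_nonneg fun m _ => pot_term_nonneg h hD hbj hjT i m)

/-- One step of the potential. -/
lemma pot_step (h : P.Ok x) (hD : 0 < ds x v w) {j : ℤ} (hbj : b ≤ j) (hjT : j ≤ P.T) (i : I) :
    (1 - kap x P j v) * ∑ m ∈ Finset.range P.L, pw x P (j - 1) v m * (chg x (j - 1 - m) v w i *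
      (defct (chg x (j - 1 - m) v w i) (Lam x P b J v w i j) -
        defct (chg x (j - 1 - m) v w i) (Lam x P b J v w i (j - 1)))) ≤
      pot x P b J v w i j - pot x P b J v w i (j + 1) +
        (1 - kap x P (j + 1) v) * kap x P j v * ((2 * rf x j v w + 1) * chg x j v w i) +
        3 * (1 - kap x P j v) *
          ∑ m ∈ Finset.range P.L, pw x P (j - 1) v m * chg x (j - 1 - m) v w i := by
  set F : ℤ → ℝ := fun i₁ => chg x i₁ v w i *
    (3 * ((j - i₁ : ℤ) : ℝ) + 2 * rf x i₁ v w + 1 -
      defct (chg x i₁ v w i) (Lam x P b J v w i j)) with hF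
  have e1 : pot x P b J v w i (j + 1) = (1 - kap x P (j + 1) v) *
      ∑ m ∈ Finset.range P.L, pw x P j v m * F (j - m) := by
    rw [pot, add_sub_cancel_right]
    refine congrArg _ (Finset.sum_congr rfl fun m _ => ?_)
    simp only [hF]; push_cast; ring_nf
  have hrec := sum_pw_rec h j v F
  set S1 := ∑ m ∈ Finset.range P.L, pw x P (j - 1) v m * F (j - 1 - m) with hS1
  have hS1n : 0 ≤ (1 - kap x P j v) * S1 := by
    rw [hS1, Finset.mul_sum]
    refine Finset.sum_nonneg fun m hm => ?_
    have := pot_term_nonneg (J := J) (w := w) h hD hbj hjT i (m + 1)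
    rw [pw_succ, show j - ((m + 1 : ℕ) : ℤ) = j - 1 - (m : ℤ) by push_cast; ring] at this
    refine this.trans_eq ?_
    simp only [hF]; push_cast; ring
  have hFj : F j ≤ (2 * rf x j v w + 1) * chg x j v w i := by
    simp only [hF, sub_self, Int.cast_zero, mul_zero, zero_add]
    have hd : 0 ≤ defct (chg x j v w i) (Lam x P b J v w i j) := le_max_left _ _
    nlinarith [mul_nonneg (chg_nonneg (x := x) j v w i) hd]
  have hk1 := sub_nonneg.2 (kap_le_one x P (j + 1) v)
  have hk := kap_nonneg x P j v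
  have hk' := kap_nonneg x P (j + 1) v
  have hpot1 : pot x P b J v w i (j + 1) ≤
      (1 - kap x P (j + 1) v) * kap x P j v * ((2 * rf x j v w + 1) * chg x j v w i) +
        (1 - kap x P j v) * S1 := by
    rw [e1, hrec]
    nlinarith [mul_le_mul_of_nonneg_left hFj (mul_nonneg hk1 hk), mul_nonneg hk' hS1n]
  have e2 : (1 - kap x P j v) * ∑ m ∈ Finset.range P.L, pw x P (j - 1) v m *
      (chg x (j - 1 - m) v w i * (defct (chg x (j - 1 - m) v w i) (Lam x P b J v w i j) -
        defct (chg x (j - 1 - m) v w i) (Lam x P b J v w i (j - 1)))) =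
      pot x P b J v w i j - (1 - kap x P j v) * S1 + 3 * (1 - kap x P j v) *
        ∑ m ∈ Finset.range P.L, pw x P (j - 1) v m * chg x (j - 1 - m) v w i := by
    rw [pot, hS1, mul_comm (3 : ℝ), mul_assoc, ← mul_sub, ← mul_add]
    congr 1
    rw [Finset.mul_sum, ← Finset.sum_sub_distrib, ← Finset.sum_add_distrib]
    refine Finset.sum_congr rfl fun m _ => ?_
    simp only [hF]; push_cast; ring
  rw [e2]
  linarith

lemma abs_Cf_sub (h : P.Ok x) (hD : 0 < ds x v w) (hJ : IsLevel x v w J) {j : ℤ} (hj : J ≤ j)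
    (hjT : j ≤ P.T) (i : I) :
    |Cf x P j w i - Cf x P j v i| ≤ 18 * ds x v w * Rf x P j v i +
      ds x v w * ((1 - kap x P j v) *
        ∑ m ∈ Finset.range P.L, pw x P (j - 1) v m * chg x (j - 1 - m) v w i) +
      ds x v w * (KK P.L * Bf x P j w i) := by
  have e : Cf x P j w i - Cf x P j v i =
      ∑ m ∈ Finset.range P.L, pw x P j v m * (Mf x (j - m) w i - Mf x (j - m) v i) +
      ∑ m ∈ Finset.range P.L, (pw x P j w m - pw x P j v m) *
        (Mf x (j - m) w i - Mf x j w i) := by
    simp only [mul_sub, sub_mul, Finset.sum_sub_distrib, ← Finset.sum_mul, sum_pw h, Cf]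
    ring
  rw [e]
  refine (abs_add_le _ _).trans (add_le_add ?_ ?_)
  · refine (Finset.abs_sum_le_sum_abs _ _).trans ?_
    have e2 : ∀ m : ℕ, |pw x P j v m * (Mf x (j - m) w i - Mf x (j - m) v i)| =
        ds x v w * (pw x P j v m * chg x (j - m) v w i) := fun m => by
      rw [abs_mul, abs_of_nonneg (pw_nonneg x P j v m), ← ds_mul_chg hD]; ring
    rw [Finset.sum_congr rfl fun m _ => e2 m, ← Finset.mul_sum,
      sum_pw_rec h j v fun i₁ => chg x i₁ v w i, mul_add]
    refine add_le_add ?_ le_rfl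
    have hR := Rf_pos h j v i
    rcases eq_or_lt_of_le (kap_nonneg x P j v) with hz | hz
    · rw [← hz, zero_mul, mul_zero]; positivity
    · have h1 := chg_le_aa h hD hz i
      have h2 := aa_le_Rf h hjT v i
      have h3 : Real.exp (2 * rf x j v w) ≤ 9 :=
        (Real.exp_le_exp.2 (by linarith [rf_le_one hJ hj])).trans exp_two_le
      have h4 : chg x j v w i ≤ 18 * Rf x P j v i := by
        refine h1.trans ?_
        nlinarith [mul_le_mul h3 h2 (aa_nonneg j v i) (by norm_num : (0 : ℝ) ≤ 9)]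
      calc ds x v w * (kap x P j v * chg x j v w i) ≤ ds x v w * (1 * (18 * Rf x P j v i)) :=
            mul_le_mul_of_nonneg_left (mul_le_mul (kap_le_one x P j v) h4
              (chg_nonneg j v w i) zero_le_one) hD.le
        _ = _ := by ring
  · refine (Finset.abs_sum_le_sum_abs _ _).trans ?_
    have hc : 0 ≤ KK P.L * rf x j v w / P.Γ := by
      have := rf_nonneg x j v w
      have := KK_pos P.L
      have := h.pos
      positivity
    calc ∑ m ∈ Finset.range P.L, |(pw x P j w m - pw x P j v m) *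
          (Mf x (j - m) w i - Mf x j w i)|
        ≤ ∑ m ∈ Finset.range P.L, KK P.L * rf x j v w / P.Γ * Qf x j w (j - m) w i := by
          refine Finset.sum_le_sum fun m hm => ?_
          rw [abs_mul]
          refine mul_le_mul ((abs_pw_sub h j v w m).trans ?_) ?_ (abs_nonneg _) hc
          · refine div_le_div_of_nonneg_right (mul_le_mul_of_nonneg_right ?_
              (rf_nonneg x j v w)) h.pos.le
            exact two_pow_le_KK (by have := Finset.mem_range.1 hm; omega)
          · rw [abs_sub_comm]; exact abs_Mf_sub_le x j w _ w i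
      _ ≤ KK P.L * rf x j v w / P.Γ * (tt j * bb x P j w i) := by
          rw [← Finset.mul_sum, bb, mul_div_cancel₀ _ (tt_pos j).ne']
          exact mul_le_mul_of_nonneg_left (Finset.sum_le_sum_of_subset_of_nonneg
            (Finset.range_subset_range.2 (by omega))
            fun m _ _ => Qf_nonneg x j w _ w i) hc
      _ ≤ _ := by
          have hbb : bb x P j w i / P.Γ ≤ Bf x P j w i :=
            div_le_div_of_nonneg_right (Finset.single_le_sum (f := fun l => bb x P l w i)
              (fun l _ => bb_nonneg l w i) (Finset.mem_Icc.2 ⟨by omega, hjT⟩)) h.pos.le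
          calc KK P.L * rf x j v w / P.Γ * (tt j * bb x P j w i) =
              ds x v w * (KK P.L * (bb x P j w i / P.Γ)) := by
                rw [← tt_mul_rf x j v w]; ring
            _ ≤ _ := mul_le_mul_of_nonneg_left
                (mul_le_mul_of_nonneg_left hbb (KK_pos _).le) hD.le

lemma kap_irr (h : P.Ok x) (l : ℤ) (v : V) : 1 - kap x P l v ≤ irr x P l v := by
  rcases eq_or_lt_of_le (kap_le_one x P l v) with hk | hk
  · rw [hk, sub_self]; exact irr_nonneg l v
  · rw [irr, if_pos (by linarith [lt_gf_of_kap_lt_one h hk, h.pos])]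
    linarith [kap_nonneg x P l v]

lemma lag_le_cnt (h : P.Ok x) {j : ℤ} (hjT : j ≤ P.T) {m : ℕ} (hm : 0 < pw x P j v m) :
    (m : ℝ) ≤ cnt x P (j - P.L) v := by
  have hmL : m < P.L := by
    by_contra hc
    rw [pw_eq_zero h j v (le_of_not_gt hc)] at hm
    exact lt_irrefl _ hm
  have h1 := (of_pw_pos x P hm).2
  calc (m : ℝ) = ∑ q ∈ Finset.range m, irr x P (j - q) v := by
        rw [Finset.sum_congr rfl (g := fun _ => (1 : ℝ)) fun q hq => by
          rw [irr, if_pos (by linarith [lt_gf_of_kap_lt_one h (h1 q (Finset.mem_range.1 hq)),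
            h.pos])]]
        simp
    _ = ∑ l ∈ (Finset.range m).image (fun q : ℕ => j - (q : ℤ)), irr x P l v := by
        rw [Finset.sum_image]; intro a _ c _ hac; simpa using hac
    _ ≤ _ := Finset.sum_le_sum_of_subset_of_nonneg (fun l hl => by
        simp only [Finset.mem_image, Finset.mem_range, Finset.mem_Icc] at hl ⊢
        obtain ⟨q, hq, rfl⟩ := hl; omega) fun l _ _ => irr_nonneg l v

end Vale.Agent.P249.Full
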