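import Vale.Agent.P249.Full.Gibbs

/-!
Cut-offs, smoothed centres and their envelopes.
-/

namespace Vale.Agent.P249.Full

open Finset Vale.Agent.P249.Sub

set_option linter.unusedSectionVars false

/-- Parameters of one variant: growth threshold, maximal lag, floor and top level. -/
structure Prm : Type where
  Γ : ℝ
  L : ℕ
  floor : ℝ
  T : ℤ

variable {p : ℝ} [hp : Fact (1 ≤ ENNReal.ofReal p)] {V I : Type*} [Fintype V] [Fintype I]

/-- Centre weight cut-off. -/
noncomputable def kap (x : V → Ell p I) (P : Prm) (j : ℤ) (v : V) : ℝ := cl (2 - gf x j v / P.Γ)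

/-- Envelope cut-off. -/
noncomputable def xi (x : V → Ell p I) (P : Prm) (j : ℤ) (v : V) : ℝ := cl (4 - gf x j v / P.Γ)

/-- Memory cut-off. -/
noncomputable def nu (x : V → Ell p I) (P : Prm) (j : ℤ) (v : V) : ℝ :=
  cl (2 * gf x j v / P.Γ - 1)

/-- Weight of lag `m` in the centre of level `j`. -/
noncomputable def pw (x : V → Ell p I) (P : Prm) (j : ℤ) (v : V) (m : ℕ) : ℝ :=
  kap x P (j - m) v * ∏ q ∈ Finset.range m, (1 - kap x P (j - q) v)

/-- Smoothed centre. -/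
noncomputable def Cf (x : V → Ell p I) (P : Prm) (j : ℤ) (v : V) (i : I) : ℝ :=
  ∑ m ∈ Finset.range P.L, pw x P j v m * Mf x (j - m) v i

/-- Increment of the centre. -/
noncomputable def dC (x : V → Ell p I) (P : Prm) (j : ℤ) (v : V) (i : I) : ℝ :=
  Cf x P j v i - Cf x P (j - 1) v i

/-- Envelope of one level. -/
noncomputable def aa (x : V → Ell p I) (P : Prm) (l : ℤ) (v : V) (i : I) : ℝ :=
  xi x P l v * Qf x l v l v i / tt l

/-- Envelope of one increment. -/
noncomputable def ee (x : V → Ell p I) (P : Prm) (l : ℤ) (v : V) (i : I) : ℝ :=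
  xi x P l v *
    (∑ m ∈ Finset.range P.L, pw x P (l - 1) v m * Qf x l v (l - 1 - m) v i) / tt l

/-- Crude envelope. -/
noncomputable def bb (x : V → Ell p I) (P : Prm) (l : ℤ) (v : V) (i : I) : ℝ :=
  (∑ m ∈ Finset.range (P.L + 2), Qf x l v (l - m) v i) / tt l

/-- Memory coefficient. -/
noncomputable def qq (x : V → Ell p I) (P : Prm) (j : ℤ) (v : V) (m : ℕ) : ℝ :=
  (1 / 4) ^ m * ∏ q ∈ Finset.range m, nu x P (j - q) v

/-- Lagged component. -/
noncomputable def lag (x : V → Ell p I) (P : Prm) (j : ℤ) (v : V) (i : I) (m : ℕ) : ℝ :=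
  qq x P j v (m + 1) * aa x P (j - (m + 1 : ℕ)) v i

/-- The `p`-th power envelope. -/
noncomputable def Sf (x : V → Ell p I) (P : Prm) (j : ℤ) (v : V) (i : I) : ℝ :=
  P.floor ^ p + ∑ l ∈ Finset.Icc j P.T, aa x P l v i ^ p
    + ∑ l ∈ Finset.Icc (j + 1) P.T, ee x P l v i ^ p
    + ∑ m ∈ Finset.range P.L, lag x P j v i m ^ p

/-- The crude cumulative envelope. -/
noncomputable def Bf (x : V → Ell p I) (P : Prm) (j : ℤ) (v : V) (i : I) : ℝ :=
  (∑ l ∈ Finset.Icc (j - P.L - 1) P.T, bb x P l v i) / P.Γ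

/-- The envelope. -/
noncomputable def Rf (x : V → Ell p I) (P : Prm) (j : ℤ) (v : V) (i : I) : ℝ :=
  Sf x P j v i ^ p⁻¹ + Bf x P j v i

/-- The logarithm of the envelope. -/
noncomputable def lam (x : V → Ell p I) (P : Prm) (j : ℤ) (v : V) (i : I) : ℝ :=
  Real.log (Rf x P j v i)

/-- Validity of parameters. -/
structure Prm.Ok (x : V → Ell p I) (P : Prm) : Prop where
  big : 16 ≤ P.Γ
  lag_bound : Real.log (Fintype.card V) < P.L * P.Γ
  floor_pos : 0 < P.floor

variable (x : V → Ell p I) (P : Prm)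

lemma Prm.Ok.pos {x : V → Ell p I} {P : Prm} (h : P.Ok x) : 0 < P.Γ := by
  linarith [h.big]

lemma kap_nonneg (j : ℤ) (v : V) : 0 ≤ kap x P j v := cl_nonneg _

lemma kap_le_one (j : ℤ) (v : V) : kap x P j v ≤ 1 := cl_le_one _

lemma xi_nonneg (j : ℤ) (v : V) : 0 ≤ xi x P j v := cl_nonneg _

lemma xi_le_one (j : ℤ) (v : V) : xi x P j v ≤ 1 := cl_le_one _

lemma nu_nonneg (j : ℤ) (v : V) : 0 ≤ nu x P j v := cl_nonneg _

lemma nu_le_one (j : ℤ) (v : V) : nu x P j v ≤ 1 := cl_le_one _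

variable {x P}

lemma gf_lt_of_kap_pos (h : P.Ok x) {j : ℤ} {v : V} (hk : 0 < kap x P j v) :
    gf x j v < 2 * P.Γ := by
  have := of_cl_pos hk
  rw [sub_pos, div_lt_iff₀ h.pos] at this
  linarith

lemma lt_gf_of_kap_lt_one (h : P.Ok x) {j : ℤ} {v : V} (hk : kap x P j v < 1) :
    P.Γ < gf x j v := by
  have := of_cl_lt_one hk
  rw [sub_lt_comm, lt_div_iff₀ h.pos] at this
  linarith

lemma gf_lt_of_xi_pos (h : P.Ok x) {j : ℤ} {v : V} (hk : 0 < xi x P j v) :
    gf x j v < 4 * P.Γ := by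
  have := of_cl_pos hk
  rw [sub_pos, div_lt_iff₀ h.pos] at this
  linarith

lemma xi_eq_one (h : P.Ok x) {j : ℤ} {v : V} (hg : gf x j v ≤ 3 * P.Γ) : xi x P j v = 1 := by
  refine cl_eq_one ?_
  rw [le_sub_comm, div_le_iff₀ h.pos]; linarith

lemma kap_eq_one (h : P.Ok x) {j : ℤ} {v : V} (hg : gf x j v ≤ P.Γ) : kap x P j v = 1 := by
  refine cl_eq_one ?_
  rw [le_sub_comm, div_le_iff₀ h.pos]; linarith

lemma nu_eq_one (h : P.Ok x) {j : ℤ} {v : V} (hg : P.Γ ≤ gf x j v) : nu x P j v = 1 := by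
  refine cl_eq_one ?_
  rw [le_sub_iff_add_le, le_div_iff₀ h.pos]; linarith

lemma lt_gf_of_nu_pos (h : P.Ok x) {j : ℤ} {v : V} (hk : 0 < nu x P j v) :
    P.Γ / 2 < gf x j v := by
  have := of_cl_pos hk
  rw [sub_pos, lt_div_iff₀ h.pos] at this
  linarith

lemma xi_eq_one_of_kap_pos (h : P.Ok x) {j : ℤ} {v : V} (hk : 0 < kap x P j v) :
    xi x P j v = 1 :=
  xi_eq_one h (by linarith [gf_lt_of_kap_pos h hk, h.pos])

lemma cut_lip (h : P.Ok x) (j : ℤ) (v w : V) :
    |kap x P j w - kap x P j v| ≤ 2 * rf x j v w / P.Γ ∧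
    |xi x P j w - xi x P j v| ≤ 2 * rf x j v w / P.Γ ∧
    |nu x P j w - nu x P j v| ≤ 4 * rf x j v w / P.Γ := by
  have hg := gf_lip x j v w
  have hΓ := h.pos
  have key : ∀ a b : ℝ, |a - b| ≤ |gf x j w - gf x j v| / P.Γ → |a - b| ≤ 2 * rf x j v w / P.Γ :=
    fun a b hab => hab.trans (div_le_div_of_nonneg_right hg hΓ.le)
  refine ⟨key _ _ ((abs_cl_sub _ _).trans_eq ?_), key _ _ ((abs_cl_sub _ _).trans_eq ?_),
    (abs_cl_sub _ _).trans ?_⟩
  · rw [sub_sub_sub_cancel_left, ← sub_div, abs_div, abs_of_pos hΓ, abs_sub_comm]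
  · rw [sub_sub_sub_cancel_left, ← sub_div, abs_div, abs_of_pos hΓ, abs_sub_comm]
  · rw [sub_sub_sub_cancel_right, ← sub_div, abs_div, abs_of_pos hΓ, ← mul_sub, abs_mul,
      abs_of_pos (two_pos : (0 : ℝ) < 2)]
    exact div_le_div_of_nonneg_right (by linarith) hΓ.le

variable (x P)

lemma pw_nonneg (j : ℤ) (v : V) (m : ℕ) : 0 ≤ pw x P j v m :=
  mul_nonneg (kap_nonneg x P _ v)
    (Finset.prod_nonneg fun q _ => sub_nonneg.2 (kap_le_one x P _ v))

lemma pw_zero (j : ℤ) (v : V) : pw x P j v 0 = kap x P j v := by simp [pw]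

lemma pw_succ (j : ℤ) (v : V) (m : ℕ) :
    pw x P j v (m + 1) = (1 - kap x P j v) * pw x P (j - 1) v m := by
  have e : ∀ q : ℕ, j - ((q + 1 : ℕ) : ℤ) = j - 1 - (q : ℤ) := fun q => by push_cast; ring
  simp only [pw, Finset.prod_range_succ', e, Nat.cast_zero, sub_zero]
  ring

lemma pw_le_one (j : ℤ) (v : V) (m : ℕ) : pw x P j v m ≤ 1 :=
  mul_le_one₀ (kap_le_one x P _ v)
    (Finset.prod_nonneg fun q _ => sub_nonneg.2 (kap_le_one x P _ v))
    (Finset.prod_le_one (fun q _ => sub_nonneg.2 (kap_le_one x P _ v))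
      fun q _ => by linarith [kap_nonneg x P (j - q) v])

lemma sum_pw_add (j : ℤ) (v : V) (M : ℕ) :
    ∑ m ∈ Finset.range M, pw x P j v m + ∏ q ∈ Finset.range M, (1 - kap x P (j - q) v) = 1 := by
  induction M with
  | zero => simp
  | succ M ih =>
    rw [Finset.sum_range_succ, Finset.prod_range_succ]
    conv_rhs => rw [← ih]
    simp only [pw]
    ring

lemma of_pw_pos {j : ℤ} {v : V} {m : ℕ} (hm : 0 < pw x P j v m) :
    0 < kap x P (j - m) v ∧ ∀ q < m, kap x P (j - q) v < 1 := by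
  refine ⟨?_, fun q hq => ?_⟩
  · rcases eq_or_lt_of_le (kap_nonneg x P (j - m) v) with hz | hz
    · simp [pw, ← hz] at hm
    · exact hz
  · rcases eq_or_lt_of_le (kap_le_one x P (j - q) v) with hz | hz
    · have hprod : ∏ q ∈ Finset.range m, (1 - kap x P (j - q) v) = 0 :=
        Finset.prod_eq_zero (Finset.mem_range.2 hq) (by rw [hz, sub_self])
      simp [pw, hprod] at hm
    · exact hz

variable {x P}

lemma prod_kap_eq_zero (h : P.Ok x) (j : ℤ) (v : V) {M : ℕ} (hM : P.L ≤ M) :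
    ∏ q ∈ Finset.range M, (1 - kap x P (j - q) v) = 0 := by
  by_contra hne
  have hg : ∀ q ∈ Finset.range P.L, P.Γ ≤ gf x (j - q) v := by
    intro q hq
    refine (lt_gf_of_kap_lt_one h (lt_of_le_of_ne (kap_le_one x P _ v) fun he => hne ?_)).le
    exact Finset.prod_eq_zero (Finset.mem_range.2 (lt_of_lt_of_le (Finset.mem_range.1 hq) hM))
      (by rw [he, sub_self])
  have h1 := Finset.sum_le_sum hg
  have h2 : ∑ q ∈ Finset.range P.L, gf x (j - q) v =
      ∑ l ∈ (Finset.range P.L).image (fun q : ℕ => j - (q : ℤ)), gf x l v := by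
    rw [Finset.sum_image]
    intro a _ b _ hab
    simpa using hab
  have h3 := sum_gf_le x ((Finset.range P.L).image fun q : ℕ => j - (q : ℤ)) v
  rw [← h2] at h3
  simp only [Finset.sum_const, Finset.card_range, nsmul_eq_mul] at h1
  linarith [h.lag_bound]

lemma pw_eq_zero (h : P.Ok x) (j : ℤ) (v : V) {m : ℕ} (hm : P.L ≤ m) : pw x P j v m = 0 := by
  simp [pw, prod_kap_eq_zero h j v hm]

lemma sum_pw (h : P.Ok x) (j : ℤ) (v : V) : ∑ m ∈ Finset.range P.L, pw x P j v m = 1 := by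
  have := sum_pw_add x P j v P.L
  rwa [prod_kap_eq_zero h j v le_rfl, add_zero] at this

lemma L_pos (h : P.Ok x) : 0 < P.L := by
  rcases Nat.eq_zero_or_pos P.L with hz | hz
  · have := h.lag_bound
    rw [hz, Nat.cast_zero, zero_mul] at this
    linarith [Real.log_natCast_nonneg (Fintype.card V)]
  · exact hz

lemma Cf_rec (h : P.Ok x) (j : ℤ) (v : V) (i : I) :
    Cf x P j v i = kap x P j v * Mf x j v i + (1 - kap x P j v) * Cf x P (j - 1) v i := by
  have e : Cf x P j v i = ∑ m ∈ Finset.range (P.L + 1), pw x P j v m * Mf x (j - m) v i := by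
    rw [Finset.sum_range_succ, pw_eq_zero h j v le_rfl, zero_mul, add_zero, Cf]
  rw [e, Finset.sum_range_succ', pw_zero, Nat.cast_zero, sub_zero, add_comm, Cf, Finset.mul_sum]
  congr 1
  refine Finset.sum_congr rfl fun m _ => ?_
  rw [pw_succ, show j - ((m + 1 : ℕ) : ℤ) = j - 1 - (m : ℤ) by push_cast; ring]
  ring

lemma aa_nonneg (l : ℤ) (v : V) (i : I) : 0 ≤ aa x P l v i :=
  div_nonneg (mul_nonneg (xi_nonneg x P l v) (Qf_nonneg x l v l v i)) (tt_pos l).le

lemma ee_nonneg (l : ℤ) (v : V) (i : I) : 0 ≤ ee x P l v i :=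
  div_nonneg (mul_nonneg (xi_nonneg x P l v) (Finset.sum_nonneg fun m _ =>
    mul_nonneg (pw_nonneg x P _ v m) (Qf_nonneg x l v _ v i))) (tt_pos l).le

lemma bb_nonneg (l : ℤ) (v : V) (i : I) : 0 ≤ bb x P l v i :=
  div_nonneg (Finset.sum_nonneg fun m _ => Qf_nonneg x l v _ v i) (tt_pos l).le

lemma qq_nonneg (j : ℤ) (v : V) (m : ℕ) : 0 ≤ qq x P j v m :=
  mul_nonneg (by positivity) (Finset.prod_nonneg fun q _ => nu_nonneg x P _ v)

lemma qq_le (j : ℤ) (v : V) (m : ℕ) : qq x P j v m ≤ (1 / 4) ^ m :=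
  mul_le_of_le_one_right (by positivity)
    (Finset.prod_le_one (fun q _ => nu_nonneg x P _ v) fun q _ => nu_le_one x P _ v)

lemma lag_nonneg (j : ℤ) (v : V) (i : I) (m : ℕ) : 0 ≤ lag x P j v i m :=
  mul_nonneg (qq_nonneg j v _) (aa_nonneg _ v i)

lemma aa_le_bb (l : ℤ) (v : V) (i : I) : aa x P l v i ≤ bb x P l v i := by
  refine div_le_div_of_nonneg_right ?_ (tt_pos l).le
  refine (mul_le_of_le_one_left (Qf_nonneg x l v l v i) (xi_le_one x P l v)).trans ?_
  have := Finset.single_le_sum (f := fun m : ℕ => Qf x l v (l - m) v i)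
    (fun m _ => Qf_nonneg x l v _ v i) (Finset.mem_range.2 (Nat.succ_pos (P.L + 1)))
  simpa using this

lemma ee_le_bb (l : ℤ) (v : V) (i : I) : ee x P l v i ≤ bb x P l v i := by
  refine div_le_div_of_nonneg_right ?_ (tt_pos l).le
  refine (mul_le_of_le_one_left (Finset.sum_nonneg fun m _ =>
    mul_nonneg (pw_nonneg x P _ v m) (Qf_nonneg x l v _ v i)) (xi_le_one x P l v)).trans ?_
  rw [Finset.sum_range_succ', Finset.sum_range_succ]
  refine le_trans (Finset.sum_le_sum fun m _ => ?_)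
    ((le_add_of_nonneg_right (Qf_nonneg x l v _ v i)).trans
      (le_add_of_nonneg_right (Qf_nonneg x l v _ v i)))
  rw [show l - ((m + 1 : ℕ) : ℤ) = l - 1 - (m : ℤ) by push_cast; ring]
  exact mul_le_of_le_one_left (Qf_nonneg x l v _ v i) (pw_le_one x P _ v m)

lemma abs_dC_le (h : P.Ok x) (j : ℤ) (v : V) (i : I) :
    |dC x P j v i| ≤ tt j * ee x P j v i := by
  have e : dC x P j v i = kap x P j v *
      ∑ m ∈ Finset.range P.L, pw x P (j - 1) v m * (Mf x j v i - Mf x (j - 1 - m) v i) := by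
    rw [dC, Cf_rec h j v i]
    simp only [mul_sub, Finset.sum_sub_distrib, ← Finset.sum_mul, sum_pw h (j - 1) v, one_mul, Cf]
    ring
  rw [e, abs_mul, abs_of_nonneg (kap_nonneg x P j v), ee, mul_div_cancel₀ _ (tt_pos j).ne']
  rcases eq_or_lt_of_le (kap_nonneg x P j v) with hz | hz
  · rw [← hz, zero_mul]
    exact mul_nonneg (xi_nonneg x P j v) (Finset.sum_nonneg fun m _ =>
      mul_nonneg (pw_nonneg x P _ v m) (Qf_nonneg x j v _ v i))
  · rw [xi_eq_one_of_kap_pos h hz, one_mul]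
    refine (mul_le_of_le_one_left (abs_nonneg _) (kap_le_one x P j v)).trans ?_
    refine (Finset.abs_sum_le_sum_abs _ _).trans (Finset.sum_le_sum fun m _ => ?_)
    rw [abs_mul, abs_of_nonneg (pw_nonneg x P _ v m)]
    exact mul_le_mul_of_nonneg_left (abs_Mf_sub_le x j v _ v i) (pw_nonneg x P _ v m)

lemma qq_one_of_pw_pos (h : P.Ok x) {j : ℤ} {v : V} {m : ℕ} (hm : 0 < pw x P j v m) :
    qq x P j v m = (1 / 4) ^ m := by
  have h1 := (of_pw_pos x P hm).2
  have : ∏ q ∈ Finset.range m, nu x P (j - q) v = 1 :=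
    Finset.prod_eq_one fun q hq =>
      nu_eq_one h (lt_gf_of_kap_lt_one h (h1 q (Finset.mem_range.1 hq))).le
  rw [qq, this, mul_one]

lemma qq_succ_le (j : ℤ) (v : V) (m : ℕ) :
    qq x P j v (m + 1) ≤ 1 / 4 * qq x P (j - 1) v m := by
  have e : ∀ q : ℕ, j - ((q + 1 : ℕ) : ℤ) = j - 1 - (q : ℤ) := fun q => by push_cast; ring
  simp only [qq, Finset.prod_range_succ', e, Nat.cast_zero, sub_zero, pow_succ]
  have : (1 / 4 : ℝ) ^ m * (1 / 4) * ((∏ q ∈ Finset.range m, nu x P (j - 1 - q) v) * nu x P j v) =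
      1 / 4 * ((1 / 4) ^ m * ∏ q ∈ Finset.range m, nu x P (j - 1 - q) v) * nu x P j v := by ring
  rw [this]
  exact mul_le_of_le_one_right (mul_nonneg (by norm_num) (qq_nonneg (j - 1) v m))
    (nu_le_one x P j v)

lemma Sf_pos (h : P.Ok x) (j : ℤ) (v : V) (i : I) : 0 < Sf x P j v i := by
  have := Real.rpow_pos_of_pos h.floor_pos p
  have h1 : 0 ≤ ∑ l ∈ Finset.Icc j P.T, aa x P l v i ^ p :=
    Finset.sum_nonneg fun l _ => Real.rpow_nonneg (aa_nonneg l v i) _
  have h2 : 0 ≤ ∑ l ∈ Finset.Icc (j + 1) P.T, ee x P l v i ^ p :=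
    Finset.sum_nonneg fun l _ => Real.rpow_nonneg (ee_nonneg l v i) _
  have h3 : 0 ≤ ∑ m ∈ Finset.range P.L, lag x P j v i m ^ p :=
    Finset.sum_nonneg fun m _ => Real.rpow_nonneg (lag_nonneg j v i m) _
  rw [Sf]; linarith

lemma Bf_nonneg (h : P.Ok x) (j : ℤ) (v : V) (i : I) : 0 ≤ Bf x P j v i :=
  div_nonneg (Finset.sum_nonneg fun l _ => bb_nonneg l v i) h.pos.le

lemma Rf_pos (h : P.Ok x) (j : ℤ) (v : V) (i : I) : 0 < Rf x P j v i :=
  add_pos_of_pos_of_nonneg (Real.rpow_pos_of_pos (Sf_pos h j v i) _) (Bf_nonneg h j v i)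

lemma exp_lam (h : P.Ok x) (j : ℤ) (v : V) (i : I) :
    Real.exp (lam x P j v i) = Rf x P j v i := Real.exp_log (Rf_pos h j v i)

/-- The envelope drops by at least the new components. -/
lemma Sf_drop (h : P.Ok x) {j : ℤ} (hj : j ≤ P.T) (v : V) (i : I) :
    Sf x P j v i + (aa x P (j - 1) v i ^ p + ee x P j v i ^ p) / 2 ≤ Sf x P (j - 1) v i := by
  have hp1 : 1 ≤ p := one_le_p
  have e1 : Finset.Icc (j - 1) P.T = insert (j - 1) (Finset.Icc j P.T) := by
    ext l; simp only [Finset.mem_insert, Finset.mem_Icc]; omega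
  have e2 : Finset.Icc (j - 1 + 1) P.T = insert j (Finset.Icc (j + 1) P.T) := by
    ext l; simp only [Finset.mem_insert, Finset.mem_Icc]; omega
  have hlag : ∑ m ∈ Finset.range P.L, lag x P j v i m ^ p ≤
      aa x P (j - 1) v i ^ p / 4 + ∑ m ∈ Finset.range P.L, lag x P (j - 1) v i m ^ p := by
    calc ∑ m ∈ Finset.range P.L, lag x P j v i m ^ p
        ≤ ∑ m ∈ Finset.range (P.L + 1), lag x P j v i m ^ p :=
          Finset.sum_le_sum_of_subset_of_nonneg
            (Finset.range_subset_range.2 (Nat.le_succ _))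
            fun m _ _ => Real.rpow_nonneg (lag_nonneg j v i m) _
      _ ≤ _ := by
          rw [Finset.sum_range_succ', add_comm]
          refine add_le_add ?_ (Finset.sum_le_sum fun m _ => ?_)
          · have h1 : lag x P j v i 0 ≤ aa x P (j - 1) v i / 4 := by
              rw [lag]
              calc qq x P j v (0 + 1) * aa x P (j - ((0 + 1 : ℕ) : ℤ)) v i
                  ≤ (1 / 4) ^ 1 * aa x P (j - ((0 + 1 : ℕ) : ℤ)) v i :=
                    mul_le_mul_of_nonneg_right (qq_le j v 1) (aa_nonneg _ v i)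
                _ = aa x P (j - 1) v i / 4 := by norm_num; ring
            refine (Real.rpow_le_rpow (lag_nonneg j v i 0) h1 (by linarith)).trans ?_
            rw [Real.div_rpow (aa_nonneg _ v i) (by norm_num)]
            exact div_le_div_of_nonneg_left (Real.rpow_nonneg (aa_nonneg _ v i) _) (by norm_num)
              (Real.self_le_rpow_of_one_le (by norm_num) hp1)
          · refine Real.rpow_le_rpow (lag_nonneg j v i _) ?_ (by linarith)
            rw [lag, lag, show j - ((m + 1 + 1 : ℕ) : ℤ) = j - 1 - ((m + 1 : ℕ) : ℤ) by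
              push_cast; ring]
            refine mul_le_mul_of_nonneg_right ?_ (aa_nonneg _ v i)
            have := qq_succ_le (x := x) (P := P) j v (m + 1)
            linarith [qq_nonneg (x := x) (P := P) (j - 1) v (m + 1)]
  rw [Sf, Sf, e1, e2, Finset.sum_insert (by simp), Finset.sum_insert (by simp)]
  have := Real.rpow_nonneg (aa_nonneg (x := x) (P := P) (j - 1) v i) p
  have := Real.rpow_nonneg (ee_nonneg (x := x) (P := P) j v i) p
  linarith

lemma Sf_anti (h : P.Ok x) {i₁ j : ℤ} (hij : i₁ ≤ j) (hj : j ≤ P.T) (v : V) (i : I) :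
    Sf x P j v i ≤ Sf x P i₁ v i := by
  have key : ∀ k : ℕ, Sf x P j v i ≤ Sf x P (j - k) v i := by
    intro k
    induction k with
    | zero => simp
    | succ k ih =>
      have h1 := Sf_drop h (show j - k ≤ P.T by omega) v i
      rw [show j - ((k + 1 : ℕ) : ℤ) = j - k - 1 by push_cast; ring]
      have := Real.rpow_nonneg (aa_nonneg (x := x) (P := P) (j - k - 1) v i) p
      have := Real.rpow_nonneg (ee_nonneg (x := x) (P := P) (j - k) v i) p
      linarith
  have := key (j - i₁).toNat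
  rwa [show j - ((j - i₁).toNat : ℤ) = i₁ by omega] at this

lemma Bf_anti (h : P.Ok x) {i₁ j : ℤ} (hij : i₁ ≤ j) (v : V) (i : I) :
    Bf x P j v i ≤ Bf x P i₁ v i :=
  div_le_div_of_nonneg_right (Finset.sum_le_sum_of_subset_of_nonneg
    (Finset.Icc_subset_Icc (by omega) le_rfl) fun l _ _ => bb_nonneg l v i) h.pos.le

lemma Rf_anti (h : P.Ok x) {i₁ j : ℤ} (hij : i₁ ≤ j) (hj : j ≤ P.T) (v : V) (i : I) :
    Rf x P j v i ≤ Rf x P i₁ v i :=
  add_le_add (Real.rpow_le_rpow (Sf_pos h j v i).le (Sf_anti h hij hj v i)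
    (inv_nonneg.2 (le_trans zero_le_one one_le_p))) (Bf_anti h hij v i)

lemma lam_anti (h : P.Ok x) {i₁ j : ℤ} (hij : i₁ ≤ j) (hj : j ≤ P.T) (v : V) (i : I) :
    lam x P j v i ≤ lam x P i₁ v i :=
  Real.log_le_log (Rf_pos h j v i) (Rf_anti h hij hj v i)

lemma le_root_Sf (h : P.Ok x) (j : ℤ) (v : V) (i : I) {a : ℝ} (ha : 0 ≤ a)
    (hle : a ^ p ≤ Sf x P j v i) : a ≤ Rf x P j v i := by
  have hp0 : 0 < p := lt_of_lt_of_le one_pos one_le_p
  have := Real.rpow_le_rpow (Real.rpow_nonneg ha p) hle (inv_nonneg.2 hp0.le)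
  rw [Real.rpow_rpow_inv ha hp0.ne'] at this
  exact this.trans (le_add_of_nonneg_right (Bf_nonneg h j v i))

lemma aa_le_Rf (h : P.Ok x) {j : ℤ} (hj : j ≤ P.T) (v : V) (i : I) :
    aa x P j v i ≤ Rf x P j v i := by
  refine le_root_Sf h j v i (aa_nonneg j v i) ?_
  have h1 : aa x P j v i ^ p ≤ ∑ l ∈ Finset.Icc j P.T, aa x P l v i ^ p :=
    Finset.single_le_sum (f := fun l => aa x P l v i ^ p)
      (fun l _ => Real.rpow_nonneg (aa_nonneg l v i) _) (Finset.left_mem_Icc.2 hj)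
  have := Real.rpow_pos_of_pos h.floor_pos p
  have h2 : 0 ≤ ∑ l ∈ Finset.Icc (j + 1) P.T, ee x P l v i ^ p :=
    Finset.sum_nonneg fun l _ => Real.rpow_nonneg (ee_nonneg l v i) _
  have h3 : 0 ≤ ∑ m ∈ Finset.range P.L, lag x P j v i m ^ p :=
    Finset.sum_nonneg fun m _ => Real.rpow_nonneg (lag_nonneg j v i m) _
  rw [Sf]; linarith

lemma ee_le_Rf (h : P.Ok x) {j : ℤ} (hj : j ≤ P.T) (v : V) (i : I) :
    ee x P j v i ≤ Rf x P (j - 1) v i := by
  refine le_root_Sf h _ v i (ee_nonneg j v i) ?_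
  have h1 : ee x P j v i ^ p ≤ ∑ l ∈ Finset.Icc (j - 1 + 1) P.T, ee x P l v i ^ p :=
    Finset.single_le_sum (f := fun l => ee x P l v i ^ p)
      (fun l _ => Real.rpow_nonneg (ee_nonneg l v i) _)
      (Finset.mem_Icc.2 ⟨by omega, hj⟩)
  have := Real.rpow_pos_of_pos h.floor_pos p
  have h2 : 0 ≤ ∑ l ∈ Finset.Icc (j - 1) P.T, aa x P l v i ^ p :=
    Finset.sum_nonneg fun l _ => Real.rpow_nonneg (aa_nonneg l v i) _
  have h3 : 0 ≤ ∑ m ∈ Finset.range P.L, lag x P (j - 1) v i m ^ p :=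
    Finset.sum_nonneg fun m _ => Real.rpow_nonneg (lag_nonneg _ v i m) _
  rw [Sf]; linarith

lemma aa_lag_le_Rf (h : P.Ok x) {j : ℤ} (hj : j ≤ P.T) (v : V) (i : I) {m : ℕ}
    (hm : 0 < pw x P j v m) : aa x P (j - m) v i ≤ 4 ^ m * Rf x P j v i := by
  rcases m with _ | m
  · simpa using aa_le_Rf h hj v i
  · have hmL : m + 1 < P.L := by
      by_contra hc
      rw [pw_eq_zero h j v (le_of_not_gt hc)] at hm
      exact lt_irrefl _ hm
    have h1 : lag x P j v i m ≤ Rf x P j v i := by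
      refine le_root_Sf h j v i (lag_nonneg j v i m) ?_
      have h1 : lag x P j v i m ^ p ≤ ∑ m ∈ Finset.range P.L, lag x P j v i m ^ p :=
        Finset.single_le_sum (f := fun m => lag x P j v i m ^ p)
          (fun l _ => Real.rpow_nonneg (lag_nonneg j v i l) _)
          (Finset.mem_range.2 (by omega))
      have := Real.rpow_pos_of_pos h.floor_pos p
      have h2 : 0 ≤ ∑ l ∈ Finset.Icc j P.T, aa x P l v i ^ p :=
        Finset.sum_nonneg fun l _ => Real.rpow_nonneg (aa_nonneg l v i) _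
      have h3 : 0 ≤ ∑ l ∈ Finset.Icc (j + 1) P.T, ee x P l v i ^ p :=
        Finset.sum_nonneg fun l _ => Real.rpow_nonneg (ee_nonneg l v i) _
      rw [Sf]; linarith
    rw [lag, qq_one_of_pw_pos h hm, div_pow, one_pow, div_mul_eq_mul_div, one_mul,
      div_le_iff₀ (by positivity)] at h1
    linarith

lemma Bf_le_Rf (h : P.Ok x) (j : ℤ) (v : V) (i : I) : Bf x P j v i ≤ Rf x P j v i :=
  le_add_of_nonneg_left (Real.rpow_nonneg (Sf_pos h j v i).le _)

end Vale.Agent.P249.Full
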