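import Vale.Agent.P249.Sub.Hash

/-!
Compressing sparse vectors with distortion close to one.
-/

namespace Vale.Agent.P249.Full

open Finset Vale.Agent.P249.Sub

variable {p : ℝ} [hp : Fact (1 ≤ ENNReal.ofReal p)]

/-- A sparse family of vectors is compressed with distortion `1 + 1/M` in the `p`-th power. -/
theorem exists_hash_near {M : ℕ} (hM : 1 ≤ M) {F V : Type*} [Fintype F] [DecidableEq F] (v : V → F → ℝ) {S0 p' : ℕ}
    (hp' : p ≤ p') (hsupp : ∀ x, (Finset.univ.filter fun f => v x f ≠ 0).card ≤ S0)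
    {k : ℕ} (hk : Fintype.card F ≤ 2 ^ k) :
    ∃ (d : ℕ) (H : V → Ell p (Fin d)), d ≤ (8 * M * ((2 * S0 + 2) ^ (p' + 2) * (k + 1))) ^ 2 ∧
      ∀ x y, (1 - 1 / (M : ℝ)) * (∑ f, |v x f - v y f| ^ p) ≤ ‖H x - H y‖ ^ p ∧
        ‖H x - H y‖ ^ p ≤ (1 + 1 / (M : ℝ)) * ∑ f, |v x f - v y f| ^ p := by
  classical
  have hp1 : 1 ≤ p := one_le_p
  have hp0 : 0 < p := by linarith
  set Q := 4 * M * ((2 * S0 + 2) ^ (p' + 2) * (k + 1)) with hQ
  have hQpos : Q ≠ 0 := by positivity
  obtain ⟨r, hr, hQr, hr2⟩ := Nat.exists_prime_lt_and_le_two_mul Q hQpos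
  have : Fact r.Prime := ⟨hr⟩
  have hcard : Fintype.card F ≤ Fintype.card (Fin (k + 1) → ZMod r) := by
    rw [Fintype.card_fun, Fintype.card_fin, ZMod.card]
    exact hk.trans ((Nat.pow_le_pow_left hr.two_le k).trans
      (Nat.pow_le_pow_right hr.pos (Nat.le_succ k)))
  obtain ⟨g⟩ := Function.Embedding.nonempty_of_card_le hcard
  have hrpos : (0 : ℝ) < r := by exact_mod_cast hr.pos
  set c : ℝ := (1 / (r : ℝ)) ^ p⁻¹ with hc
  have hcp : c ^ p = 1 / (r : ℝ) := Real.rpow_inv_rpow (by positivity) hp0.ne'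
  let H0 : V → Ell p (ZMod r × ZMod r) := fun x => WithLp.toLp _ fun jb =>
    c * ∑ f ∈ Finset.univ.filter (fun f => code (g f) jb.1 = jb.2), v x f
  have main : ∀ x y, (1 - 1 / (M : ℝ)) * (∑ f, |v x f - v y f| ^ p) ≤ ‖H0 x - H0 y‖ ^ p ∧
      ‖H0 x - H0 y‖ ^ p ≤ (1 + 1 / (M : ℝ)) * ∑ f, |v x f - v y f| ^ p := by
    intro x y
    set w := fun f => v x f - v y f with hw
    set X := ∑ f, |w f| ^ p with hX
    have hX0 : 0 ≤ X := Finset.sum_nonneg fun f _ => Real.rpow_nonneg (abs_nonneg _) _
    set T := Finset.univ.filter fun f => w f ≠ 0 with hT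
    have hTcard : T.card ≤ 2 * S0 := by
      refine le_trans (Finset.card_le_card (t := (Finset.univ.filter fun f => v x f ≠ 0) ∪
        (Finset.univ.filter fun f => v y f ≠ 0)) ?_) ?_
      · intro f hf
        simp only [T, Finset.mem_filter, Finset.mem_univ, true_and, Finset.mem_union] at hf ⊢
        by_contra hcon
        push Not at hcon
        exact hf (by simp [hw, hcon.1, hcon.2])
      · exact (Finset.card_union_le _ _).trans (by have := hsupp x; have := hsupp y; omega)
    let fib : ZMod r → ZMod r → Finset F := fun j b => T.filter fun f => code (g f) j = b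
    set Y := fun j => ∑ b, |∑ f ∈ fib j b, w f| ^ p with hY
    have hXT : X = ∑ f ∈ T, |w f| ^ p := by
      rw [hX, ← Finset.sum_subset (Finset.subset_univ T)]
      intro f _ hf
      have : w f = 0 := by simpa [T] using hf
      simp [this, Real.zero_rpow hp0.ne']
    have hnorm : ‖H0 x - H0 y‖ ^ p = (1 / (r : ℝ)) * ∑ j, Y j := by
      rw [norm_rpow_eq, Fintype.sum_prod_type, Finset.mul_sum]
      refine Finset.sum_congr rfl fun j _ => ?_
      simp only [hY, Finset.mul_sum]
      refine Finset.sum_congr rfl fun b _ => ?_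
      simp only [H0, PiLp.sub_apply]
      rw [← mul_sub, ← Finset.sum_sub_distrib, abs_mul, abs_of_nonneg (by positivity),
        Real.mul_rpow (by positivity) (abs_nonneg _), hcp]
      congr 3
      symm
      refine Finset.sum_subset (fun f hf => ?_) fun f hf hf' => ?_
      · simp only [fib, Finset.mem_filter] at hf; simp [hf.2]
      · simp only [Finset.mem_filter, Finset.mem_univ, true_and] at hf
        simpa [fib, T, hf] using hf'
    set bad := Finset.univ.filter fun j : ZMod r =>
      ∃ f ∈ T, ∃ f' ∈ T, f ≠ f' ∧ code (g f) j = code (g f') j with hbad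
    have hbadcard : bad.card ≤ (2 * S0) * (2 * S0) * (k + 1) := by
      refine le_trans (Finset.card_le_card (t := T.offDiag.biUnion fun ff => Finset.univ.filter
        fun j : ZMod r => code (g ff.1) j = code (g ff.2) j) ?_) ?_
      · intro j hj
        simp only [bad, Finset.mem_filter, Finset.mem_univ, true_and] at hj
        obtain ⟨f, hf, f', hf', hne, he⟩ := hj
        exact Finset.mem_biUnion.2 ⟨(f, f'), Finset.mem_offDiag.2 ⟨hf, hf', hne⟩, by simp [he]⟩
      · refine (Finset.card_biUnion_le_card_mul _ _ (k + 1) ?_).trans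
          (Nat.mul_le_mul_right _ ?_)
        · intro ff hff
          exact code_agree_card (g.injective.ne (Finset.mem_offDiag.1 hff).2.2)
        · rw [Finset.offDiag_card]
          exact (Nat.sub_le _ _).trans (Nat.mul_le_mul hTcard hTcard)
    have hgood : ∀ j, j ∉ bad → Y j = X := by
      intro j hj
      simp only [bad, Finset.mem_filter, Finset.mem_univ, true_and, not_exists, not_and] at hj
      rw [hXT, ← Finset.sum_fiberwise T (fun f => code (g f) j) (fun f => |w f| ^ p)]
      refine Finset.sum_congr rfl fun b _ => ?_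
      change |∑ f ∈ fib j b, w f| ^ p = ∑ f ∈ fib j b, |w f| ^ p
      have hsub : ∀ f ∈ fib j b, ∀ f' ∈ fib j b, f = f' := by
        intro f hf f' hf'
        simp only [fib, Finset.mem_filter] at hf hf'
        by_contra hne
        exact hj f hf.1 f' hf'.1 hne (hf.2.trans hf'.2.symm)
      rcases (fib j b).eq_empty_or_nonempty with he | ⟨f0, hf0⟩
      · simp [he, Real.zero_rpow hp0.ne']
      · rw [Finset.eq_singleton_iff_unique_mem.2 ⟨hf0, fun f hf => hsub f hf f0 hf0⟩]
        simp
    set A : ℝ := ((2 * S0 + 2 : ℕ) : ℝ) ^ p' with hA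
    have hany : ∀ j, Y j ≤ A * X := by
      intro j
      rw [hXT, ← Finset.sum_fiberwise T (fun f => code (g f) j) (fun f => |w f| ^ p),
        Finset.mul_sum]
      refine Finset.sum_le_sum fun b _ => ?_
      refine (Real.rpow_le_rpow (abs_nonneg _) (Finset.abs_sum_le_sum_abs _ _) hp0.le).trans ?_
      refine (Real.rpow_sum_le_const_mul_sum_rpow _ _ hp1).trans ?_
      refine mul_le_mul_of_nonneg_right ?_
        (Finset.sum_nonneg fun f _ => Real.rpow_nonneg (abs_nonneg _) _)
      have h1 : ((fib j b).card : ℝ) ≤ ((2 * S0 + 2 : ℕ) : ℝ) := by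
        have := (Finset.card_filter_le T fun f => code (g f) j = b).trans hTcard
        exact_mod_cast (by simp only [fib]; omega : (fib j b).card ≤ 2 * S0 + 2)
      refine (Real.rpow_le_rpow (Nat.cast_nonneg _) h1 (by linarith)).trans ?_
      rw [hA, ← Real.rpow_natCast _ p']
      exact Real.rpow_le_rpow_of_exponent_le
        (by exact_mod_cast (by omega : 1 ≤ 2 * S0 + 2)) (by linarith)
    have hY0 : ∀ j, 0 ≤ Y j := fun j =>
      Finset.sum_nonneg fun b _ => Real.rpow_nonneg (abs_nonneg _) _
    have hbadA : (bad.card : ℝ) * (A + 1) ≤ (r : ℝ) / M := by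
      have hn : bad.card * ((2 * S0 + 2) ^ p' + 1) * M ≤ r := by
        have h1 : (2 * S0 + 2) ^ p' + 1 ≤ 2 * (2 * S0 + 2) ^ p' := by
          have : 1 ≤ (2 * S0 + 2) ^ p' := Nat.one_le_pow _ _ (by omega)
          omega
        have h2 : (2 * S0) * (2 * S0) ≤ (2 * S0 + 2) ^ 2 := by
          rw [sq]; gcongr <;> omega
        calc bad.card * ((2 * S0 + 2) ^ p' + 1) * M
            ≤ ((2 * S0) * (2 * S0) * (k + 1)) * (4 * (2 * S0 + 2) ^ p') * M := by
              gcongr; omega
          _ = (2 * S0) * (2 * S0) * (4 * M * ((2 * S0 + 2) ^ p' * (k + 1))) := by ring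
          _ ≤ (2 * S0 + 2) ^ 2 * (4 * M * ((2 * S0 + 2) ^ p' * (k + 1))) := by gcongr
          _ = Q := by rw [hQ]; ring
          _ ≤ r := hQr.le
      rw [le_div_iff₀ (show (0 : ℝ) < M by exact_mod_cast hM), hA]
      exact_mod_cast hn
    have hsum_hi : ∑ j, Y j ≤ (1 + 1 / (M : ℝ)) * X * r := by
      calc ∑ j, Y j ≤ ∑ j, (X + if j ∈ bad then (A + 1) * X else 0) := by
            refine Finset.sum_le_sum fun j _ => ?_
            by_cases hj : j ∈ bad
            · rw [if_pos hj]; linarith [hany j]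
            · rw [if_neg hj, hgood j hj, add_zero]
        _ = r * X + bad.card * (A + 1) * X := by
            rw [Finset.sum_add_distrib, Finset.sum_ite_mem, Finset.univ_inter]
            simp [ZMod.card]; ring
        _ ≤ _ := by
            have := mul_le_mul_of_nonneg_right hbadA hX0
            have e : (1 + 1 / (M : ℝ)) * X * r = r * X + r / M * X := by ring
            linarith
    have hsum_lo : (1 - 1 / (M : ℝ)) * X * r ≤ ∑ j, Y j := by
      calc (1 - 1 / (M : ℝ)) * X * r ≤ r * X - bad.card * (A + 1) * X := by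
            have := mul_le_mul_of_nonneg_right hbadA hX0
            have e : (1 - 1 / (M : ℝ)) * X * r = r * X - r / M * X := by ring
            linarith
        _ = ∑ j : ZMod r, (X - if j ∈ bad then (A + 1) * X else 0) := by
            rw [Finset.sum_sub_distrib, Finset.sum_ite_mem, Finset.univ_inter]
            simp [ZMod.card]; ring
        _ ≤ _ := by
            refine Finset.sum_le_sum fun j _ => ?_
            by_cases hj : j ∈ bad
            · rw [if_pos hj]
              have : 0 ≤ A := by positivity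
              nlinarith [hY0 j]
            · rw [if_neg hj, hgood j hj, sub_zero]
    rw [hnorm]
    constructor
    · rw [one_div (r : ℝ), inv_mul_eq_div, le_div_iff₀ hrpos]; linarith
    · rw [one_div (r : ℝ), inv_mul_eq_div, div_le_iff₀ hrpos]; linarith
  obtain ⟨e⟩ : Nonempty (ZMod r × ZMod r ≃ Fin (r * r)) := ⟨Fintype.equivFinOfCardEq (by simp)⟩
  refine ⟨r * r, fun x => pad e.toEmbedding (H0 x), ?_, fun x y => ?_⟩
  · rw [sq]
    have : r ≤ 8 * M * ((2 * S0 + 2) ^ (p' + 2) * (k + 1)) := by
      refine hr2.trans (le_of_eq ?_); rw [hQ]; ring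
    exact Nat.mul_le_mul this this
  · rw [pad_sub, norm_pad]; exact main x y

end Vale.Agent.P249.Full
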