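import Vale.Agent.P249.Sub.Bernoulli

/-!
A random subset with relative accuracy.
-/

namespace Vale.Agent.P249.Full

open Finset Vale.Agent.P249.Sub

variable {F : Type*} [Fintype F] [DecidableEq F]

/-- Some subset keeps every count within `η` times its mean, up to `t`. -/
theorem exists_subset_near {P : Type*} [Fintype P] {η : ℝ} (hη : 0 < η) (hη1 : η ≤ 1)
    {q : F → ℝ} (h0 : ∀ f, 0 ≤ q f)
    (h1 : ∀ f, q f ≤ 1) (c : P → F → ℝ) (Bd t : P → ℝ) (hc : ∀ a f, 0 ≤ c a f)
    (hbd : ∀ a f, q f < 1 → c a f ≤ Bd a) (hBd : ∀ a, 0 < Bd a)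
    (hsmall : 2 * ∑ a, Real.exp (-(η * t a / (2 * Bd a))) < 1) :
    ∃ ξ : F → Bool, ∀ a, (1 - η) * (∑ f, q f * c a f) - t a ≤ bcount (c a) ξ ∧
      bcount (c a) ξ ≤ (1 + η) * (∑ f, q f * c a f) + t a := by
  classical
  by_contra hne
  push Not at hne
  set μ := fun a => ∑ f, q f * c a f with hμ
  set E := fun (σ : ℝ) (a : P) (ξ : F → Bool) =>
    Real.exp (σ * η / (2 * Bd a) * bcount (c a) ξ) *
      Real.exp (-(σ * η * μ a / (2 * Bd a)) - η ^ 2 * μ a / (4 * Bd a) -
        η * t a / (2 * Bd a)) with hE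
  have hpos : ∀ σ a ξ, 0 < E σ a ξ := fun _ _ _ => mul_pos (Real.exp_pos _) (Real.exp_pos _)
  have hbad : ∀ ξ, 1 ≤ ∑ a, (E 1 a ξ + E (-1) a ξ) := by
    intro ξ
    obtain ⟨a, ha⟩ := hne ξ
    refine le_trans ?_ (Finset.single_le_sum
      (fun b _ => (add_pos (hpos 1 b ξ) (hpos (-1) b ξ)).le) (Finset.mem_univ a))
    have hμ0 : 0 ≤ μ a := Finset.sum_nonneg fun f _ => mul_nonneg (h0 f) (hc a f)
    have hex : ∀ σ : ℝ, 0 ≤ σ * (bcount (c a) ξ - μ a) - η * μ a - t a → 1 ≤ E σ a ξ := by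
      intro σ h
      simp only [hE]
      rw [← Real.exp_add]
      refine Real.one_le_exp ?_
      have h4 : 0 ≤ η * (σ * (bcount (c a) ξ - μ a) - η / 2 * μ a - t a) / (2 * Bd a) :=
        div_nonneg (mul_nonneg hη.le (by nlinarith [mul_nonneg hη.le hμ0]))
          (by linarith [hBd a])
      refine h4.trans_eq ?_
      have := (hBd a).ne'
      field_simp
      ring
    by_cases hlo : (1 - η) * μ a - t a ≤ bcount (c a) ξ
    · refine le_trans (hex 1 ?_) (by linarith [hpos (-1) a ξ])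
      linarith [ha hlo]
    · refine le_trans (hex (-1) ?_) (by linarith [hpos 1 a ξ])
      linarith
  have hone : ∀ a σ, (σ = 1 ∨ σ = -1) →
      ∑ ξ : F → Bool, bweight q ξ * E σ a ξ ≤ Real.exp (-(η * t a / (2 * Bd a))) := by
    intro a σ hσ
    simp only [hE, ← mul_assoc]
    rw [← Finset.sum_mul]
    have hσa : |σ| = 1 := by rcases hσ with rfl | rfl <;> simp
    have hm := mgf_le (l := σ * η / (2 * Bd a)) h0 h1 (hc a) (hbd a) (by
      rw [abs_div, abs_mul, hσa, one_mul, abs_of_pos hη,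
        abs_of_pos (by linarith [hBd a] : (0 : ℝ) < 2 * Bd a)]
      have := (hBd a).ne'
      field_simp
      linarith) (hBd a).le
    refine (mul_le_mul_of_nonneg_right hm (Real.exp_pos _).le).trans_eq ?_
    rw [← Real.exp_add]
    congr 1
    have := (hBd a).ne'
    simp only [hμ]
    rcases hσ with rfl | rfl <;> field_simp <;> ring
  have : (1 : ℝ) ≤ 2 * ∑ a, Real.exp (-(η * t a / (2 * Bd a))) := by
    calc (1 : ℝ) = ∑ ξ : F → Bool, bweight q ξ * 1 := by simp [sum_bweight]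
      _ ≤ ∑ ξ : F → Bool, bweight q ξ * ∑ a, (E 1 a ξ + E (-1) a ξ) :=
          Finset.sum_le_sum fun ξ _ =>
            mul_le_mul_of_nonneg_left (hbad ξ) (bweight_nonneg h0 h1 ξ)
      _ = ∑ a, ((∑ ξ : F → Bool, bweight q ξ * E 1 a ξ) +
            ∑ ξ : F → Bool, bweight q ξ * E (-1) a ξ) := by
          simp only [Finset.mul_sum, mul_add]
          rw [Finset.sum_comm]
          simp only [Finset.sum_add_distrib]
      _ ≤ ∑ a, (Real.exp (-(η * t a / (2 * Bd a))) + Real.exp (-(η * t a / (2 * Bd a)))) :=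
          Finset.sum_le_sum fun a _ =>
            add_le_add (hone a 1 (Or.inl rfl)) (hone a (-1) (Or.inr rfl))
      _ = _ := by rw [Finset.mul_sum]; exact Finset.sum_congr rfl fun a _ => by ring
  linarith

end Vale.Agent.P249.Full
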