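import Vale.Agent.P249.Full.Basic
import Vale.Agent.P249.Full.Subset
import Vale.Agent.P249.Full.HashNear

/-!
Compressing features with small weighted supports and small weighted slopes.
-/

namespace Vale.Agent.P249.Full

open Finset Vale.Agent.P249.Sub

variable {p : ℝ} [hp : Fact (1 ≤ ENNReal.ofReal p)]

/-- The dimension of the compressed configuration. -/
noncomputable def compDim (p η A W : ℝ) (n M : ℕ) : ℝ :=
  (8 * M * (4 * (2 * A ^ p * Real.log (8 * (n : ℝ) ^ 2 + 8) / η ^ 2 * (2 * W + 1) +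
    Nat.log 2 n + 4)) ^ (⌈p⌉₊ + 3)) ^ 2

/-- Features with weights: small slope and small weighted support allow compression. -/
theorem exists_compress {V F : Type*} [Fintype V] [Fintype F] (u : V → F → ℝ) (T : F → ℝ)
    (hT : ∀ f, 0 < T f) {η A W : ℝ} (hη : 0 < η) (hη1 : η ≤ 1) (hA : 1 ≤ A) (hW : 0 ≤ W)
    {M : ℕ} (hM : 1 / η ≤ M)
    (hlip : ∀ x y f, |u x f - u y f| ^ p ≤ A ^ p * T f * ∑ g, |u x g - u y g| ^ p)
    (hsup : ∀ x, ∑ f, (if u x f = 0 then 0 else T f) ≤ W) :
    ∃ (d : ℕ) (H : V → Ell p (Fin d)), (d : ℝ) ≤ compDim p η A W (Fintype.card V) M ∧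
      ∀ x y, (1 - 3 * η) * ∑ f, |u x f - u y f| ^ p ≤ ‖H x - H y‖ ^ p ∧
        ‖H x - H y‖ ^ p ≤ (1 + 5 * η) * ∑ f, |u x f - u y f| ^ p := by
  classical
  have hp1 : 1 ≤ p := one_le_p
  have hp0 : 0 < p := by linarith
  set n := Fintype.card V with hn
  set Ln := Real.log (8 * (n : ℝ) ^ 2 + 8) with hLn
  have hLn1 : 1 ≤ Ln := by
    rw [hLn, Real.le_log_iff_exp_le (by positivity)]
    linarith [Real.exp_one_lt_three, sq_nonneg (n : ℝ)]
  have hAp : 1 ≤ A ^ p := Real.one_le_rpow hA hp0.le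
  set s := 2 * A ^ p * Ln / η ^ 2 with hs
  have hs0 : 0 < s := by positivity
  let q : F → ℝ := fun f => min 1 (s * T f)
  have hq0 : ∀ f, 0 < q f := fun f => lt_min one_pos (mul_pos hs0 (hT f))
  have hq1 : ∀ f, q f ≤ 1 := fun f => min_le_left _ _
  let X : V → V → ℝ := fun x y => ∑ f, |u x f - u y f| ^ p
  have hX0 : ∀ x y, 0 ≤ X x y := fun x y =>
    Finset.sum_nonneg fun f _ => Real.rpow_nonneg (abs_nonneg _) _
  let c : (V × V) ⊕ V → F → ℝ := fun a f => Sum.elim
    (fun e => |u e.1 f - u e.2 f| ^ p / q f / X e.1 e.2)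
    (fun x => if u x f = 0 then 0 else 1) a
  let Bd : (V × V) ⊕ V → ℝ := Sum.elim (fun _ => A ^ p / s) (fun _ => 1)
  let t : (V × V) ⊕ V → ℝ := Sum.elim (fun _ => η) (fun _ => s)
  have hBd : ∀ a, 0 < Bd a := by
    rintro (a | a) <;> simp only [Bd, Sum.elim_inl, Sum.elim_inr] <;> positivity
  have hexp : ∀ a, Real.exp (-(η * t a / (2 * Bd a))) ≤ 1 / (8 * (n : ℝ) ^ 2 + 8) := by
    intro a
    rw [one_div, ← Real.exp_log (by positivity : (0 : ℝ) < 8 * (n : ℝ) ^ 2 + 8), ← Real.exp_neg,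
      ← hLn]
    refine Real.exp_le_exp.2 (neg_le_neg ?_)
    rcases a with a | a
    · simp only [t, Bd, Sum.elim_inl]
      rw [le_div_iff₀ (by positivity), hs]
      have := hη.ne'
      field_simp
      exact le_rfl
    · simp only [t, Bd, Sum.elim_inr, mul_one]
      rw [le_div_iff₀ two_pos, hs, mul_div_assoc', le_div_iff₀ (by positivity)]
      have h1 : η ≤ A ^ p := hη1.trans hAp
      nlinarith [mul_le_mul_of_nonneg_left h1 (show 0 ≤ η * Ln by positivity)]
  obtain ⟨ξ, hξ⟩ := exists_subset_near hη hη1 (q := q) (fun f => (hq0 f).le) hq1 c Bd t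
    (by
      rintro (a | a) f
      · exact div_nonneg (div_nonneg (Real.rpow_nonneg (abs_nonneg _) _) (hq0 f).le) (hX0 _ _)
      · simp only [c, Sum.elim_inr]; split <;> norm_num)
    (by
      rintro (a | a) f hf
      · simp only [c, Bd, Sum.elim_inl]
        have hqe : q f = s * T f :=
          min_eq_right ((min_lt_iff.1 hf).resolve_left (lt_irrefl _)).le
        rcases eq_or_lt_of_le (hX0 a.1 a.2) with hz | hz
        · rw [← hz, div_zero]; positivity
        · rw [hqe, div_le_iff₀ hz, div_le_iff₀ (mul_pos hs0 (hT f))]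
          refine (hlip a.1 a.2 f).trans (le_of_eq ?_)
          field_simp
          ring
      · simp only [c, Bd, Sum.elim_inr]; split <;> norm_num)
    hBd (by
      calc 2 * ∑ a, Real.exp (-(η * t a / (2 * Bd a)))
          ≤ 2 * ∑ _a : (V × V) ⊕ V, 1 / (8 * (n : ℝ) ^ 2 + 8) := by gcongr with a; exact hexp a
        _ < 1 := by
          simp only [Finset.sum_const, Finset.card_univ, Fintype.card_sum, Fintype.card_prod,
            nsmul_eq_mul, Nat.cast_add, Nat.cast_mul, ← hn]
          rw [mul_one_div, mul_div_assoc', div_lt_one (by positivity)]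
          nlinarith [sq_nonneg ((n : ℝ) - 1)])
  set S0 := ⌊s * (2 * W + 1)⌋₊ with hS0
  let F' := {f : F // ξ f = true ∧ ∃ x, u x f ≠ 0}
  let v : V → F' → ℝ := fun x f => u x f.1 * (1 / q f.1) ^ p⁻¹
  have hsuppF : ∀ x, (Finset.univ.filter fun f => ξ f = true ∧ u x f ≠ 0).card ≤ S0 := by
    intro x
    have h := (hξ (Sum.inr x)).2
    have he : bcount (c (Sum.inr x)) ξ =
        ((Finset.univ.filter fun f => ξ f = true ∧ u x f ≠ 0).card : ℝ) := by
      rw [Finset.card_filter, Nat.cast_sum]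
      refine Finset.sum_congr rfl fun f _ => ?_
      simp only [c, Sum.elim_inr]
      cases ξ f <;> by_cases h0 : u x f = 0 <;> simp [h0]
    have hμ : ∑ f, q f * c (Sum.inr x) f ≤ s * W := by
      refine le_trans (Finset.sum_le_sum (g := fun f => s * (if u x f = 0 then 0 else T f))
        fun f _ => ?_) (by rw [← Finset.mul_sum]; exact mul_le_mul_of_nonneg_left (hsup x) hs0.le)
      simp only [c, Sum.elim_inr]
      split
      · simp
      · rw [mul_one]; exact min_le_right _ _
    simp only [t, Sum.elim_inr] at h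
    rw [he] at h
    refine Nat.le_floor ?_
    have h2 := mul_le_mul_of_nonneg_left hμ (show 0 ≤ 1 + η by linarith)
    have h3 := mul_le_mul_of_nonneg_right (show 1 + η ≤ 2 by linarith) (mul_nonneg hs0.le hW)
    linarith
  have hsupp : ∀ x, (Finset.univ.filter fun f : F' => v x f ≠ 0).card ≤ S0 := by
    intro x
    refine le_trans (Finset.card_le_card_of_injOn (fun f => f.1) ?_
      Subtype.val_injective.injOn) (hsuppF x)
    intro f hf
    simp only [Finset.coe_filter, Finset.mem_univ, true_and, Set.mem_ofPred_eq] at hf ⊢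
    exact ⟨f.2.1, fun h0 => hf (by simp [v, h0])⟩
  have hcardF : Fintype.card F' ≤ 2 ^ (Nat.log 2 n + 1 + S0) := by
    rw [Fintype.card_subtype]
    refine le_trans (Finset.card_le_card (t := Finset.univ.biUnion fun x =>
      Finset.univ.filter fun f => ξ f = true ∧ u x f ≠ 0) ?_) ?_
    · intro f hf
      simp only [Finset.mem_filter, Finset.mem_univ, true_and] at hf
      obtain ⟨h1, x, hx⟩ := hf
      exact Finset.mem_biUnion.2 ⟨x, Finset.mem_univ x, by simp [h1, hx]⟩
    · refine (Finset.card_biUnion_le_card_mul _ _ S0 fun x _ => hsuppF x).trans ?_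
      rw [Finset.card_univ, ← hn, pow_add]
      exact Nat.mul_le_mul (Nat.lt_pow_succ_log_self one_lt_two n).le Nat.lt_two_pow_self.le
  have hMpos : (0 : ℝ) < M := lt_of_lt_of_le (by positivity) hM
  have hM1 : 1 ≤ M := by exact_mod_cast hMpos
  obtain ⟨d, H, hd, hH⟩ := exists_hash_near hM1 v (p' := ⌈p⌉₊) (Nat.le_ceil p) hsupp hcardF
  refine ⟨d, H, ?_, fun x y => ?_⟩
  · have hd' : (d : ℝ) ≤ (8 * M * ((2 * S0 + 2 : ℝ) ^ (⌈p⌉₊ + 2) *
        (((Nat.log 2 n + 1 + S0 : ℕ) : ℝ) + 1))) ^ 2 := by exact_mod_cast hd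
    refine hd'.trans ?_
    rw [compDim, ← hLn, ← hs]
    set Y := 4 * (s * (2 * W + 1) + (Nat.log 2 n : ℝ) + 4) with hY
    have hS : (S0 : ℝ) ≤ s * (2 * W + 1) := Nat.floor_le (by positivity)
    have hL0 : (0 : ℝ) ≤ (Nat.log 2 n : ℝ) := Nat.cast_nonneg _
    refine pow_le_pow_left₀ (by positivity) (mul_le_mul_of_nonneg_left ?_ (by positivity)) 2
    rw [pow_succ _ (⌈p⌉₊ + 2)]
    refine mul_le_mul (pow_le_pow_left₀ (by positivity) ?_ _) ?_ (by positivity) (by positivity)
    · rw [hY]; linarith [show (0 : ℝ) ≤ S0 from Nat.cast_nonneg _]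
    · push_cast; rw [hY]; linarith [show (0 : ℝ) ≤ S0 from Nat.cast_nonneg _]
  · obtain ⟨h1, h2⟩ := hH x y
    obtain ⟨g1, g2⟩ := hξ (Sum.inl (x, y))
    set Y := ∑ f : F', |v x f - v y f| ^ p with hY
    have hYe : Y = bcount (c (Sum.inl (x, y))) ξ * X x y := by
      rw [hY, ← Finset.sum_subtype (Finset.univ.filter fun f => ξ f = true ∧ ∃ x, u x f ≠ 0)
        (by simp) (fun f => |u x f * (1 / q f) ^ p⁻¹ - u y f * (1 / q f) ^ p⁻¹| ^ p),
        Finset.sum_filter, bcount, Finset.sum_mul]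
      refine Finset.sum_congr rfl fun f _ => ?_
      simp only [c, Sum.elim_inl]
      by_cases hz : ∃ x, u x f ≠ 0
      · have hb : (ξ f = true ∧ ∃ x, u x f ≠ 0) ↔ ξ f = true := ⟨fun h => h.1, fun h => ⟨h, hz⟩⟩
        simp only [hb]
        split
        · rw [← sub_mul, abs_mul, Real.mul_rpow (abs_nonneg _) (abs_nonneg _),
            abs_of_nonneg (Real.rpow_nonneg (by have := hq0 f; positivity) _),
            Real.rpow_inv_rpow (by have := hq0 f; positivity) hp0.ne', mul_one_div]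
          rcases eq_or_lt_of_le (hX0 x y) with hX | hX
          · have h0 : |u x f - u y f| ^ p = 0 :=
              (Finset.sum_eq_zero_iff_of_nonneg fun g _ => Real.rpow_nonneg (abs_nonneg _) _).1
                hX.symm f (Finset.mem_univ f)
            simp [h0]
          · rw [div_mul_cancel₀ _ hX.ne']
        · simp
      · push Not at hz
        simp [hz, Real.zero_rpow hp0.ne']
    simp only [t, Sum.elim_inl] at g1 g2
    have hXdef : ∑ f, |u x f - u y f| ^ p = X x y := rfl
    rw [hXdef]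
    rcases eq_or_lt_of_le (hX0 x y) with hz | hz
    · rw [← hz, mul_zero] at hYe
      rw [← hz, mul_zero, mul_zero]
      rw [hYe, mul_zero] at h2
      exact ⟨Real.rpow_nonneg (norm_nonneg _) _, h2⟩
    have hμ : ∑ f, q f * c (Sum.inl (x, y)) f = 1 := by
      simp only [c, Sum.elim_inl]
      rw [Finset.sum_congr rfl (g := fun f => |u x f - u y f| ^ p / X x y) fun f _ => by
        have := (hq0 f).ne'; field_simp, ← Finset.sum_div]
      exact div_self hz.ne'
    rw [hμ] at g1 g2
    have hMi : 1 / (M : ℝ) ≤ η := by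
      rw [div_le_iff₀ hMpos]
      rw [div_le_iff₀ hη] at hM
      linarith
    have hMi0 : (0 : ℝ) ≤ 1 / M := by positivity
    set bc := bcount (c (Sum.inl (x, y))) ξ
    rw [hYe] at h1 h2
    have hbc : 0 ≤ bc := Finset.sum_nonneg fun f _ => by
      split
      · exact div_nonneg (div_nonneg (Real.rpow_nonneg (abs_nonneg _) _) (hq0 f).le) (hX0 _ _)
      · exact le_rfl
    constructor
    · refine le_trans ?_ h1
      rw [← mul_assoc]
      refine mul_le_mul_of_nonneg_right ?_ hz.le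
      have e : (1 - η) * bc ≤ (1 - 1 / (M : ℝ)) * bc :=
        mul_le_mul_of_nonneg_right (by linarith) hbc
      nlinarith
    · refine h2.trans ?_
      rw [← mul_assoc]
      refine mul_le_mul_of_nonneg_right ?_ hz.le
      nlinarith

end Vale.Agent.P249.Full
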