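import Vale.Agent.P249.Full.Pair

/-!
A crude bound on single coordinates of the feature map.
-/

namespace Vale.Agent.P249.Full

open Finset Vale.Agent.P249.Sub

set_option linter.unusedSectionVars false
set_option linter.unusedVariables false

variable {p : ℝ} [hp : Fact (1 ≤ ENNReal.ofReal p)] {V I : Type*} [Fintype V] [Fintype I]

/-- Crude envelope of two points. -/
noncomputable def beta (x : V → Ell p I) (P : Prm) (l : ℤ) (v w : V) (i : I) : ℝ :=
  bb x P l v i + bb x P l w i

/-- Crude windowed total. -/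
noncomputable def wtot (x : V → Ell p I) (P : Prm) (j : ℤ) (v w : V) (i : I) : ℝ :=
  ∑ l ∈ Finset.Icc (j - P.L - 1) P.T, rf x l v w * beta x P l v w i

/-- Constant of the coordinate bound. -/
noncomputable def coordC (p : ℝ) (Γ : ℝ) (L : ℕ) : ℝ :=
  10000 * (6 * Real.exp (6 * p) + 4) * KK L ^ 5 * (Γ + 1) ^ 3

variable {x : V → Ell p I} {P : Prm} {v w : V} {J b : ℤ}

lemma beta_nonneg (l : ℤ) (v w : V) (i : I) : 0 ≤ beta x P l v w i :=
  add_nonneg (bb_nonneg l v i) (bb_nonneg l w i)

lemma beta_symm (l : ℤ) (v w : V) (i : I) : beta x P l w v i = beta x P l v w i := add_comm _ _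

lemma wtot_nonneg (j : ℤ) (v w : V) (i : I) : 0 ≤ wtot x P j v w i :=
  Finset.sum_nonneg fun l _ => mul_nonneg (rf_nonneg x l v w) (beta_nonneg l v w i)

lemma wtot_symm (j : ℤ) (v w : V) (i : I) : wtot x P j w v i = wtot x P j v w i :=
  Finset.sum_congr rfl fun l _ => by rw [rf_comm, beta_symm]

lemma Qf_incr_crude (hJ : IsLevel x v w J) {l : ℤ} (hl : J - P.L - 1 ≤ l) {m : ℕ}
    (hm : m ≤ P.L + 1) (i : I) :
    Qf x l w (l - m) w i - Qf x l v (l - m) v i ≤
      KK P.L * rf x l v w * Qf x l v (l - m) v i := by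
  have hr0 := rf_nonneg x l v w
  have hr := rf_le_pow hJ (k := P.L + 1) (j := l) (by push_cast; omega)
  set y := 2 * rf x l v w + 2 * rf x (l - m) v w with hy
  have hy2 : y ≤ 2 ^ (P.L + 3) * rf x l v w := by
    rw [hy, rf_sub_nat, show P.L + 3 = (P.L + 1) + 2 by ring, pow_add]
    have h1 : (2 : ℝ) ^ m ≤ 2 ^ (P.L + 1) := pow_le_pow_right₀ one_le_two hm
    have h2 : (1 : ℝ) ≤ 2 ^ (P.L + 1) := one_le_pow₀ one_le_two
    nlinarith [mul_le_mul_of_nonneg_right h1 hr0, mul_le_mul_of_nonneg_right h2 hr0]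
  have hy3 : y ≤ 2 ^ (2 * P.L + 4) := by
    refine hy2.trans ?_
    rw [show 2 * P.L + 4 = (P.L + 3) + (P.L + 1) by ring, pow_add (2 : ℝ) (P.L + 3) (P.L + 1)]
    exact mul_le_mul_of_nonneg_left hr (by positivity)
  have hK := pow_le_KK (L := P.L) (a := P.L + 3) (b := 2 * P.L + 4) (by omega) (by omega)
  have h3 : Real.exp y - 1 ≤ KK P.L * rf x l v w := by
    refine (exp_sub_one_le y).trans ?_
    calc y * Real.exp y ≤ 2 ^ (P.L + 3) * rf x l v w * Real.exp ((2 : ℝ) ^ (2 * P.L + 4)) :=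
          mul_le_mul hy2 (Real.exp_le_exp.2 hy3) (Real.exp_pos _).le (by positivity)
      _ = 2 ^ (P.L + 3) * Real.exp ((2 : ℝ) ^ (2 * P.L + 4)) * rf x l v w := by ring
      _ ≤ _ := mul_le_mul_of_nonneg_right hK hr0
  calc Qf x l w (l - m) w i - Qf x l v (l - m) v i ≤ (Real.exp y - 1) * Qf x l v (l - m) v i := by
        linarith [Qf_le_both x l (l - m) v w i]
    _ ≤ _ := mul_le_mul_of_nonneg_right h3 (Qf_nonneg x l v _ v i)

lemma aa_incr_crude (h : P.Ok x) (hJ : IsLevel x v w J) {l : ℤ} (hl : J - P.L - 1 ≤ l) (i : I) :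
    max 0 (aa x P l w i - aa x P l v i) ≤ 2 * KK P.L * rf x l v w * beta x P l v w i := by
  have hr := rf_nonneg x l v w
  have hK := one_le_KK P.L
  have hb := beta_nonneg (x := x) (P := P) l v w i
  refine max_le (by positivity) ?_
  have hQw := Qf_nonneg x l w l w i
  have hQv := Qf_nonneg x l v l v i
  have h1 := Qf_incr_crude hJ hl (show 0 ≤ P.L + 1 by omega) i
  rw [Nat.cast_zero, sub_zero] at h1
  have h2 := (le_abs_self _).trans ((cut_lip h l v w).2.1.trans
    (div_le_self (by positivity) (by linarith [h.big])))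
  have hx0 := xi_nonneg x P l v
  have hx1 := xi_le_one x P l v
  have hpt : xi x P l w * Qf x l w l w i - xi x P l v * Qf x l v l v i ≤
      2 * KK P.L * rf x l v w * (Qf x l v l v i + Qf x l w l w i) := by
    have e1 : (xi x P l w - xi x P l v) * Qf x l w l w i ≤ 2 * rf x l v w * Qf x l w l w i :=
      mul_le_mul_of_nonneg_right h2 hQw
    have e2 : xi x P l v * (Qf x l w l w i - Qf x l v l v i) ≤
        1 * (KK P.L * rf x l v w * Qf x l v l v i) :=
      (mul_le_mul_of_nonneg_left h1 hx0).trans (mul_le_mul_of_nonneg_right hx1 (by positivity))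
    nlinarith [mul_le_mul_of_nonneg_right hK (mul_nonneg hr hQw),
      mul_nonneg (mul_nonneg (show (0 : ℝ) ≤ KK P.L by linarith) hr) hQv]
  have hbb : ∀ u, Qf x l u l u i / tt l ≤ bb x P l u i := fun u => by
    refine div_le_div_of_nonneg_right ?_ (tt_pos l).le
    have := Finset.single_le_sum (f := fun m : ℕ => Qf x l u (l - m) u i)
      (fun m _ => Qf_nonneg x l u _ u i) (Finset.mem_range.2 (Nat.succ_pos (P.L + 1)))
    simpa using this
  rw [aa, aa, ← sub_div]
  refine (div_le_div_of_nonneg_right hpt (tt_pos l).le).trans ?_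
  rw [mul_div_assoc, add_div]
  exact mul_le_mul_of_nonneg_left (add_le_add (hbb v) (hbb w)) (by positivity)

lemma ee_incr_crude (h : P.Ok x) (hJ : IsLevel x v w J) {l : ℤ} (hl : J ≤ l) (i : I) :
    max 0 (ee x P l w i - ee x P l v i) ≤ 2 * KK P.L * rf x l v w * beta x P l v w i := by
  have hr := rf_nonneg x l v w
  have hK := one_le_KK P.L
  have hb := beta_nonneg (x := x) (P := P) l v w i
  refine max_le (by positivity) ?_
  have hsum : ∀ u, (∑ m ∈ Finset.range P.L, Qf x l u (l - 1 - m) u i) / tt l ≤ bb x P l u i := by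
    intro u
    refine div_le_div_of_nonneg_right ?_ (tt_pos l).le
    rw [Finset.sum_range_succ', Finset.sum_range_succ]
    refine le_trans (le_of_eq (Finset.sum_congr rfl fun m _ => ?_))
      ((le_add_of_nonneg_right (Qf_nonneg x l u _ u i)).trans
        (le_add_of_nonneg_right (Qf_nonneg x l u _ u i)))
    rw [show l - ((m + 1 : ℕ) : ℤ) = l - 1 - (m : ℤ) by push_cast; ring]
  have hpt : xi x P l w * (∑ m ∈ Finset.range P.L, pw x P (l - 1) w m * Qf x l w (l - 1 - m) w i) -
      xi x P l v * (∑ m ∈ Finset.range P.L, pw x P (l - 1) v m * Qf x l v (l - 1 - m) v i) ≤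
      2 * KK P.L * rf x l v w * (∑ m ∈ Finset.range P.L, Qf x l v (l - 1 - m) v i +
        ∑ m ∈ Finset.range P.L, Qf x l w (l - 1 - m) w i) := by
    rw [Finset.mul_sum, Finset.mul_sum, ← Finset.sum_sub_distrib, ← Finset.sum_add_distrib,
      Finset.mul_sum]
    refine Finset.sum_le_sum fun m hm => ?_
    have hm' := Finset.mem_range.1 hm
    have h1 := Qf_incr_crude (P := P) hJ (show J - P.L - 1 ≤ l by omega)
      (show m + 1 ≤ P.L + 1 by omega) i
    rw [show l - ((m + 1 : ℕ) : ℤ) = l - 1 - (m : ℤ) by push_cast; ring] at h1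
    have h2 := (le_abs_self _).trans ((abs_weight_sub h l v w hm').trans
      (div_le_self (by positivity) (by linarith [h.big])))
    have hKp : (2 : ℝ) ^ (P.L + 3) ≤ KK P.L := two_pow_le_KK (by omega)
    have hQw := Qf_nonneg x l w (l - 1 - m) w i
    have hQv := Qf_nonneg x l v (l - 1 - m) v i
    have hc0 : 0 ≤ xi x P l v * pw x P (l - 1) v m :=
      mul_nonneg (xi_nonneg x P l v) (pw_nonneg x P _ v m)
    have hc1 : xi x P l v * pw x P (l - 1) v m ≤ 1 :=
      mul_le_one₀ (xi_le_one x P l v) (pw_nonneg x P _ v m) (pw_le_one x P _ v m)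
    have e1 := mul_le_mul_of_nonneg_right (h2.trans (mul_le_mul_of_nonneg_right hKp hr)) hQw
    have hnn : 0 ≤ KK P.L * rf x l v w * Qf x l v (l - 1 - m) v i := by positivity
    have e2 : xi x P l v * pw x P (l - 1) v m *
        (Qf x l w (l - 1 - m) w i - Qf x l v (l - 1 - m) v i) ≤
        1 * (KK P.L * rf x l v w * Qf x l v (l - 1 - m) v i) :=
      (mul_le_mul_of_nonneg_left h1 hc0).trans (mul_le_mul_of_nonneg_right hc1 hnn)
    linarith [show 0 ≤ KK P.L * rf x l v w * Qf x l w (l - 1 - m) w i by positivity]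
  rw [ee, ee, ← sub_div]
  refine (div_le_div_of_nonneg_right hpt (tt_pos l).le).trans ?_
  rw [mul_div_assoc, add_div]
  exact mul_le_mul_of_nonneg_left (add_le_add (hsum v) (hsum w)) (by positivity)

lemma lag_incr_crude (h : P.Ok x) (hJ : IsLevel x v w J) {j : ℤ} (hj : J ≤ j) {m : ℕ}
    (hm : m < P.L) (i : I) :
    max 0 (lag x P j w i m - lag x P j v i m) ≤
      6 * KK P.L * rf x (j - (m + 1 : ℕ)) v w * beta x P (j - (m + 1 : ℕ)) v w i := by
  set i₁ := j - ((m + 1 : ℕ) : ℤ) with hi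
  have hr := rf_nonneg x i₁ v w
  have hrj := rf_nonneg x j v w
  have hK := one_le_KK P.L
  have hb := beta_nonneg (x := x) (P := P) i₁ v w i
  refine max_le (by positivity) ?_
  have h1 := (le_max_right 0 _).trans
    (aa_incr_crude h hJ (show J - P.L - 1 ≤ i₁ by omega) i)
  have h2 := (le_abs_self _).trans ((abs_qq_sub h j v w (m + 1)).trans
    (div_le_self (by positivity) (by linarith [h.big])))
  have hp2 : (1 / 2 : ℝ) ^ (m + 1) ≤ 1 := pow_le_one₀ (by norm_num) (by norm_num)
  have hrr : rf x j v w ≤ rf x i₁ v w := rf_anti x (by omega) v w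
  have hq0 := qq_nonneg (x := x) (P := P) j v (m + 1)
  have hq1 : qq x P j v (m + 1) ≤ 1 :=
    (qq_le j v _).trans (pow_le_one₀ (by norm_num) (by norm_num))
  have haw : aa x P i₁ w i ≤ beta x P i₁ v w i :=
    (aa_le_bb i₁ w i).trans (le_add_of_nonneg_left (bb_nonneg i₁ v i))
  have ha0 := aa_nonneg (x := x) (P := P) i₁ w i
  simp only [lag, ← hi]
  have e1 : (qq x P j w (m + 1) - qq x P j v (m + 1)) * aa x P i₁ w i ≤
      4 * rf x i₁ v w * beta x P i₁ v w i := by
    refine (mul_le_mul_of_nonneg_right h2 ha0).trans ?_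
    refine mul_le_mul ?_ haw ha0 (by positivity)
    nlinarith [mul_le_mul_of_nonneg_left hp2 hrj]
  have e2 : qq x P j v (m + 1) * (aa x P i₁ w i - aa x P i₁ v i) ≤
      1 * (2 * KK P.L * rf x i₁ v w * beta x P i₁ v w i) :=
    (mul_le_mul_of_nonneg_left h1 hq0).trans (mul_le_mul_of_nonneg_right hq1 (by positivity))
  nlinarith [mul_le_mul_of_nonneg_right hK (mul_nonneg hr hb)]

lemma rpow_mul_root_le (hp1 : 1 ≤ p) {a S : ℝ} (ha : 0 ≤ a) (hS : 0 < S) (hle : a ^ p ≤ S) :
    a ^ p * S ^ (p⁻¹ - 1) ≤ a := by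
  have hp0 : 0 < p := by linarith
  rcases eq_or_lt_of_le ha with rfl | ha'
  · simp [Real.zero_rpow hp0.ne']
  calc a ^ p * S ^ (p⁻¹ - 1) ≤ a ^ p * (a ^ p) ^ (p⁻¹ - 1) :=
        mul_le_mul_of_nonneg_left (Real.rpow_le_rpow_of_nonpos (Real.rpow_pos_of_pos ha' p) hle
          (by linarith [inv_le_one_of_one_le₀ hp1])) (Real.rpow_nonneg ha _)
    _ = a := by
        rw [← Real.rpow_mul ha, ← Real.rpow_add ha', mul_sub, mul_inv_cancel₀ hp0.ne', mul_one,
          add_sub_cancel, Real.rpow_one]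

lemma Rf_incr_crude (h : P.Ok x) (hJ : IsLevel x v w J) {j : ℤ} (hj : J ≤ j) (hjT : j ≤ P.T)
    (i : I) :
    Rf x P j w i - Rf x P j v i ≤
      (6 * Real.exp (6 * p) + 4) * (6 * KK P.L) * wtot x P j v w i := by
  have hp1 : 1 ≤ p := one_le_p
  have hK := one_le_KK P.L
  have he := (Real.exp_pos (6 * p)).le
  refine (Rf_incr h hJ hj hjT i).trans ?_
  set W := wtot x P j v w i with hW
  have hW0 : 0 ≤ W := wtot_nonneg j v w i
  set q := p⁻¹ - 1
  set f := fun l => rf x l v w * beta x P l v w i with hf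
  have hf0 : ∀ l, 0 ≤ f l := fun l => mul_nonneg (rf_nonneg x l v w) (beta_nonneg l v w i)
  have sub : ∀ s : Finset ℤ, s ⊆ Finset.Icc (j - P.L - 1) P.T → ∑ l ∈ s, f l ≤ W := fun s hs =>
    Finset.sum_le_sum_of_subset_of_nonneg hs fun l _ _ => hf0 l
  have sA : Finset.Icc j P.T ⊆ Finset.Icc (j - P.L - 1) P.T :=
    Finset.Icc_subset_Icc (by omega) le_rfl
  have sE : Finset.Icc (j + 1) P.T ⊆ Finset.Icc (j - P.L - 1) P.T :=
    Finset.Icc_subset_Icc (by omega) le_rfl
  have hS := Sf_pos h j v i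
  have hqa : (∑ l ∈ Finset.Icc j P.T, rf x l v w * aa x P l v i ^ p) * Sf x P j v i ^ q ≤ W := by
    rw [Finset.sum_mul]
    refine (Finset.sum_le_sum fun l hl => ?_).trans (sub _ sA)
    rw [mul_assoc]
    refine mul_le_mul_of_nonneg_left ?_ (rf_nonneg x l v w)
    refine (rpow_mul_root_le hp1 (aa_nonneg l v i) hS ?_).trans
      ((aa_le_bb l v i).trans (le_add_of_nonneg_right (bb_nonneg l w i)))
    have h1 : aa x P l v i ^ p ≤ ∑ k ∈ Finset.Icc j P.T, aa x P k v i ^ p :=
      Finset.single_le_sum (f := fun k => aa x P k v i ^ p)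
        (fun k _ => Real.rpow_nonneg (aa_nonneg k v i) _) hl
    have := Real.rpow_pos_of_pos h.floor_pos p
    have h2 : 0 ≤ ∑ k ∈ Finset.Icc (j + 1) P.T, ee x P k v i ^ p :=
      Finset.sum_nonneg fun k _ => Real.rpow_nonneg (ee_nonneg k v i) _
    have h3 : 0 ≤ ∑ m ∈ Finset.range P.L, lag x P j v i m ^ p :=
      Finset.sum_nonneg fun m _ => Real.rpow_nonneg (lag_nonneg j v i m) _
    rw [Sf]; linarith
  have hqe : (∑ l ∈ Finset.Icc (j + 1) P.T, rf x l v w * ee x P l v i ^ p) *
      Sf x P j v i ^ q ≤ W := by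
    rw [Finset.sum_mul]
    refine (Finset.sum_le_sum fun l hl => ?_).trans (sub _ sE)
    rw [mul_assoc]
    refine mul_le_mul_of_nonneg_left ?_ (rf_nonneg x l v w)
    refine (rpow_mul_root_le hp1 (ee_nonneg l v i) hS ?_).trans
      ((ee_le_bb l v i).trans (le_add_of_nonneg_right (bb_nonneg l w i)))
    have h1 : ee x P l v i ^ p ≤ ∑ k ∈ Finset.Icc (j + 1) P.T, ee x P k v i ^ p :=
      Finset.single_le_sum (f := fun k => ee x P k v i ^ p)
        (fun k _ => Real.rpow_nonneg (ee_nonneg k v i) _) hl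
    have := Real.rpow_pos_of_pos h.floor_pos p
    have h2 : 0 ≤ ∑ k ∈ Finset.Icc j P.T, aa x P k v i ^ p :=
      Finset.sum_nonneg fun k _ => Real.rpow_nonneg (aa_nonneg k v i) _
    have h3 : 0 ≤ ∑ m ∈ Finset.range P.L, lag x P j v i m ^ p :=
      Finset.sum_nonneg fun m _ => Real.rpow_nonneg (lag_nonneg j v i m) _
    rw [Sf]; linarith
  have hrA : ∑ l ∈ Finset.Icc j P.T, rhoA x P l v w i ≤ 6 * KK P.L * W := by
    refine (Finset.sum_le_sum (g := fun l => 6 * KK P.L * f l) fun l hl => ?_).trans ?_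
    · refine le_trans (max_le_max le_rfl (sub_le_sub_left ?_ _))
        ((aa_incr_crude h hJ (by have := (Finset.mem_Icc.1 hl).1; omega) i).trans ?_)
      · exact le_mul_of_one_le_left (aa_nonneg l v i)
          (Real.one_le_exp (by have := rf_nonneg x l v w; positivity))
      · simp only [hf]
        nlinarith [mul_nonneg (show (0 : ℝ) ≤ KK P.L by linarith) (hf0 l)]
    · rw [← Finset.mul_sum]
      exact mul_le_mul_of_nonneg_left (sub _ sA) (by positivity)
  have hrE : ∑ l ∈ Finset.Icc (j + 1) P.T, rhoE x P l v w i ≤ 6 * KK P.L * W := by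
    refine (Finset.sum_le_sum (g := fun l => 6 * KK P.L * f l) fun l hl => ?_).trans ?_
    · refine le_trans (max_le_max le_rfl (sub_le_sub_left ?_ _))
        ((ee_incr_crude h hJ (by have := (Finset.mem_Icc.1 hl).1; omega) i).trans ?_)
      · exact le_mul_of_one_le_left (ee_nonneg l v i)
          (Real.one_le_exp (by have := rf_nonneg x l v w; positivity))
      · simp only [hf]
        nlinarith [mul_nonneg (show (0 : ℝ) ≤ KK P.L by linarith) (hf0 l)]
    · rw [← Finset.mul_sum]
      exact mul_le_mul_of_nonneg_left (sub _ sE) (by positivity)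
  have hrL : ∑ m ∈ Finset.range P.L, rhoL x P j m v w i ≤ 6 * KK P.L * W := by
    refine (Finset.sum_le_sum (g := fun m => 6 * KK P.L * f (j - (m + 1 : ℕ))) fun m hm => ?_).trans ?_
    · refine (lag_incr_crude h hJ hj (Finset.mem_range.1 hm) i).trans_eq ?_
      simp only [hf]; ring
    · rw [← Finset.mul_sum]
      refine mul_le_mul_of_nonneg_left ?_ (by positivity)
      rw [show ∑ m ∈ Finset.range P.L, f (j - (m + 1 : ℕ)) =
          ∑ l ∈ (Finset.range P.L).image (fun m : ℕ => j - ((m + 1 : ℕ) : ℤ)), f l by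
        rw [Finset.sum_image]; intro a _ c _ hac; simpa using hac]
      refine sub _ fun l hl => ?_
      simp only [Finset.mem_image, Finset.mem_range, Finset.mem_Icc] at hl ⊢
      obtain ⟨a, ha, rfl⟩ := hl
      omega
  have hB : (∑ l ∈ Finset.Icc (j - P.L - 1) P.T, KK P.L * rf x l v w * bb x P l v i) / P.Γ ≤
      KK P.L * W := by
    refine (div_le_self (Finset.sum_nonneg fun l _ => ?_) (by linarith [h.big])).trans ?_
    · have := rf_nonneg x l v w
      have := bb_nonneg (x := x) (P := P) l v i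
      positivity
    · rw [hW, wtot, Finset.mul_sum]
      refine Finset.sum_le_sum fun l _ => ?_
      rw [mul_assoc]
      exact mul_le_mul_of_nonneg_left (mul_le_mul_of_nonneg_left
        (le_add_of_nonneg_right (bb_nonneg l w i)) (rf_nonneg x l v w)) (by linarith)
  rw [mul_assoc, add_mul]
  nlinarith [mul_le_mul_of_nonneg_left (add_le_add hqa hqe) he,
    mul_le_mul_of_nonneg_right hK (mul_nonneg he hW0), mul_le_mul_of_nonneg_right hK hW0]

lemma abs_Rf_sub (h : P.Ok x) (hJ : IsLevel x v w J) {j : ℤ} (hj : J ≤ j) (hjT : j ≤ P.T)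
    (i : I) :
    |Rf x P j w i - Rf x P j v i| ≤
      (6 * Real.exp (6 * p) + 4) * (6 * KK P.L) * wtot x P j v w i := by
  have h2 := Rf_incr_crude (v := w) (w := v) h hJ.symm hj hjT i
  rw [wtot_symm] at h2
  exact abs_le.2 ⟨by linarith, Rf_incr_crude h hJ hj hjT i⟩

lemma Rf_compare (h : P.Ok x) (hJ : IsLevel x v w J) {j : ℤ} (hj : J ≤ j) (hjT : j ≤ P.T)
    (i : I) : Rf x P j w i ≤ 4 * (P.Γ + 1) * KK P.L * Rf x P j v i := by
  have hp1 : 1 ≤ p := one_le_p
  have hΓ := h.pos
  have hK := one_le_KK P.L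
  set B := Bf x P j w i with hB
  have hwin : ∀ s : Finset ℤ, s ⊆ Finset.Icc (j - P.L - 1) P.T →
      ∑ l ∈ s, bb x P l w i ≤ P.Γ * B := fun s hs => by
    rw [hB, Bf, mul_div_cancel₀ _ hΓ.ne']
    exact Finset.sum_le_sum_of_subset_of_nonneg hs fun l _ _ => bb_nonneg l w i
  have hroot : Sf x P j w i ^ p⁻¹ ≤ P.floor + 3 * P.Γ * B := by
    have hp0 : 0 < p := by linarith
    have hz : ∀ {K : Type} (s : Finset K) (X : ℝ) (a : K → ℝ), 0 ≤ X → (∀ k, 0 ≤ a k) →
        (X + ∑ k ∈ s, a k ^ p) ^ p⁻¹ ≤ X ^ p⁻¹ + ∑ k ∈ s, a k := by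
      intro K s X a hX ha
      simpa [Real.zero_rpow hp0.ne'] using
        root_sum hp1 s hX (fun _ => (0 : ℝ)) a (fun _ _ => le_rfl) (fun k _ => ha k)
    have hF : 0 ≤ P.floor ^ p := Real.rpow_nonneg h.floor_pos.le _
    have z1 := hz (Finset.Icc j P.T) (P.floor ^ p) (fun l => aa x P l w i) hF
      fun l => aa_nonneg (x := x) (P := P) l w i
    have hX1 : 0 ≤ P.floor ^ p + ∑ l ∈ Finset.Icc j P.T, aa x P l w i ^ p :=
      add_nonneg hF (Finset.sum_nonneg fun l _ => Real.rpow_nonneg (aa_nonneg (x := x) (P := P) l w i) _)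
    have z2 := hz (Finset.Icc (j + 1) P.T) _ (fun l => ee x P l w i) hX1 fun l => ee_nonneg (x := x) (P := P) l w i
    have z3 := hz (Finset.range P.L) (P.floor ^ p + ∑ l ∈ Finset.Icc j P.T, aa x P l w i ^ p +
      ∑ l ∈ Finset.Icc (j + 1) P.T, ee x P l w i ^ p) (fun m => lag x P j w i m) (add_nonneg hX1
      (Finset.sum_nonneg fun l _ => Real.rpow_nonneg (ee_nonneg (x := x) (P := P) l w i) p))
      fun m => lag_nonneg (x := x) (P := P) j w i m
    rw [Real.rpow_rpow_inv h.floor_pos.le hp0.ne'] at z1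
    have w1 := (Finset.sum_le_sum fun l _ => aa_le_bb (x := x) (P := P) l w i).trans
      (hwin (Finset.Icc j P.T) (Finset.Icc_subset_Icc (by omega) le_rfl))
    have w2 := (Finset.sum_le_sum fun l _ => ee_le_bb (x := x) (P := P) l w i).trans
      (hwin (Finset.Icc (j + 1) P.T) (Finset.Icc_subset_Icc (by omega) le_rfl))
    have w3 : ∑ m ∈ Finset.range P.L, lag x P j w i m ≤ P.Γ * B := by
      refine le_trans (Finset.sum_le_sum (g := fun m : ℕ => bb x P (j - ((m + 1 : ℕ) : ℤ)) w i)
        fun m _ => ?_) ?_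
      · exact (mul_le_of_le_one_left (aa_nonneg _ w i)
          ((qq_le j w _).trans (pow_le_one₀ (by norm_num) (by norm_num)))).trans (aa_le_bb _ w i)
      · rw [show ∑ m ∈ Finset.range P.L, bb x P (j - ((m + 1 : ℕ) : ℤ)) w i =
            ∑ l ∈ (Finset.range P.L).image (fun m : ℕ => j - ((m + 1 : ℕ) : ℤ)), bb x P l w i by
          rw [Finset.sum_image]; intro a _ c _ hac; simpa using hac]
        refine hwin _ fun l hl => ?_
        simp only [Finset.mem_image, Finset.mem_range, Finset.mem_Icc] at hl ⊢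
        obtain ⟨a, ha, rfl⟩ := hl
        omega
    rw [Sf]
    linarith
  have hfl : P.floor ≤ Rf x P j v i := le_root_Sf h j v i h.floor_pos.le (by
    have h1 : 0 ≤ ∑ l ∈ Finset.Icc j P.T, aa x P l v i ^ p :=
      Finset.sum_nonneg fun l _ => Real.rpow_nonneg (aa_nonneg l v i) _
    have h2 : 0 ≤ ∑ l ∈ Finset.Icc (j + 1) P.T, ee x P l v i ^ p :=
      Finset.sum_nonneg fun l _ => Real.rpow_nonneg (ee_nonneg l v i) _
    have h3 : 0 ≤ ∑ m ∈ Finset.range P.L, lag x P j v i m ^ p :=
      Finset.sum_nonneg fun m _ => Real.rpow_nonneg (lag_nonneg j v i m) _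
    rw [Sf]; linarith)
  have h1 := (Bf_lip h hJ hj i).1
  have h2 := mul_le_mul_of_nonneg_left (Bf_le_Rf h j v i) (show (0 : ℝ) ≤ KK P.L by linarith)
  have h3 := mul_le_mul_of_nonneg_left (h1.trans h2) (show 0 ≤ 3 * P.Γ + 1 by linarith)
  have hR := Rf_pos h j v i
  rw [Rf]
  nlinarith [mul_le_mul_of_nonneg_right hK hR.le, mul_nonneg (mul_nonneg hΓ.le
    (show (0 : ℝ) ≤ KK P.L by linarith)) hR.le]

lemma abs_Cf_sub_crude (h : P.Ok x) (hJ : IsLevel x v w J) {j : ℤ} (hj : J ≤ j) (i : I) :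
    |Cf x P j w i - Cf x P j v i| ≤ 2 * KK P.L * ds x v w *
      ∑ m ∈ Finset.range (P.L + 1), beta x P (j - m) v w i := by
  have hK := one_le_KK P.L
  have hD := ds_nonneg x v w
  have hL := L_pos h
  have e : Cf x P j w i - Cf x P j v i =
      ∑ m ∈ Finset.range P.L, pw x P j v m * (Mf x (j - m) w i - Mf x (j - m) v i) +
      ∑ m ∈ Finset.range P.L, (pw x P j w m - pw x P j v m) *
        (Mf x (j - m) w i - Mf x j w i) := by
    simp only [mul_sub, sub_mul, Finset.sum_sub_distrib, ← Finset.sum_mul, sum_pw h, Cf]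
    ring
  rw [e]
  set Sb := ∑ m ∈ Finset.range (P.L + 1), beta x P (j - m) v w i
  have hSb : ∀ m, m < P.L + 1 → beta x P (j - (m : ℕ)) v w i ≤ Sb := fun m hm =>
    Finset.single_le_sum (f := fun m : ℕ => beta x P (j - m) v w i)
      (fun m _ => beta_nonneg _ v w i) (Finset.mem_range.2 hm)
  refine (abs_add_le _ _).trans ?_
  have h1 : |∑ m ∈ Finset.range P.L, pw x P j v m * (Mf x (j - m) w i - Mf x (j - m) v i)| ≤
      KK P.L * ds x v w * Sb := by
    refine (Finset.abs_sum_le_sum_abs _ _).trans ?_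
    calc ∑ m ∈ Finset.range P.L, |pw x P j v m * (Mf x (j - m) w i - Mf x (j - m) v i)|
        ≤ ∑ m ∈ Finset.range P.L, pw x P j v m * (KK P.L * ds x v w * Sb) := by
          refine Finset.sum_le_sum fun m hm => ?_
          have hm' := Finset.mem_range.1 hm
          rw [abs_mul, abs_of_nonneg (pw_nonneg x P j v m)]
          refine mul_le_mul_of_nonneg_left ?_ (pw_nonneg x P j v m)
          set i₁ := j - (m : ℤ)
          have hr := rf_nonneg x i₁ v w
          have hr1 : rf x i₁ v w ≤ 2 ^ (P.L + 1) := rf_le_pow hJ (by push_cast; omega)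
          have hQ : Qf x i₁ v i₁ v i / tt i₁ ≤ beta x P i₁ v w i := by
            refine le_trans ?_ (le_add_of_nonneg_right (bb_nonneg i₁ w i))
            refine div_le_div_of_nonneg_right ?_ (tt_pos i₁).le
            have := Finset.single_le_sum (f := fun q : ℕ => Qf x i₁ v (i₁ - q) v i)
              (fun q _ => Qf_nonneg x i₁ v _ v i) (Finset.mem_range.2 (Nat.succ_pos (P.L + 1)))
            simpa using this
          refine (abs_Mf_gain x i₁ v w i).trans ?_
          have hE : Real.exp (2 * rf x i₁ v w) - 1 ≤ KK P.L * rf x i₁ v w := by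
            refine (exp_sub_one_le _).trans ?_
            have h2 : Real.exp (2 * rf x i₁ v w) ≤ Real.exp ((2 : ℝ) ^ (P.L + 2)) :=
              Real.exp_le_exp.2 (by rw [pow_succ]; linarith)
            have h3 : (2 : ℝ) ^ 1 * Real.exp ((2 : ℝ) ^ (P.L + 2)) ≤ KK P.L :=
              pow_le_KK (by omega) (by omega)
            rw [pow_one] at h3
            nlinarith [mul_le_mul_of_nonneg_left h2 hr, mul_le_mul_of_nonneg_left h3 hr]
          calc (Real.exp (2 * rf x i₁ v w) - 1) * Qf x i₁ v i₁ v i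
              ≤ KK P.L * rf x i₁ v w * Qf x i₁ v i₁ v i :=
                mul_le_mul_of_nonneg_right hE (Qf_nonneg x i₁ v _ v i)
            _ = KK P.L * ds x v w * (Qf x i₁ v i₁ v i / tt i₁) := by
                rw [← tt_mul_rf x i₁ v w]
                have := (tt_pos i₁).ne'
                field_simp
            _ ≤ _ := mul_le_mul_of_nonneg_left (hQ.trans (hSb m (by omega))) (by positivity)
      _ = _ := by rw [← Finset.sum_mul, sum_pw h, one_mul]
  have h2 : |∑ m ∈ Finset.range P.L, (pw x P j w m - pw x P j v m) *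
      (Mf x (j - m) w i - Mf x j w i)| ≤ KK P.L * ds x v w * Sb := by
    refine (Finset.abs_sum_le_sum_abs _ _).trans ?_
    calc ∑ m ∈ Finset.range P.L, |(pw x P j w m - pw x P j v m) *
          (Mf x (j - m) w i - Mf x j w i)|
        ≤ ∑ m ∈ Finset.range P.L, KK P.L * rf x j v w * Qf x j w (j - m) w i := by
          refine Finset.sum_le_sum fun m hm => ?_
          rw [abs_mul]
          have hr := rf_nonneg x j v w
          refine mul_le_mul ((abs_pw_sub h j v w m).trans ((div_le_self (by positivity)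
            (by linarith [h.big])).trans ?_)) ?_ (abs_nonneg _) (by positivity)
          · refine mul_le_mul_of_nonneg_right ?_ hr
            exact two_pow_le_KK (by have := Finset.mem_range.1 hm; omega)
          · rw [abs_sub_comm]; exact abs_Mf_sub_le x j w _ w i
      _ ≤ KK P.L * rf x j v w * (tt j * bb x P j w i) := by
          rw [← Finset.mul_sum, bb, mul_div_cancel₀ _ (tt_pos j).ne']
          exact mul_le_mul_of_nonneg_left (Finset.sum_le_sum_of_subset_of_nonneg
            (Finset.range_subset_range.2 (by omega))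
            fun m _ _ => Qf_nonneg x j w _ w i) (by have := rf_nonneg x j v w; positivity)
      _ = KK P.L * ds x v w * bb x P j w i := by rw [← tt_mul_rf x j v w]; ring
      _ ≤ _ := by
          refine mul_le_mul_of_nonneg_left (le_trans ?_ (hSb 0 (by omega))) (by positivity)
          rw [Nat.cast_zero, sub_zero]
          exact le_add_of_nonneg_left (bb_nonneg j v i)
  linarith

end Vale.Agent.P249.Full
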