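import Vale.Agent.P249.Full.Coord

/-!
Each coordinate of a feature changes by at most the band height times the distance, and a feature
is nonzero only where the envelope reaches the band.
-/

namespace Vale.Agent.P249.Full

open Finset Vale.Agent.P249.Sub

set_option linter.unusedSectionVars false
set_option linter.unusedVariables false

variable {p : ℝ} [hp : Fact (1 ≤ ENNReal.ofReal p)] {V I : Type*} [Fintype V] [Fintype I]

variable {x : V → Ell p I} {P : Prm} {v w : V} {J b : ℤ}

lemma feat_support (h : P.Ok x) (wd : ℝ) (hwd : 0 < wd) (k : ℤ) (v : V) (i : I)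
    (hne : feat x P b wd k v i ≠ 0) :
    Real.exp ((2 * k - 2) * wd) ≤ Rf x P b v i := by
  obtain ⟨j, hj, hj'⟩ := Finset.exists_ne_zero_of_sum_ne_zero hne
  obtain ⟨h1, h2⟩ := Finset.mem_Icc.1 hj
  have hband := (of_band_ne_zero hwd (left_ne_zero_of_mul hj')).1
  refine le_trans ?_ (Rf_anti h (show b ≤ j - 1 by omega) (by omega) v i)
  rw [← exp_lam h]
  exact Real.exp_le_exp.2 hband.le

lemma mul_abs_log_sub {a c Q : ℝ} (ha : 0 < a) (hc : 0 < c) (hac : a ≤ Q * c) (hQ : 1 ≤ Q) :
    a * |Real.log a - Real.log c| ≤ Q * |a - c| := by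
  rcases le_total c a with h | h
  · rw [abs_of_nonneg (sub_nonneg.2 (Real.log_le_log hc h)), abs_of_nonneg (sub_nonneg.2 h)]
    have h1 := Real.log_le_sub_one_of_pos (div_pos ha hc)
    rw [Real.log_div ha.ne' hc.ne', div_sub_one hc.ne', le_div_iff₀ hc] at h1
    have h2 := mul_le_mul_of_nonneg_right hac (sub_nonneg.2 (Real.log_le_log hc h))
    nlinarith
  · rw [abs_of_nonpos (sub_nonpos.2 (Real.log_le_log ha h)), abs_of_nonpos (sub_nonpos.2 h)]
    have h1 := Real.log_le_sub_one_of_pos (div_pos hc ha)
    rw [Real.log_div hc.ne' ha.ne', div_sub_one ha.ne', le_div_iff₀ ha] at h1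
    nlinarith

/-- Crude bound on one coordinate. -/
theorem coord_bound (h : P.Ok x) (hJ : IsLevel x v w J) (hbJ : b ≤ J - 1) (hJT : J ≤ P.T)
    {wd : ℝ} (hwd : 1 ≤ wd) (k : ℤ) (i : I) :
    |feat x P b wd k w i - feat x P b wd k v i| ≤
      coordC p P.Γ P.L * ds x v w * Real.exp ((2 * k + 2) * wd) := by
  classical
  have hp1 : 1 ≤ p := one_le_p
  have hwd0 : 0 < wd := by linarith
  set τ := Real.exp ((2 * k + 2) * wd) with hτ
  have hτ0 : 0 < τ := Real.exp_pos _
  set D := ds x v w with hD
  have hD0 : 0 ≤ D := ds_nonneg x v w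
  set K := KK P.L with hKdef
  have hK : 1 ≤ K := one_le_KK _
  set C := 6 * Real.exp (6 * p) + 4 with hC
  have hC1 : 1 ≤ C := by rw [hC]; linarith [Real.exp_pos (6 * p)]
  set Q := 4 * (P.Γ + 1) * K with hQ
  have hΓ := h.big
  have hQ1 : 1 ≤ Q := by
    rw [hQ]
    nlinarith [mul_le_mul (show (1 : ℝ) ≤ 4 * (P.Γ + 1) by linarith) hK zero_le_one (by linarith)]
  set S := fun j => |band p wd k (lam x P (j - 1) w i) * dC x P j w i -
    band p wd k (lam x P (j - 1) v i) * dC x P j v i| with hS
  set Rel := fun j => Rf x P (j - 1) v i < τ ∨ Rf x P (j - 1) w i < τ with hRel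
  have hgate : ∀ u j, band p wd k (lam x P (j - 1) u i) ≠ 0 → Rf x P (j - 1) u i < τ := by
    intro u j hne
    rw [hτ, ← exp_lam h]
    exact Real.exp_lt_exp.2 (of_band_ne_zero hwd0 hne).2
  have hsum : |feat x P b wd k w i - feat x P b wd k v i| ≤ ∑ j ∈ Finset.Icc (b + 1) P.T, S j := by
    rw [feat, feat, ← Finset.sum_sub_distrib]
    exact Finset.abs_sum_le_sum_abs _ _
  have hlow : ∀ j ∈ Finset.Icc (b + 1) J, S j ≤ 2 * τ * tt j := by
    intro j hj
    obtain ⟨h1, h2⟩ := Finset.mem_Icc.1 hj
    have key : ∀ u, |band p wd k (lam x P (j - 1) u i) * dC x P j u i| ≤ τ * tt j := by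
      intro u
      by_cases hz : band p wd k (lam x P (j - 1) u i) = 0
      · rw [hz, zero_mul, abs_zero]; have := tt_pos j; positivity
      rw [abs_mul, abs_of_nonneg (band_nonneg hp1 hwd0 _ _)]
      refine (mul_le_of_le_one_left (abs_nonneg _) (band_le_one hp1 hwd0 _ _)).trans ?_
      refine (abs_dC_le h j u i).trans ?_
      rw [mul_comm τ]
      exact mul_le_mul_of_nonneg_left
        ((ee_le_Rf h (by omega) u i).trans (hgate u j hz).le) (tt_pos j).le
    refine (abs_sub _ _).trans ?_
    linarith [key w, key v]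
  set Wt := fun j => tt (j - 1) * wtot x P (j - 1) v w i with hWt
  set Zt := fun j => ∑ m ∈ Finset.range (P.L + 1),
    (beta x P (j - m) v w i + beta x P (j - 1 - m) v w i) with hZt
  have hhigh : ∀ j ∈ Finset.Icc (J + 1) P.T,
      S j ≤ if Rel j then 24 * Q * (C * (6 * K)) * Wt j + 2 * K * D * Zt j else 0 := by
    intro j hj
    obtain ⟨h1, h2⟩ := Finset.mem_Icc.1 hj
    by_cases hr : Rel j
    · rw [if_pos hr]
      have e : band p wd k (lam x P (j - 1) w i) * dC x P j w i -
          band p wd k (lam x P (j - 1) v i) * dC x P j v i =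
          (band p wd k (lam x P (j - 1) w i) - band p wd k (lam x P (j - 1) v i)) * dC x P j w i +
          band p wd k (lam x P (j - 1) v i) * (dC x P j w i - dC x P j v i) := by ring
      simp only [hS]
      rw [e]
      refine (abs_add_le _ _).trans (add_le_add ?_ ?_)
      · rw [abs_mul]
        have hlam : |band p wd k (lam x P (j - 1) w i) - band p wd k (lam x P (j - 1) v i)| ≤
            12 * |lam x P (j - 1) w i - lam x P (j - 1) v i| :=
          (abs_band_sub hp1 hwd0 k _ _).trans (div_le_self (by positivity) hwd)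
        have hd := abs_dC_le h j w i
        have he := ee_le_Rf h h2 w i
        have e2 : tt j = 2 * tt (j - 1) := by rw [← tt_add_one]; congr 1; ring
        have hlog := mul_abs_log_sub (Rf_pos h (j - 1) w i) (Rf_pos h (j - 1) v i)
          (Rf_compare h hJ (show J ≤ j - 1 by omega) (by omega) i) hQ1
        have hR := abs_Rf_sub h hJ (show J ≤ j - 1 by omega) (show j - 1 ≤ P.T by omega) i
        have ht := tt_pos (j - 1)
        calc |band p wd k (lam x P (j - 1) w i) - band p wd k (lam x P (j - 1) v i)| *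
              |dC x P j w i|
            ≤ (12 * |lam x P (j - 1) w i - lam x P (j - 1) v i|) *
                (2 * tt (j - 1) * Rf x P (j - 1) w i) :=
              mul_le_mul hlam (hd.trans (by
                rw [e2]; exact mul_le_mul_of_nonneg_left he (by positivity)))
                (abs_nonneg _) (by positivity)
          _ = 24 * tt (j - 1) * (Rf x P (j - 1) w i *
                |Real.log (Rf x P (j - 1) w i) - Real.log (Rf x P (j - 1) v i)|) := by
              simp only [lam]; ring
          _ ≤ 24 * tt (j - 1) * (Q * ((C * (6 * K)) * wtot x P (j - 1) v w i)) :=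
              mul_le_mul_of_nonneg_left (hlog.trans
                (mul_le_mul_of_nonneg_left hR (by linarith))) (by positivity)
          _ = _ := by simp only [hWt]; ring
      · rw [abs_mul, abs_of_nonneg (band_nonneg hp1 hwd0 _ _)]
        refine (mul_le_of_le_one_left (abs_nonneg _) (band_le_one hp1 hwd0 _ _)).trans ?_
        have c1 := abs_Cf_sub_crude h hJ (show J ≤ j by omega) i
        have c2 := abs_Cf_sub_crude h hJ (show J ≤ j - 1 by omega) i
        have e3 : dC x P j w i - dC x P j v i = (Cf x P j w i - Cf x P j v i) -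
            (Cf x P (j - 1) w i - Cf x P (j - 1) v i) := by simp only [dC]; ring
        rw [e3]
        refine (abs_sub _ _).trans ?_
        simp only [hZt, Finset.sum_add_distrib]
        linarith
    · rw [if_neg hr]
      simp only [hRel, not_or, not_lt] at hr
      have hv : band p wd k (lam x P (j - 1) v i) = 0 := by
        by_contra hne; exact absurd (hgate v j hne) (not_lt.2 hr.1)
      have hw : band p wd k (lam x P (j - 1) w i) = 0 := by
        by_contra hne; exact absurd (hgate w j hne) (not_lt.2 hr.2)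
      simp only [hS, hv, hw, zero_mul, sub_self, abs_zero, le_refl]
  set Jk := (Finset.Icc (J + 1) P.T).filter Rel with hJk
  have hhigh2 : ∑ j ∈ Finset.Icc (J + 1) P.T, S j ≤
      24 * Q * (C * (6 * K)) * ∑ j ∈ Jk, Wt j + 2 * K * D * ∑ j ∈ Jk, Zt j := by
    refine (Finset.sum_le_sum hhigh).trans_eq ?_
    rw [← Finset.sum_filter, Finset.sum_add_distrib, Finset.mul_sum, Finset.mul_sum]
  have hkey : ∑ j ∈ Jk, Wt j ≤ K * D * (2 * P.Γ * Q * τ) ∧
      ∑ j ∈ Jk, Zt j ≤ 2 * K * (2 * P.Γ * Q * τ) := by
    rcases Jk.eq_empty_or_nonempty with he | hne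
    · rw [he]; simp only [Finset.sum_empty]
      have : 0 ≤ P.Γ := by linarith
      constructor <;> positivity
    obtain ⟨hmem, hrel⟩ := Finset.mem_filter.1 (Jk.min'_mem hne)
    set j0 := Jk.min' hne
    obtain ⟨g1, g2⟩ := Finset.mem_Icc.1 hmem
    set Sig := ∑ l ∈ Finset.Icc (j0 - 1 - P.L - 1) P.T, beta x P l v w i
    have hSig : Sig ≤ 2 * P.Γ * Q * τ := by
      have e : Sig = P.Γ * (Bf x P (j0 - 1) v i + Bf x P (j0 - 1) w i) := by
        simp only [Sig, beta, Bf, Finset.sum_add_distrib]
        have := h.pos.ne'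
        field_simp
      have hv := Bf_le_Rf h (j0 - 1) v i
      have hw := Bf_le_Rf h (j0 - 1) w i
      have cvw := Rf_compare h hJ (show J ≤ j0 - 1 by omega) (show j0 - 1 ≤ P.T by omega) i
      have cwv := Rf_compare h hJ.symm (show J ≤ j0 - 1 by omega) (show j0 - 1 ≤ P.T by omega) i
      rw [e]
      have hmax : Bf x P (j0 - 1) v i + Bf x P (j0 - 1) w i ≤ 2 * Q * τ := by
        simp only [← hQ, ← hKdef] at cvw cwv
        rcases hrel with hr | hr
        · have := mul_le_mul_of_nonneg_left hr.le (show 0 ≤ Q by linarith)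
          nlinarith [mul_le_mul_of_nonneg_right hQ1 hτ0.le]
        · have := mul_le_mul_of_nonneg_left hr.le (show 0 ≤ Q by linarith)
          nlinarith [mul_le_mul_of_nonneg_right hQ1 hτ0.le]
      calc P.Γ * _ ≤ P.Γ * (2 * Q * τ) := mul_le_mul_of_nonneg_left hmax (by linarith)
        _ = _ := by ring
    constructor
    · refine le_trans ?_ (mul_le_mul_of_nonneg_left hSig (by positivity))
      rw [show ∑ j ∈ Jk, Wt j =
          ∑ l ∈ Jk.image (fun j => j - 1), tt l * wtot x P l v w i by
        rw [Finset.sum_image]; intro a _ c _ hac; simpa using hac]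
      refine (Finset.sum_le_sum_of_subset_of_nonneg (t := Finset.Icc (j0 - 1) P.T)
        (fun l hl => ?_) fun l _ _ => mul_nonneg (tt_pos l).le (wtot_nonneg l v w i)).trans ?_
      · obtain ⟨a, ha, rfl⟩ := Finset.mem_image.1 hl
        have := Jk.min'_le a ha
        have := (Finset.mem_Icc.1 (Finset.mem_filter.1 ha).1).2
        simp only [Finset.mem_Icc]
        omega
      · have hs := sum_swap_geom (j0 - 1) P.T (-((P.L : ℤ) + 1))
          (fun l => rf x l v w * beta x P l v w i)
          fun l => mul_nonneg (rf_nonneg x l v w) (beta_nonneg l v w i)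
        rw [show tt (- -((P.L : ℤ) + 1)) = 2 ^ (P.L + 1) by
          rw [neg_neg, ← tt_nat]; push_cast; rfl] at hs
        simp only [← mul_assoc, tt_mul_rf, ← hD] at hs
        rw [← Finset.mul_sum] at hs
        simp only [show ∀ j : ℤ, j + -((P.L : ℤ) + 1) = j - P.L - 1 from fun j => by ring] at hs
        refine hs.trans ?_
        have h2 : (2 : ℝ) * 2 ^ (P.L + 1) ≤ K := by
          rw [mul_comm, ← pow_succ]; exact two_pow_le_KK (by omega)
        calc 2 * 2 ^ (P.L + 1) * (D * Sig) ≤ K * (D * Sig) :=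
              mul_le_mul_of_nonneg_right h2 (mul_nonneg hD0
                (Finset.sum_nonneg fun l _ => beta_nonneg l v w i))
          _ = _ := by ring
    · refine le_trans ?_ (mul_le_mul_of_nonneg_left hSig (by positivity))
      simp only [hZt]
      rw [Finset.sum_comm]
      have hm : ∀ m ∈ Finset.range (P.L + 1),
          ∑ j ∈ Jk, (beta x P (j - m) v w i + beta x P (j - 1 - m) v w i) ≤ 2 * Sig := by
        intro m hm
        have hm' := Finset.mem_range.1 hm
        rw [Finset.sum_add_distrib]
        have sub : ∀ c : ℤ, 0 ≤ c → c ≤ P.L + 1 → ∑ j ∈ Jk, beta x P (j - c) v w i ≤ Sig := by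
          intro c hc0 hc1
          rw [show ∑ j ∈ Jk, beta x P (j - c) v w i =
              ∑ l ∈ Jk.image (fun j => j - c), beta x P l v w i by
            rw [Finset.sum_image]; intro a _ a' _ hac; simpa using hac]
          refine Finset.sum_le_sum_of_subset_of_nonneg (fun l hl => ?_)
            fun l _ _ => beta_nonneg l v w i
          obtain ⟨a, ha, rfl⟩ := Finset.mem_image.1 hl
          have := Jk.min'_le a ha
          have := (Finset.mem_Icc.1 (Finset.mem_filter.1 ha).1).2
          simp only [Finset.mem_Icc]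
          omega
        have s1 := sub m (by omega) (by omega)
        have s2 := sub (1 + m) (by omega) (by omega)
        simp only [← sub_sub] at s2
        linarith
      refine (Finset.sum_le_sum hm).trans ?_
      rw [Finset.sum_const, Finset.card_range, nsmul_eq_mul]
      have h2 : ((P.L + 1 : ℕ) : ℝ) ≤ K := (natCast_le_two_pow _).trans (two_pow_le_KK (by omega))
      calc ((P.L + 1 : ℕ) : ℝ) * (2 * Sig) ≤ K * (2 * Sig) :=
            mul_le_mul_of_nonneg_right h2
              (mul_nonneg two_pos.le (Finset.sum_nonneg fun l _ => beta_nonneg l v w i))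
        _ = _ := by ring
  refine hsum.trans ?_
  have hsplit : Finset.Icc (b + 1) P.T = Finset.Icc (b + 1) J ∪ Finset.Icc (J + 1) P.T := by
    ext j; simp only [Finset.mem_union, Finset.mem_Icc]; omega
  rw [hsplit, Finset.sum_union (Finset.disjoint_left.2 fun j h1 h2 => by
    simp only [Finset.mem_Icc] at h1 h2; omega)]
  have hl : ∑ j ∈ Finset.Icc (b + 1) J, S j ≤ 8 * D * τ := by
    refine (Finset.sum_le_sum hlow).trans ?_
    rw [← Finset.mul_sum]
    have := mul_le_mul_of_nonneg_left ((sum_tt_le (b + 1) J).trans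
      (mul_le_mul_of_nonneg_left hJ.ge two_pos.le)) (show 0 ≤ 2 * τ by positivity)
    linarith
  set G := P.Γ + 1 with hG
  have hG1 : 1 ≤ G := by linarith
  have hfin : 8 + 24 * Q * (C * (6 * K)) * (K * (2 * P.Γ * Q)) +
      2 * K * (2 * K * (2 * P.Γ * Q)) ≤ 10000 * C * K ^ 5 * G ^ 3 := by
    have hΓG : P.Γ ≤ G := by linarith
    have p1 : P.Γ * G ^ 2 ≤ G ^ 3 := by
      rw [show G ^ 3 = G * G ^ 2 by ring]; exact mul_le_mul_of_nonneg_right hΓG (sq_nonneg _)
    have p2 : P.Γ * G ≤ G ^ 3 := le_trans (by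
      rw [sq]; exact mul_le_mul_of_nonneg_left (le_mul_of_one_le_left (by linarith) hG1)
        (by linarith)) p1
    have q1 : K ^ 4 ≤ K ^ 5 := pow_le_pow_right₀ hK (by norm_num)
    have q2 : K ^ 3 ≤ K ^ 5 := pow_le_pow_right₀ hK (by norm_num)
    have u : 0 ≤ K ^ 5 * G ^ 3 := by positivity
    have u1 : (1 : ℝ) ≤ K ^ 5 * G ^ 3 :=
      one_le_mul_of_one_le_of_one_le (one_le_pow₀ hK) (one_le_pow₀ hG1)
    have m1 := mul_le_mul q1 p1 (by positivity) (by positivity)
    have m2 := mul_le_mul q2 p2 (by have := h.pos; positivity) (by positivity)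
    have m3 := mul_le_mul_of_nonneg_left m1 (show 0 ≤ 4608 * C by linarith)
    have m4 := mul_le_mul_of_nonneg_left hC1 u
    rw [hQ]
    nlinarith
  have hc := mul_le_mul_of_nonneg_right hfin (mul_nonneg hD0 hτ0.le)
  have b1 := mul_le_mul_of_nonneg_left hkey.1 (show 0 ≤ 24 * Q * (C * (6 * K)) by positivity)
  have b2 := mul_le_mul_of_nonneg_left hkey.2 (show 0 ≤ 2 * K * D by positivity)
  unfold coordC
  rw [← hC, ← hKdef, ← hG]
  linarith

end Vale.Agent.P249.Full
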