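import Vale.Agent.P249.Full.CentreChange

/-!
The weighted total change of the centres.
-/

namespace Vale.Agent.P249.Full

open Finset Vale.Agent.P249.Sub

set_option linter.unusedSectionVars false
set_option linter.unusedVariables false

variable {p : ℝ} [hp : Fact (1 ≤ ENNReal.ofReal p)] {V I : Type*} [Fintype V] [Fintype I]
variable {x : V → Ell p I} {P : Prm} {v w : V} {J b : ℤ}

lemma crude_drop_sum (h : P.Ok x) (hbJ : b ≤ J - 1) (hJT : J ≤ P.T) (i : I) :
    ∑ j ∈ Finset.Icc J P.T, KK P.L * Bf x P j w i *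
        (Lam x P b J v w i (j - 1) - Lam x P b J v w i j) ≤
      2 * (KK P.L * KK P.L) * Bf x P b w i + (Rf x P b v i + Rf x P b w i) := by
  have hK := KK_pos P.L
  have hK1 := one_le_KK P.L
  have hR : 0 < Rf x P b v i + Rf x P b w i := by
    have := Rf_pos h b v i
    have := Rf_pos h b w i
    linarith
  rcases eq_or_lt_of_le (Bf_nonneg h b w i) with hz | hz
  · have hzero : ∀ j ∈ Finset.Icc J P.T, KK P.L * Bf x P j w i *
        (Lam x P b J v w i (j - 1) - Lam x P b J v w i j) = 0 := by
      intro j hj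
      have h1 := Bf_anti h (show b ≤ j by have := (Finset.mem_Icc.1 hj).1; omega) w i
      rw [le_antisymm (h1.trans_eq hz.symm) (Bf_nonneg h j w i), mul_zero, zero_mul]
    rw [Finset.sum_eq_zero hzero, ← hz]
    linarith
  set Y := KK P.L * Bf x P b w i with hY
  have hY0 : 0 < Y := mul_pos hK hz
  let F := fun j => prim (KK P.L) Y (Lam x P b J v w i j)
  calc ∑ j ∈ Finset.Icc J P.T, KK P.L * Bf x P j w i *
        (Lam x P b J v w i (j - 1) - Lam x P b J v w i j)
      ≤ ∑ j ∈ Finset.Icc J P.T, (F (j - 1) - F j) := by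
        refine Finset.sum_le_sum fun j hj => ?_
        obtain ⟨hj1, hj2⟩ := Finset.mem_Icc.1 hj
        refine prim_drop hK hY0 ?_ ?_ (Lam_step h hbJ hj2 i)
        · refine mul_le_mul_of_nonneg_left ((Bf_le_Rf h j w i).trans ?_) hK.le
          rw [← exp_lam h]
          exact Real.exp_le_exp.2 (lam_le_Lam h (by omega) hj2 i).2
        · exact mul_le_mul_of_nonneg_left (Bf_anti h (by omega) w i) hK.le
    _ = F (J - 1) - F P.T := sum_tele F hJT
    _ ≤ F (J - 1) := sub_le_self _ (prim_nonneg hK hY0 _)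
    _ ≤ Y + Y * KK P.L + (Rf x P b v i + Rf x P b w i) :=
        prim_le hK1 hY0 hR (exp_Lam_le h hbJ (by omega) i)
    _ ≤ _ := by
        have := mul_nonneg (mul_nonneg hK.le hz.le) (sub_nonneg.2 hK1)
        rw [hY]; linarith

lemma exp_drop_sum (h : P.Ok x) (hbJ : b ≤ J - 1) (hJT : J ≤ P.T) (i : I) :
    ∑ j ∈ Finset.Icc J P.T, (Real.exp (Lam x P b J v w i (j - 1)) -
        Real.exp (Lam x P b J v w i j)) ≤ Rf x P b v i + Rf x P b w i := by
  rw [sum_tele (fun j => Real.exp (Lam x P b J v w i j)) hJT]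
  exact (sub_le_self _ (Real.exp_pos _).le).trans (exp_Lam_le h hbJ (by omega) i)

lemma gain_drop_sum (h : P.Ok x) (hbJ : b ≤ J - 1) (hJT : J ≤ P.T) (i : I) :
    ∑ j ∈ Finset.Icc J P.T, Rf x P j v i * (Lam x P b J v w i (j - 1) - Lam x P b J v w i j) ≤
      Rf x P b v i + Rf x P b w i := by
  refine le_trans (Finset.sum_le_sum fun j hj => ?_) (exp_drop_sum h hbJ hJT i)
  obtain ⟨hj1, hj2⟩ := Finset.mem_Icc.1 hj
  refine le_trans (mul_le_mul_of_nonneg_right ?_ (sub_nonneg.2 (Lam_step h hbJ hj2 i)))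
    (exp_mul_drop (Lam_step h hbJ hj2 i))
  rw [← exp_lam h]
  exact Real.exp_le_exp.2 (lam_le_Lam h (by omega) hj2 i).1

lemma lag_drop_sum (h : P.Ok x) (hD : 0 < ds x v w) (hbJ : b ≤ J - 1) (hJT : J ≤ P.T) (i : I) :
    ∑ j ∈ Finset.Icc J P.T, ((1 - kap x P j v) *
        ∑ m ∈ Finset.range P.L, pw x P (j - 1) v m * chg x (j - 1 - m) v w i) *
        (Lam x P b J v w i (j - 1) - Lam x P b J v w i j) ≤
      Rf x P b v i + Rf x P b w i + pot x P b J v w i J +
      ∑ j ∈ Finset.Icc J P.T,
        (1 - kap x P (j + 1) v) * kap x P j v * ((2 * rf x j v w + 1) * chg x j v w i) +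
      ∑ j ∈ Finset.Icc J P.T, 3 * (1 - kap x P j v) *
          ∑ m ∈ Finset.range P.L, pw x P (j - 1) v m * chg x (j - 1 - m) v w i := by
  set Λ := Lam x P b J v w i with hΛ
  set Pt := pot x P b J v w i with hPt
  calc ∑ j ∈ Finset.Icc J P.T, ((1 - kap x P j v) *
        ∑ m ∈ Finset.range P.L, pw x P (j - 1) v m * chg x (j - 1 - m) v w i) *
        (Λ (j - 1) - Λ j)
      ≤ ∑ j ∈ Finset.Icc J P.T, ((Real.exp (Λ (j - 1)) - Real.exp (Λ j)) + ((Pt j - Pt (j + 1)) +
          (1 - kap x P (j + 1) v) * kap x P j v * ((2 * rf x j v w + 1) * chg x j v w i) +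
          3 * (1 - kap x P j v) *
            ∑ m ∈ Finset.range P.L, pw x P (j - 1) v m * chg x (j - 1 - m) v w i)) := by
        refine Finset.sum_le_sum fun j hj => ?_
        obtain ⟨hj1, hj2⟩ := Finset.mem_Icc.1 hj
        refine le_trans ?_ (add_le_add le_rfl
          (pot_step (J := J) (w := w) h hD (show b ≤ j by omega) hj2 i))
        have hstep : Λ j ≤ Λ (j - 1) := Lam_step h hbJ hj2 i
        have hexp : 0 ≤ Real.exp (Λ (j - 1)) - Real.exp (Λ j) :=
          sub_nonneg.2 (Real.exp_le_exp.2 hstep)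
        set u := 1 - kap x P j v
        have hu0 : 0 ≤ u := sub_nonneg.2 (kap_le_one x P j v)
        have hu1 : u ≤ 1 := by simp only [u]; linarith [kap_nonneg x P j v]
        have h1 : (∑ m ∈ Finset.range P.L, pw x P (j - 1) v m * chg x (j - 1 - m) v w i) *
            (Λ (j - 1) - Λ j) ≤ ∑ m ∈ Finset.range P.L, pw x P (j - 1) v m *
              (chg x (j - 1 - m) v w i * (defct (chg x (j - 1 - m) v w i) (Λ j) -
                defct (chg x (j - 1 - m) v w i) (Λ (j - 1)))) +
              (Real.exp (Λ (j - 1)) - Real.exp (Λ j)) := by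
          rw [Finset.sum_mul, ← one_mul (Real.exp (Λ (j - 1)) - Real.exp (Λ j)),
            ← sum_pw h (j - 1) v, Finset.sum_mul, ← Finset.sum_add_distrib]
          refine Finset.sum_le_sum fun m _ => ?_
          rw [mul_assoc, ← mul_add]
          exact mul_le_mul_of_nonneg_left (mul_drop (chg_nonneg _ v w i) hstep)
            (pw_nonneg x P _ v m)
        have h2 := mul_le_mul_of_nonneg_left h1 hu0
        have h3 := mul_le_mul_of_nonneg_right hu1 hexp
        rw [mul_assoc]
        linarith
    _ ≤ _ := by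
        simp only [Finset.sum_add_distrib]
        have h1 := exp_drop_sum (v := v) (w := w) h hbJ hJT i
        have h2 : ∑ j ∈ Finset.Icc J P.T, (Pt j - Pt (j + 1)) ≤ Pt J := by
          have := sum_tele (fun j => Pt (j + 1)) hJT
          simp only [sub_add_cancel] at this
          rw [this]
          exact sub_le_self _ (pot_nonneg h hD (by rw [add_sub_cancel_right]; omega)
            (by rw [add_sub_cancel_right]) i)
        linarith

/-- The total weighted change of the centres. -/
theorem nrm_drop_total (h : P.Ok x) (hD : 0 < ds x v w) (hJ : IsLevel x v w J)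
    (hbJ : b ≤ J - 1) (hJT : J ≤ P.T) :
    nrm p (fun i => ∑ j ∈ Finset.Icc J P.T, |Cf x P j w i - Cf x P j v i| *
        (Lam x P b J v w i (j - 1) - Lam x P b J v w i j)) ≤
      ds x v w * (20 * (nrm p (Rf x P b v) + nrm p (Rf x P b w)) +
        2000 * P.Γ * (cnt x P (J - P.L - 1) v + 1) + 10 * KK P.L +
        2 * (KK P.L * KK P.L) * nrm p (Bf x P b w)) := by
  have hΓ := h.pos
  have hK := KK_pos P.L
  let XP : I → ℝ := fun i => pot x P b J v w i J
  let XS : I → ℝ := fun i => ∑ j ∈ Finset.Icc J P.T,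
    (1 - kap x P (j + 1) v) * kap x P j v * ((2 * rf x j v w + 1) * chg x j v w i)
  let XT : I → ℝ := fun i => ∑ j ∈ Finset.Icc J P.T, 3 * (1 - kap x P j v) *
    ∑ m ∈ Finset.range P.L, pw x P (j - 1) v m * chg x (j - 1 - m) v w i
  let XR : I → ℝ := fun i => 20 * Rf x P b v i + 20 * Rf x P b w i +
    2 * (KK P.L * KK P.L) * Bf x P b w i
  have hpt : ∀ i, |∑ j ∈ Finset.Icc J P.T, |Cf x P j w i - Cf x P j v i| *
      (Lam x P b J v w i (j - 1) - Lam x P b J v w i j)| ≤
      ds x v w * (XR i + (XP i + XS i + XT i)) := by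
    intro i
    set Λ := Lam x P b J v w i with hΛ
    have hst : ∀ j ∈ Finset.Icc J P.T, 0 ≤ Λ (j - 1) - Λ j := fun j hj =>
      sub_nonneg.2 (Lam_step h hbJ (Finset.mem_Icc.1 hj).2 i)
    rw [abs_of_nonneg (Finset.sum_nonneg fun j hj => mul_nonneg (abs_nonneg _) (hst j hj))]
    calc ∑ j ∈ Finset.Icc J P.T, |Cf x P j w i - Cf x P j v i| * (Λ (j - 1) - Λ j)
        ≤ ∑ j ∈ Finset.Icc J P.T, ds x v w * (18 * (Rf x P j v i * (Λ (j - 1) - Λ j)) +
            ((1 - kap x P j v) * ∑ m ∈ Finset.range P.L,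
              pw x P (j - 1) v m * chg x (j - 1 - m) v w i) * (Λ (j - 1) - Λ j) +
            KK P.L * Bf x P j w i * (Λ (j - 1) - Λ j)) := by
          refine Finset.sum_le_sum fun j hj => ?_
          refine (mul_le_mul_of_nonneg_right (abs_Cf_sub h hD hJ (Finset.mem_Icc.1 hj).1
            (Finset.mem_Icc.1 hj).2 i) (hst j hj)).trans_eq ?_
          ring
      _ ≤ _ := by
          rw [← Finset.mul_sum]
          refine mul_le_mul_of_nonneg_left ?_ hD.le
          simp only [Finset.sum_add_distrib, ← Finset.mul_sum]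
          have h1 := gain_drop_sum (v := v) (w := w) h hbJ hJT i
          have h2 := lag_drop_sum (v := v) (w := w) h hD hbJ hJT i
          have h3 := crude_drop_sum (v := v) (w := w) h hbJ hJT i
          simp only [XR, XP, XS, XT, hΛ]
          linarith
  refine (nrm_le_mul hD.le hpt).trans (mul_le_mul_of_nonneg_left ?_ hD.le)
  have hR : nrm p XR ≤ 20 * (nrm p (Rf x P b v) + nrm p (Rf x P b w)) +
      2 * (KK P.L * KK P.L) * nrm p (Bf x P b w) := by
    refine (nrm_add_le _ _).trans ?_
    rw [nrm_mul (by positivity)]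
    refine add_le_add ((nrm_add_le _ _).trans (le_of_eq ?_)) le_rfl
    rw [nrm_mul (by norm_num), nrm_mul (by norm_num)]
    ring
  set n₀ := cnt x P (J - P.L - 1) v
  have hn0 : 0 ≤ n₀ := cnt_nonneg _ v
  have hS : nrm p XS ≤ 450 * P.Γ * (n₀ + 1) := by
    have h1 : nrm p XS ≤ ∑ j ∈ Finset.Icc J P.T, irr x P (j + 1) v * (450 * P.Γ) := by
      refine (nrm_sum_le _ _).trans (Finset.sum_le_sum fun j hj => ?_)
      have hr := rf_le_one hJ (Finset.mem_Icc.1 hj).1
      have hr0 := rf_nonneg x j v w
      have hk := sub_nonneg.2 (kap_le_one x P (j + 1) v)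
      have hkj := kap_nonneg x P j v
      rw [nrm_mul (f := fun i => (2 * rf x j v w + 1) * chg x j v w i) (mul_nonneg hk hkj),
        nrm_mul (by linarith)]
      rcases eq_or_lt_of_le hkj with hz | hz
      · rw [← hz, mul_zero, zero_mul]
        exact mul_nonneg (irr_nonneg _ v) (by linarith)
      · refine mul_le_mul (mul_le_of_le_one_right hk (kap_le_one x P j v) |>.trans
          (kap_irr h (j + 1) v)) ?_ (mul_nonneg (by linarith) (nrm_nonneg _)) (irr_nonneg _ v)
        calc (2 * rf x j v w + 1) * nrm p (chg x j v w) ≤ 3 * (150 * P.Γ) :=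
              mul_le_mul (by linarith) (nrm_chg h hD hz).1 (nrm_nonneg _) (by norm_num)
          _ = _ := by ring
    rw [← Finset.sum_mul] at h1
    refine h1.trans ?_
    rw [mul_comm _ (n₀ + 1)]
    refine mul_le_mul_of_nonneg_right ?_ (by linarith)
    rw [show ∑ j ∈ Finset.Icc J P.T, irr x P (j + 1) v =
        ∑ l ∈ (Finset.Icc J P.T).image (fun j => j + 1), irr x P l v by
      rw [Finset.sum_image]; intro a _ c _ hac; simpa using hac]
    refine (Finset.sum_le_sum_of_subset_of_nonneg (t := insert (P.T + 1)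
      (Finset.Icc (J - P.L - 1) P.T)) (fun l hl => ?_) fun l _ _ => irr_nonneg l v).trans ?_
    · simp only [Finset.mem_image, Finset.mem_Icc, Finset.mem_insert] at hl ⊢
      obtain ⟨a, ⟨h1, h2⟩, rfl⟩ := hl
      omega
    · rw [Finset.sum_insert (by simp)]
      simp only [n₀, cnt]
      linarith [irr_le_one (x := x) (P := P) (P.T + 1) v]
  have hchg : ∀ j m, 0 < pw x P j v m → nrm p (chg x (j - (m : ℕ)) v w) ≤ 150 * P.Γ := fun j m hm =>
    (nrm_chg h hD (of_pw_pos x P hm).1).1
  have hT : nrm p XT ≤ 450 * P.Γ * n₀ := by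
    calc nrm p XT ≤ ∑ j ∈ Finset.Icc J P.T, irr x P j v * (450 * P.Γ) := by
          refine (nrm_sum_le _ _).trans (Finset.sum_le_sum fun j _ => ?_)
          have hk := sub_nonneg.2 (kap_le_one x P j v)
          rw [nrm_mul (f := fun i => ∑ m ∈ Finset.range P.L,
            pw x P (j - 1) v m * chg x (j - 1 - m) v w i) (by linarith)]
          have h2 : nrm p (fun i => ∑ m ∈ Finset.range P.L,
              pw x P (j - 1) v m * chg x (j - 1 - m) v w i) ≤ 150 * P.Γ := by
            refine (nrm_weighted_le (Finset.range P.L) (pw x P (j - 1) v)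
              (fun m _ => pw_nonneg x P _ v m) fun m i => chg x (j - 1 - m) v w i).trans ?_
            calc ∑ m ∈ Finset.range P.L, pw x P (j - 1) v m * nrm p (chg x (j - 1 - m) v w)
                ≤ ∑ m ∈ Finset.range P.L, pw x P (j - 1) v m * (150 * P.Γ) := by
                  refine Finset.sum_le_sum fun m _ => ?_
                  rcases eq_or_lt_of_le (pw_nonneg x P (j - 1) v m) with hz | hz
                  · rw [← hz, zero_mul, zero_mul]
                  · exact mul_le_mul_of_nonneg_left (hchg _ m hz) hz.le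
              _ = _ := by rw [← Finset.sum_mul, sum_pw h, one_mul]
          calc 3 * (1 - kap x P j v) * nrm p _ ≤ 3 * irr x P j v * (150 * P.Γ) :=
                mul_le_mul (by linarith [kap_irr h j v]) h2 (nrm_nonneg _)
                  (by linarith [irr_nonneg (x := x) (P := P) j v])
            _ = _ := by ring
      _ = cnt x P J v * (450 * P.Γ) := by rw [cnt, Finset.sum_mul]
      _ ≤ n₀ * (450 * P.Γ) :=
          mul_le_mul_of_nonneg_right (cnt_anti (by omega) v) (by linarith)
      _ = _ := by ring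
  have hP : nrm p XP ≤ 450 * P.Γ * (n₀ + 1) + 10 * KK P.L := by
    let c : ℕ → ℝ := fun m => pw x P (J - 1) v m
    refine (nrm_le_mul (f := XP) (c := 1) (g := fun i => ∑ m ∈ Finset.range P.L,
      c m * ((3 * m + 2 * rf x (J - 1 - m) v w + 1) * chg x (J - 1 - m) v w i))
      zero_le_one fun i => ?_).trans ?_
    · simp only [XP, c, one_mul]
      rw [abs_of_nonneg (pot_nonneg h hD hbJ (by omega) i), pot]
      refine (mul_le_of_le_one_left (Finset.sum_nonneg fun m _ =>
        pot_term_nonneg h hD hbJ (by omega) i m) (by linarith [kap_nonneg x P J v])).trans ?_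
      refine Finset.sum_le_sum fun m _ => mul_le_mul_of_nonneg_left ?_ (pw_nonneg x P _ v m)
      have hd : 0 ≤ defct (chg x (J - 1 - m) v w i) (Lam x P b J v w i (J - 1)) := le_max_left _ _
      nlinarith [mul_nonneg (chg_nonneg (x := x) (J - 1 - m) v w i) hd]
    · rw [one_mul]
      refine (nrm_weighted_le (Finset.range P.L) c (fun m _ => pw_nonneg x P _ v m)
        fun m i => (3 * m + 2 * rf x (J - 1 - m) v w + 1) * chg x (J - 1 - m) v w i).trans ?_
      calc ∑ m ∈ Finset.range P.L, c m *
            nrm p (fun i => (3 * m + 2 * rf x (J - 1 - m) v w + 1) * chg x (J - 1 - m) v w i)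
          ≤ ∑ m ∈ Finset.range P.L, c m * (450 * P.Γ * (n₀ + 1) + 10 * KK P.L) := by
            refine Finset.sum_le_sum fun m hm => ?_
            rcases eq_or_lt_of_le (pw_nonneg x P (J - 1) v m) with hz | hz
            · simp only [c, ← hz, zero_mul, le_refl]
            refine mul_le_mul_of_nonneg_left ?_ hz.le
            have hr := rf_nonneg x (J - 1 - m) v w
            rw [nrm_mul (by positivity)]
            obtain ⟨ha, hb⟩ := nrm_chg h hD (of_pw_pos x P hz).1
            have hmn : (m : ℝ) ≤ n₀ := (lag_le_cnt h (by omega) hz).trans (cnt_anti (by omega) v)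
            have hrK : rf x (J - 1 - m) v w ≤ KK P.L :=
              (rf_le_pow hJ (k := m + 1) (by push_cast; omega)).trans
                (two_pow_le_KK (by have := Finset.mem_range.1 hm; omega))
            have h3 := mul_le_mul_of_nonneg_left ha (show (0 : ℝ) ≤ 3 * m by positivity)
            have h4 := mul_le_mul_of_nonneg_left hmn (show (0 : ℝ) ≤ 450 * P.Γ by positivity)
            linarith
        _ = _ := by rw [← Finset.sum_mul, sum_pw h, one_mul]
  have h5 : nrm p (fun i => XR i + (XP i + XS i + XT i)) ≤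
      nrm p XR + (nrm p XP + nrm p XS + nrm p XT) := by
    refine (nrm_add_le _ _).trans (add_le_add le_rfl ?_)
    exact (nrm_add_le (fun i => XP i + XS i) XT).trans
      (by linarith [nrm_add_le (p := p) XP XS])
  have : (0 : ℝ) ≤ P.Γ * (n₀ + 1) := by positivity
  linarith

end Vale.Agent.P249.Full
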