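import Vale.Agent.P249.Full.Levels

/-!
The part of an envelope increment which is not multiplicative lives on the few levels of fast
growth and has small norm.
-/

namespace Vale.Agent.P249.Full

open Finset Vale.Agent.P249.Sub

set_option linter.unusedSectionVars false
set_option linter.unusedVariables false

variable {p : ℝ} [hp : Fact (1 ≤ ENNReal.ofReal p)] {V I : Type*} [Fintype V] [Fintype I]

/-- Indicator of a level of fast growth. -/
noncomputable def irr (x : V → Ell p I) (P : Prm) (l : ℤ) (v : V) : ℝ :=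
  if P.Γ / 4 < gf x l v then 1 else 0

/-- Excess of a level component. -/
noncomputable def rhoA (x : V → Ell p I) (P : Prm) (l : ℤ) (v w : V) (i : I) : ℝ :=
  max 0 (aa x P l w i - Real.exp (6 * rf x l v w) * aa x P l v i)

/-- Excess of an increment component. -/
noncomputable def rhoE (x : V → Ell p I) (P : Prm) (l : ℤ) (v w : V) (i : I) : ℝ :=
  max 0 (ee x P l w i - Real.exp (6 * rf x l v w) * ee x P l v i)

/-- Excess of a lagged component. -/
noncomputable def rhoL (x : V → Ell p I) (P : Prm) (j : ℤ) (m : ℕ) (v w : V) (i : I) : ℝ :=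
  max 0 (lag x P j w i m - lag x P j v i m)

/-- The size of one excess per unit of relative distance. -/
noncomputable def excessSize (P : Prm) : ℝ := 6000 * (P.Γ + KK P.L)

variable {x : V → Ell p I} {P : Prm} {v w : V} {J : ℤ}

lemma irr_nonneg (l : ℤ) (v : V) : 0 ≤ irr x P l v := by unfold irr; split <;> norm_num

lemma irr_le_one (l : ℤ) (v : V) : irr x P l v ≤ 1 := by unfold irr; split <;> norm_num

lemma excessSize_nonneg (h : P.Ok x) : 0 ≤ excessSize P := by
  have := h.pos
  have := KK_pos P.L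
  unfold excessSize; positivity

lemma exp_two_le : Real.exp 2 ≤ 9 := by
  rw [show (2 : ℝ) = 1 + 1 by norm_num, Real.exp_add]
  nlinarith [Real.exp_one_lt_three, Real.exp_pos 1]

lemma exp_two_sub_one {r : ℝ} (hr : 0 ≤ r) (hr1 : r ≤ 1) :
    Real.exp (2 * r) - 1 ≤ 18 * r := by
  refine (exp_sub_one_le _).trans ?_
  have := (Real.exp_le_exp.2 (by linarith : 2 * r ≤ 2)).trans exp_two_le
  nlinarith [mul_le_mul_of_nonneg_left this hr]

lemma exp_four_sub_one {r : ℝ} (hr : 0 ≤ r) (hr1 : r ≤ 1) :
    Real.exp (4 * r) - 1 ≤ 324 * r := by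
  refine (exp_sub_one_le _).trans ?_
  have h1 := (Real.exp_le_exp.2 (by linarith : 2 * r ≤ 2)).trans exp_two_le
  have h2 : Real.exp (4 * r) = Real.exp (2 * r) * Real.exp (2 * r) := by
    rw [← Real.exp_add]; ring_nf
  have h3 : Real.exp (4 * r) ≤ 81 := by
    rw [h2]; nlinarith [Real.exp_pos (2 * r)]
  nlinarith [mul_le_mul_of_nonneg_left h3 hr]

lemma nrm_QQ (x : V → Ell p I) (l : ℤ) (v : V) (k : ℤ) :
    nrm p (Qf x l v k v) ≤ tt l * Gf x l v + tt k * Gf x k v := by
  have := nrm_Qf x l v k v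
  rw [ds_self] at this
  linarith

lemma nrm_aa_le (h : P.Ok x) (l : ℤ) (v : V) :
    nrm p (aa x P l v) ≤ xi x P l v * (2 * Gf x l v) ∧ nrm p (aa x P l v) ≤ 16 * P.Γ := by
  have hξ := xi_nonneg x P l v
  have h1 : nrm p (aa x P l v) ≤ xi x P l v * (2 * Gf x l v) := by
    refine (nrm_le_mul (c := xi x P l v / tt l) (g := Qf x l v l v)
      (div_nonneg hξ (tt_pos l).le) fun i => ?_).trans ?_
    · rw [abs_of_nonneg (aa_nonneg l v i), aa]; exact le_of_eq (by ring)
    · refine (mul_le_mul_of_nonneg_left (nrm_QQ x l v l)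
        (div_nonneg hξ (tt_pos l).le)).trans_eq ?_
      have := (tt_pos l).ne'
      field_simp; ring
  refine ⟨h1, h1.trans ?_⟩
  rcases eq_or_lt_of_le hξ with hz | hz
  · rw [← hz, zero_mul]; linarith [h.pos]
  · calc xi x P l v * (2 * Gf x l v) ≤ 1 * (2 * Gf x l v) :=
          mul_le_mul_of_nonneg_right (xi_le_one x P l v) (by have := Gf_nonneg x l v; positivity)
      _ ≤ 16 * P.Γ := by linarith [Gf_le x l v, gf_lt_of_xi_pos h hz]

/-- The increase of one level component, at any scale. -/
lemma nrm_aa_incr (h : P.Ok x) (l : ℤ) (v w : V) :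
    nrm p (fun i => max 0 (aa x P l w i - aa x P l v i)) ≤
      excessSize P * rf x l v w := by
  have hr := rf_nonneg x l v w
  have hK := KK_pos P.L
  have hΓ := h.pos
  rcases le_total (rf x l v w) 1 with hr1 | hr1
  · have hpt : ∀ i, |max 0 (aa x P l w i - aa x P l v i)| ≤
        2 * rf x l v w / P.Γ / tt l * Qf x l w l w i + 324 * rf x l v w * aa x P l v i := by
      intro i
      rw [abs_of_nonneg (le_max_left _ _)]
      have hQw := Qf_nonneg x l w l w i
      have haa := aa_nonneg (x := x) (P := P) l v i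
      have hΔ := (le_abs_self _).trans (cut_lip h l v w).2.1
      refine max_le (by have := tt_pos l; positivity) ?_
      have hle := Qf_le_both x l l v w i
      rw [show 2 * rf x l v w + 2 * rf x l v w = 4 * rf x l v w by ring] at hle
      have hex := exp_four_sub_one hr hr1
      simp only [aa] at haa ⊢
      rw [← sub_div, div_mul_eq_mul_div _ (tt l), mul_div_assoc', ← add_div]
      refine div_le_div_of_nonneg_right ?_ (tt_pos l).le
      have hξ := xi_nonneg x P l v
      have hQv := Qf_nonneg x l v l v i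
      nlinarith [mul_le_mul_of_nonneg_right hΔ hQw, mul_le_mul_of_nonneg_left hle hξ,
        mul_le_mul_of_nonneg_left hex (mul_nonneg hξ hQv)]
    refine (nrm_le_add hpt).trans ?_
    rw [nrm_mul (by have := tt_pos l; positivity), nrm_mul (by positivity)]
    have h2 := (nrm_aa_le h l v).2
    have h3 : nrm p (Qf x l w l w) ≤ tt l * (4 * (KK P.L * P.Γ)) :=
      (nrm_QQ x l w l).trans (by
        have h5 := Gf_le x l w
        have h6 := gf_le_card x l w
        have h7 := log_le h
        nlinarith [tt_pos l])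
    have h4 := mul_le_mul_of_nonneg_left h3
      (show 0 ≤ 2 * rf x l v w / P.Γ / tt l by have := tt_pos l; positivity)
    have e : 2 * rf x l v w / P.Γ / tt l * (tt l * (4 * (KK P.L * P.Γ))) =
        8 * rf x l v w * KK P.L := by
      have := (tt_pos l).ne'
      field_simp; ring
    rw [e] at h4
    have h8 := mul_le_mul_of_nonneg_left h2 (show 0 ≤ 324 * rf x l v w by positivity)
    unfold excessSize
    nlinarith
  · refine (nrm_mono (g := aa x P l w) fun i => ?_).trans ((nrm_aa_le h l w).2.trans ?_)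
    · rw [abs_of_nonneg (le_max_left _ _)]
      exact max_le (aa_nonneg l w i) (by linarith [aa_nonneg (x := x) (P := P) l v i])
    · unfold excessSize; nlinarith

lemma quiet_of_irr_zero {l : ℤ} (hz : irr x P l v = 0) : gf x l v ≤ P.Γ / 4 := by
  by_contra hc
  simp [irr, lt_of_not_ge hc] at hz

lemma irr_cases (x : V → Ell p I) (P : Prm) (l : ℤ) (v : V) :
    irr x P l v = 0 ∨ irr x P l v = 1 := by unfold irr; split <;> simp

lemma gf_quiet (h : P.Ok x) {l : ℤ} (hz : irr x P l v = 0) (hr : rf x l v w ≤ 2) :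
    gf x l w ≤ P.Γ / 2 ∧ gf x l v ≤ P.Γ / 2 := by
  have := quiet_of_irr_zero hz
  have := (abs_le.1 (gf_lip x l v w)).2
  constructor <;> linarith [h.big]

lemma nrm_rhoA (h : P.Ok x) (hJ : IsLevel x v w J) {l : ℤ} (hl : J ≤ l) :
    nrm p (rhoA x P l v w) ≤ excessSize P * rf x l v w * irr x P l v := by
  have hr := rf_nonneg x l v w
  rcases irr_cases x P l v with hz | hz
  · rw [hz, mul_zero]
    refine (nrm_mono (g := fun _ => (0 : ℝ)) fun i => ?_).trans_eq nrm_zero
    obtain ⟨hw, hv⟩ := gf_quiet h hz (by linarith [rf_le_one hJ hl] : rf x l v w ≤ 2)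
    have e1 : xi x P l w = 1 := xi_eq_one h (by linarith [h.pos])
    have e2 : xi x P l v = 1 := xi_eq_one h (by linarith [h.pos])
    have hle := Qf_le_both x l l v w i
    have h6 : Real.exp (2 * rf x l v w + 2 * rf x l v w) ≤ Real.exp (6 * rf x l v w) :=
      Real.exp_le_exp.2 (by linarith)
    rw [rhoA, abs_of_nonneg (le_max_left _ _)]
    refine max_le le_rfl ?_
    rw [sub_nonpos, aa, aa, e1, e2, one_mul, one_mul, mul_div_assoc']
    exact div_le_div_of_nonneg_right
      (hle.trans (mul_le_mul_of_nonneg_right h6 (Qf_nonneg x l v l v i))) (tt_pos l).le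
  · rw [hz, mul_one]
    refine (nrm_mono (g := fun i => max 0 (aa x P l w i - aa x P l v i)) fun i => ?_).trans
      (nrm_aa_incr h l v w)
    rw [rhoA, abs_of_nonneg (le_max_left _ _)]
    refine max_le_max le_rfl (sub_le_sub_left ?_ _)
    exact le_mul_of_one_le_left (aa_nonneg l v i) (Real.one_le_exp (by positivity))

/-- Crude change of the weights in an increment component. -/
lemma abs_weight_sub (h : P.Ok x) (l : ℤ) (v w : V) {m : ℕ} (hm : m < P.L) :
    |xi x P l w * pw x P (l - 1) w m - xi x P l v * pw x P (l - 1) v m| ≤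
      2 ^ (P.L + 3) * rf x l v w / P.Γ := by
  have e : xi x P l w * pw x P (l - 1) w m - xi x P l v * pw x P (l - 1) v m =
      (xi x P l w - xi x P l v) * pw x P (l - 1) w m +
      xi x P l v * (pw x P (l - 1) w m - pw x P (l - 1) v m) := by ring
  rw [e]
  refine (abs_add_le _ _).trans ?_
  rw [abs_mul, abs_mul, abs_of_nonneg (pw_nonneg x P _ w m), abs_of_nonneg (xi_nonneg x P l v)]
  refine (add_le_add (mul_le_of_le_one_right (abs_nonneg _) (pw_le_one x P _ w m))
    (mul_le_of_le_one_left (abs_nonneg _) (xi_le_one x P l v))).trans ?_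
  refine (add_le_add (cut_lip h l v w).2.1 (abs_pw_sub h (l - 1) v w m)).trans ?_
  have hr1 := rf_sub_nat x l 1 v w
  rw [pow_one, Nat.cast_one] at hr1
  rw [hr1, ← add_div]
  refine div_le_div_of_nonneg_right ?_ h.pos.le
  have h2 : (2 : ℝ) ^ (m + 3) * 2 ≤ 2 ^ (P.L + 3) := by
    rw [← pow_succ]; exact pow_le_pow_right₀ one_le_two (by omega)
  have h3 : (1 : ℝ) ≤ 2 ^ (m + 2) := one_le_pow₀ one_le_two
  have hr := rf_nonneg x l v w
  rw [show m + 3 = (m + 2) + 1 by ring, pow_succ] at h2
  nlinarith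

lemma nrm_main_incr (h : P.Ok x) (hJ : IsLevel x v w J) {l i₁ : ℤ} (hl : J ≤ l) (hi : i₁ ≤ l)
    (hgl : gf x l v < 4 * P.Γ) (hgi : gf x i₁ v < 2 * P.Γ) :
    nrm p (fun i => (18 * rf x l v w * Qf x l v i₁ w i +
      max 0 (Qf x l v i₁ w i - Qf x l v i₁ v i)) / tt l) ≤ 400 * P.Γ * rf x l v w := by
  have hΓ := h.pos
  have hΓ16 := h.big
  have hr := rf_nonneg x l v w
  have hr1 := rf_le_one hJ hl
  have htl := tt_pos l
  have hti := tt_pos i₁
  have hil := tt_mono hi
  have hD := tt_mul_rf x l v w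
  have hDi := tt_mul_rf x i₁ v w
  have hGl : Gf x l v ≤ 8 * P.Γ := by linarith [Gf_le x l v]
  have hGi : Gf x i₁ v ≤ 4 * P.Γ := by linarith [Gf_le x i₁ v]
  have hGw : tt i₁ * Gf x i₁ w ≤ 4 * P.Γ * tt i₁ + 4 * ds x v w := by
    have := (abs_le.1 (gf_lip x i₁ v w)).2
    have h' : Gf x i₁ w ≤ 4 * P.Γ + 4 * rf x i₁ v w := by linarith [Gf_le x i₁ w]
    nlinarith [mul_le_mul_of_nonneg_left h' hti.le]
  have hD0 := ds_nonneg x v w
  have hDl : ds x v w ≤ tt l := by nlinarith
  have hQ : nrm p (Qf x l v i₁ w) ≤ 13 * P.Γ * tt l := by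
    refine (nrm_Qf x l v i₁ w).trans ?_
    nlinarith [mul_le_mul_of_nonneg_left hGl htl.le]
  have hM : nrm p (fun i => max 0 (Qf x l v i₁ w i - Qf x l v i₁ v i)) ≤
      150 * P.Γ * ds x v w := by
    rcases le_total (rf x i₁ v w) 1 with hs | hs
    · refine (nrm_le_mul (c := 18 * rf x i₁ v w) (g := Qf x i₁ v i₁ v)
        (by have := rf_nonneg x i₁ v w; positivity) fun i => ?_).trans ?_
      · rw [abs_of_nonneg (le_max_left _ _)]
        refine max_le (mul_nonneg (by have := rf_nonneg x i₁ v w; positivity)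
          (Qf_nonneg x _ v _ v i)) ((Qf_gain x l v i₁ v w i).trans ?_)
        exact mul_le_mul_of_nonneg_right (exp_two_sub_one (rf_nonneg x i₁ v w) hs)
          (Qf_nonneg x _ v _ v i)
      · refine (mul_le_mul_of_nonneg_left (nrm_QQ x i₁ v i₁)
          (by have := rf_nonneg x i₁ v w; positivity)).trans ?_
        have e : 18 * rf x i₁ v w * (tt i₁ * Gf x i₁ v + tt i₁ * Gf x i₁ v) =
            36 * ds x v w * Gf x i₁ v := by rw [← hDi]; ring
        rw [e]
        nlinarith [mul_le_mul_of_nonneg_left hGi hD0]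
    · refine (nrm_mono (g := Qf x i₁ v i₁ w) fun i => ?_).trans ((nrm_Qf x i₁ v i₁ w).trans ?_)
      · rw [abs_of_nonneg (le_max_left _ _)]
        exact max_le (Qf_nonneg x _ v _ w i) (by linarith [Qf_triangle x l v i₁ v w i])
      · have hti' : tt i₁ ≤ ds x v w := by rw [← hDi]; exact le_mul_of_one_le_right hti.le hs
        nlinarith [mul_le_mul_of_nonneg_left hGi hti.le, mul_le_mul_of_nonneg_left hti' hΓ.le]
  have e : (fun i => (18 * rf x l v w * Qf x l v i₁ w i +
      max 0 (Qf x l v i₁ w i - Qf x l v i₁ v i)) / tt l) = fun i => 18 * rf x l v w / tt l *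
        Qf x l v i₁ w i + 1 / tt l * max 0 (Qf x l v i₁ w i - Qf x l v i₁ v i) := by
    funext i; ring
  rw [e]
  refine (nrm_add_le _ _).trans ?_
  rw [nrm_mul (by positivity), nrm_mul (by positivity)]
  refine (add_le_add (mul_le_mul_of_nonneg_left hQ (by positivity))
    (mul_le_mul_of_nonneg_left hM (by positivity))).trans ?_
  rw [← hD]
  field_simp
  nlinarith [mul_nonneg hr hΓ.le]

lemma nrm_rhoE (h : P.Ok x) (hJ : IsLevel x v w J) {l : ℤ} (hl : J < l) :
    nrm p (rhoE x P l v w) ≤
      excessSize P * rf x l v w * (irr x P l v + irr x P (l - 1) v) := by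
  have hr := rf_nonneg x l v w
  have hr1 := rf_le_one hJ hl.le
  have hr2 := rf_sub_nat x l 1 v w
  rw [pow_one, Nat.cast_one] at hr2
  have hΓ := h.pos
  have hL := L_pos h
  have hP := excessSize_nonneg h
  have h01 := irr_nonneg (x := x) (P := P) (l - 1) v
  by_cases hq : irr x P l v = 0 ∧ irr x P (l - 1) v = 0
  · rw [hq.1, hq.2, add_zero, mul_zero]
    refine (nrm_mono (g := fun _ => (0 : ℝ)) fun i => ?_).trans_eq nrm_zero
    obtain ⟨hw, hv⟩ := gf_quiet h hq.1 (by linarith : rf x l v w ≤ 2)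
    obtain ⟨hw', hv'⟩ := gf_quiet h hq.2 (by linarith : rf x (l - 1) v w ≤ 2)
    have hsum : ∀ u, gf x (l - 1) u ≤ P.Γ / 2 →
        ∑ m ∈ Finset.range P.L, pw x P (l - 1) u m * Qf x l u (l - 1 - m) u i =
          Qf x l u (l - 1) u i := by
      intro u hu
      have hk : kap x P (l - 1) u = 1 := kap_eq_one h (by linarith)
      rw [Finset.sum_eq_single (0 : ℕ)]
      · rw [pw_zero, hk, one_mul, Nat.cast_zero, sub_zero]
      · intro m _ hm
        obtain ⟨k, rfl⟩ := Nat.exists_eq_succ_of_ne_zero hm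
        rw [pw_succ, hk, sub_self, zero_mul, zero_mul]
      · intro hm; exact absurd (Finset.mem_range.2 hL) hm
    rw [rhoE, abs_of_nonneg (le_max_left _ _)]
    refine max_le le_rfl ?_
    rw [sub_nonpos, ee, ee, hsum w hw', hsum v hv', xi_eq_one h (by linarith : gf x l w ≤ 3 * P.Γ),
      xi_eq_one h (by linarith : gf x l v ≤ 3 * P.Γ), one_mul, one_mul, mul_div_assoc']
    refine div_le_div_of_nonneg_right ((Qf_le_both x l (l - 1) v w i).trans ?_) (tt_pos l).le
    exact mul_le_mul_of_nonneg_right (Real.exp_le_exp.2 (by linarith)) (Qf_nonneg x l v _ v i)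
  · have hone : 1 ≤ irr x P l v + irr x P (l - 1) v := by
      rcases irr_cases x P l v with h1 | h1 <;> rcases irr_cases x P (l - 1) v with h2 | h2
      · exact absurd ⟨h1, h2⟩ hq
      all_goals linarith
    refine le_trans ?_ (le_mul_of_one_le_right (mul_nonneg hP hr) hone)
    let cz : ℝ := 2 ^ (P.L + 3) * rf x l v w / P.Γ / tt l
    let A : ℕ → I → ℝ := fun m i => cz * Qf x l w (l - 1 - m) w i
    let B : ℕ → I → ℝ := fun m i => (18 * rf x l v w * Qf x l v (l - 1 - m) w i +
      max 0 (Qf x l v (l - 1 - m) w i - Qf x l v (l - 1 - m) v i)) / tt l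
    let c : ℕ → ℝ := fun m => xi x P l v * pw x P (l - 1) v m
    have hcz : 0 ≤ cz := by have := tt_pos l; positivity
    have hc : ∀ m, 0 ≤ c m := fun m => mul_nonneg (xi_nonneg x P l v) (pw_nonneg x P _ v m)
    have hpt : ∀ i, |rhoE x P l v w i| ≤ ∑ m ∈ Finset.range P.L, (A m i + c m * B m i) := by
      intro i
      rw [rhoE, abs_of_nonneg (le_max_left _ _)]
      refine max_le (Finset.sum_nonneg fun m _ => add_nonneg
        (mul_nonneg hcz (Qf_nonneg x l w _ w i)) (mul_nonneg (hc m) (div_nonneg (add_nonneg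
          (mul_nonneg (by positivity) (Qf_nonneg x l v _ w i)) (le_max_left _ _))
            (tt_pos l).le))) ?_
      have hee := le_mul_of_one_le_left (ee_nonneg (x := x) (P := P) l v i)
        (Real.one_le_exp (show 0 ≤ 6 * rf x l v w by positivity))
      refine (sub_le_sub_left hee _).trans ?_
      rw [ee, ee, ← sub_div, Finset.mul_sum, Finset.mul_sum, ← Finset.sum_sub_distrib,
        Finset.sum_div]
      refine Finset.sum_le_sum fun m hm => ?_
      have hQw := Qf_nonneg x l w (l - 1 - m) w i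
      have hQ1 := Qf_le_left x l v w (l - 1 - m) w i
      have hQ2 := exp_two_sub_one hr hr1
      have hQ3 := le_max_right (0 : ℝ) (Qf x l v (l - 1 - m) w i - Qf x l v (l - 1 - m) v i)
      have hQ4 := Qf_nonneg x l v (l - 1 - m) w i
      have hdiff := (le_abs_self _).trans (abs_weight_sub h l v w (Finset.mem_range.1 hm))
      simp only [A, B, c, cz]
      rw [div_mul_eq_mul_div, mul_div_assoc', ← add_div]
      refine div_le_div_of_nonneg_right ?_ (tt_pos l).le
      have h1 : Qf x l w (l - 1 - m) w i - Qf x l v (l - 1 - m) v i ≤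
          18 * rf x l v w * Qf x l v (l - 1 - m) w i +
            max 0 (Qf x l v (l - 1 - m) w i - Qf x l v (l - 1 - m) v i) := by
        nlinarith [mul_le_mul_of_nonneg_right hQ2 hQ4]
      have hm1 := mul_le_mul_of_nonneg_right hdiff hQw
      have hm2 := mul_le_mul_of_nonneg_left h1 (hc m)
      simp only [c] at hm2
      linarith
    refine (nrm_le_sum hpt).trans ?_
    have hA : ∀ m ∈ Finset.range P.L, nrm p (A m) ≤
        2 ^ (2 * P.L + 5) * rf x l v w := by
      intro m _
      have h5 : nrm p (Qf x l w (l - 1 - m) w) ≤ tt l * (4 * ((2 : ℝ) ^ P.L * P.Γ)) := by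
        refine (nrm_QQ x l w _).trans ?_
        have hlog : Real.log (Fintype.card V) ≤ 2 ^ P.L * P.Γ :=
          h.lag_bound.le.trans (mul_le_mul_of_nonneg_right (natCast_le_two_pow _) hΓ.le)
        have h7 : Gf x l w ≤ 2 * (2 ^ P.L * P.Γ) := by linarith [Gf_le x l w, gf_le_card x l w]
        have h8 : Gf x (l - 1 - m) w ≤ 2 * (2 ^ P.L * P.Γ) := by
          linarith [Gf_le x (l - 1 - m) w, gf_le_card x (l - 1 - m) w]
        have h9 := mul_le_mul (tt_mono (show l - 1 - (m : ℤ) ≤ l by omega)) h8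
          (Gf_nonneg x _ w) (tt_pos l).le
        nlinarith [mul_le_mul_of_nonneg_left h7 (tt_pos l).le]
      simp only [A]
      rw [nrm_mul hcz]
      refine (mul_le_mul_of_nonneg_left h5 hcz).trans_eq ?_
      simp only [cz]
      have := (tt_pos l).ne'
      rw [show 2 * P.L + 5 = (P.L + 3) + P.L + 2 by ring, pow_add _ (P.L + 3 + P.L), pow_add]
      field_simp
      ring
    have hB : ∀ m ∈ Finset.range P.L,
        nrm p (fun i => c m * B m i) ≤ c m * (400 * P.Γ * rf x l v w) := by
      intro m _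
      rw [nrm_mul (hc m)]
      rcases eq_or_lt_of_le (hc m) with hz | hz
      · rw [← hz, zero_mul, zero_mul]
      · have hξ : 0 < xi x P l v := pos_of_mul_pos_left hz (pw_nonneg x P _ v m)
        have hπ : 0 < pw x P (l - 1) v m := pos_of_mul_pos_right hz (xi_nonneg x P l v)
        exact mul_le_mul_of_nonneg_left (nrm_main_incr h hJ hl.le (by omega)
          (gf_lt_of_xi_pos h hξ) (gf_lt_of_kap_pos h (of_pw_pos x P hπ).1)) (hc m)
    refine (Finset.sum_le_sum fun m hm => (nrm_add_le _ _).trans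
      (add_le_add (hA m hm) (hB m hm))).trans ?_
    rw [Finset.sum_add_distrib, Finset.sum_const, Finset.card_range, nsmul_eq_mul,
      ← Finset.sum_mul]
    have hcs : ∑ m ∈ Finset.range P.L, c m ≤ 1 := by
      simp only [c]
      rw [← Finset.mul_sum, sum_pw h, mul_one]
      exact xi_le_one x P l v
    have hK : (P.L : ℝ) * 2 ^ (2 * P.L + 5) ≤ KK P.L := by
      refine (mul_le_mul_of_nonneg_right (natCast_le_two_pow _) (by positivity)).trans ?_
      rw [← pow_add]; exact two_pow_le_KK (by omega)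
    unfold excessSize
    nlinarith [mul_le_mul_of_nonneg_right hK hr,
      mul_le_mul_of_nonneg_right hcs (show 0 ≤ 400 * P.Γ * rf x l v w by positivity),
      mul_nonneg (KK_pos P.L).le hr, mul_nonneg hΓ.le hr]

lemma nrm_rhoL (h : P.Ok x) (hJ : IsLevel x v w J) {j : ℤ} (hj : J ≤ j) (m : ℕ) :
    nrm p (rhoL x P j m v w) ≤
      2 * excessSize P * rf x j v w * (1 / 2) ^ (m + 1) * irr x P j v := by
  have hr := rf_nonneg x j v w
  have hΓ := h.pos
  have hP := excessSize_nonneg h
  rcases irr_cases x P j v with hz | hz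
  · rw [hz, mul_zero]
    refine (nrm_mono (g := fun _ => (0 : ℝ)) fun i => ?_).trans_eq nrm_zero
    obtain ⟨hw, hv⟩ := gf_quiet h hz (by linarith [rf_le_one hJ hj] : rf x j v w ≤ 2)
    have hν : nu x P j w = 0 := cl_eq_zero (by rw [sub_nonpos, div_le_one hΓ]; linarith)
    have hq : qq x P j w (m + 1) = 0 := by
      rw [qq, Finset.prod_eq_zero (Finset.mem_range.2 (Nat.succ_pos m))
        (by rw [Nat.cast_zero, sub_zero]; exact hν), mul_zero]
    rw [rhoL, abs_of_nonneg (le_max_left _ _)]
    refine max_le le_rfl ?_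
    simp only [lag, hq, zero_mul, zero_sub, neg_nonpos]
    exact mul_nonneg (qq_nonneg j v _) (aa_nonneg _ v i)
  · rw [hz, mul_one]
    set k := m + 1
    refine (nrm_le_add (a := fun i => 4 * (1 / 2) ^ k * rf x j v w / P.Γ * aa x P (j - k) w i)
      (b := fun i => qq x P j v k * max 0 (aa x P (j - k) w i - aa x P (j - k) v i))
      fun i => ?_).trans ?_
    · rw [rhoL, abs_of_nonneg (le_max_left _ _)]
      have ha := aa_nonneg (x := x) (P := P) (j - k) w i
      have hq := qq_nonneg (x := x) (P := P) j v k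
      refine max_le (by positivity) ?_
      simp only [lag]
      have h1 := mul_le_mul_of_nonneg_right
        ((le_abs_self _).trans (abs_qq_sub h j v w k)) ha
      have h2 := mul_le_mul_of_nonneg_left
        (le_max_right (0 : ℝ) (aa x P (j - k) w i - aa x P (j - k) v i)) hq
      linarith
    · rw [nrm_mul (by positivity), nrm_mul (qq_nonneg j v k)]
      have h1 := mul_le_mul_of_nonneg_left (nrm_aa_le h (j - k) w).2
        (show 0 ≤ 4 * (1 / 2 : ℝ) ^ k * rf x j v w / P.Γ by positivity)
      have h2 := mul_le_mul (qq_le (x := x) (P := P) j v k) (nrm_aa_incr h (j - k) v w)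
        (nrm_nonneg _) (by positivity)
      have e1 : 4 * (1 / 2 : ℝ) ^ k * rf x j v w / P.Γ * (16 * P.Γ) =
          64 * (1 / 2 : ℝ) ^ k * rf x j v w := by
        field_simp; ring
      have e2 : (1 / 4 : ℝ) ^ k * (excessSize P * rf x (j - k) v w) =
          excessSize P * rf x j v w * (1 / 2) ^ k := by
        rw [rf_sub_nat, show (1 / 2 : ℝ) ^ k = (1 / 4) ^ k * 2 ^ k by rw [← mul_pow]; norm_num]
        ring
      rw [e1] at h1
      rw [e2] at h2
      have h64 : 64 ≤ excessSize P := by
        unfold excessSize; linarith [one_le_KK P.L]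
      have h3 := mul_le_mul_of_nonneg_right h64
        (show 0 ≤ (1 / 2 : ℝ) ^ k * rf x j v w by positivity)
      linarith

end Vale.Agent.P249.Full
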