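import Vale.Agent.P249.Full.CoordBound
import Vale.Agent.P249.Full.Compress

/-!
A family of variants gives a near isometry into few coordinates.
-/

namespace Vale.Agent.P249.Full

open Finset Vale.Agent.P249.Sub

set_option linter.unusedSectionVars false
set_option linter.unusedVariables false

/-- The maximal lag of a variant. -/
noncomputable def lagNum (γ : ℝ) (k : ℕ) : ℕ := ⌈2 * 2 ^ k / γ⌉₊ + 1

/-- The lag constant of a whole family. -/
noncomputable def famK (γ : ℝ) (Kv : ℕ) : ℝ := KK (lagNum γ Kv)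

/-- The relative error of a family, at band width `wd`. -/
noncomputable def famErr (p γ : ℝ) (Kv : ℕ) (N wd : ℝ) : ℝ :=
  pairC p / wd * (1 + 401 * γ ^ (1 - p⁻¹) * N + 10 * famK γ Kv ^ 3 +
    16 * N * ((1 : ℝ) / Kv) ^ p⁻¹)

/-- The slope parameter of a family. -/
noncomputable def famA (p γ : ℝ) (Kv : ℕ) (N wd : ℝ) : ℝ :=
  2 * (10000 * (6 * Real.exp (6 * p) + 4) * famK γ Kv ^ 5 * (N + 1) ^ 3) * Real.exp (4 * wd)

/-- The support parameter of a family. -/
noncomputable def famW (p γ : ℝ) (Kv : ℕ) (N : ℝ) : ℝ :=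
  2 * Kv * (1 + 400 * N + famK γ Kv) ^ p

lemma lagNum_mono {γ : ℝ} (hγ : 0 < γ) {k K : ℕ} (h : k ≤ K) : lagNum γ k ≤ lagNum γ K := by
  unfold lagNum
  refine Nat.add_le_add_right (Nat.ceil_mono ?_) 1
  gcongr
  norm_num

lemma KK_mono {L M : ℕ} (h : L ≤ M) : KK L ≤ KK M := by
  refine Real.exp_le_exp.2 (pow_le_pow_right₀ one_le_two ?_)
  omega

lemma sum_dyadic_gate (K : ℕ) {a c : ℝ} (ha : 0 ≤ a) (hc : 0 ≤ c) :
    ∑ k ∈ Finset.range K, (if a / 2 ^ k < c then a / 2 ^ k else 0) ≤ 2 * c := by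
  induction K generalizing a with
  | zero => simp; linarith
  | succ K ih =>
    rw [Finset.sum_range_succ']
    simp only [pow_zero, div_one]
    have e : ∀ k : ℕ, a / 2 ^ (k + 1) = a / 2 / 2 ^ k := fun k => by
      rw [pow_succ']; field_simp
    simp only [e]
    have h1 := ih (a := a / 2) (by linarith)
    by_cases hac : a < c
    · rw [if_pos hac]
      have h2 : ∑ k ∈ Finset.range K, (if a / 2 / 2 ^ k < c then a / 2 / 2 ^ k else 0) ≤ a := by
        calc _ ≤ ∑ k ∈ Finset.range K, a / 2 * (1 / 2) ^ k := by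
              refine Finset.sum_le_sum fun k _ => ?_
              have : 0 ≤ a / 2 / 2 ^ k := by positivity
              have e2 : a / 2 * (1 / 2) ^ k = a / 2 / 2 ^ k := by
                rw [div_pow, one_pow]; ring
              rw [e2]; split <;> linarith
          _ ≤ a / 2 * 2 := by
              rw [← Finset.mul_sum]
              exact mul_le_mul_of_nonneg_left (sum_geometric_two_le K) (by linarith)
          _ = a := by ring
      linarith
    · rw [if_neg hac]; linarith

lemma sum_exp_le {a : ℝ} (ha : 1 ≤ a) (S : Finset ℤ) {R : ℝ} (hR : 0 ≤ R)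
    (h : ∀ k ∈ S, Real.exp (a * k) ≤ R) : ∑ k ∈ S, Real.exp (a * k) ≤ 2 * R := by
  rcases S.eq_empty_or_nonempty with rfl | hne
  · simp; linarith
  set M := S.max' hne
  have hpt : ∀ k ∈ S, Real.exp (a * k) ≤ Real.exp (a * M) / tt M * tt k := by
    intro k hk
    obtain ⟨d, hd⟩ : ∃ d : ℕ, k = M - d :=
      ⟨(M - k).toNat, by have := S.le_max' k hk; omega⟩
    subst hd
    rw [tt_sub_nat]
    have hM := (tt_pos M).ne'
    rw [div_mul_div_comm, mul_comm (tt M), ← div_mul_div_comm, div_self hM, mul_one,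
      le_div_iff₀ (by positivity)]
    have h2 : (2 : ℝ) ^ d ≤ Real.exp (a * d) := by
      rw [mul_comm, Real.exp_nat_mul]
      refine pow_le_pow_left₀ two_pos.le ?_ d
      linarith [Real.add_one_le_exp a]
    refine (mul_le_mul_of_nonneg_left h2 (Real.exp_pos _).le).trans_eq ?_
    rw [← Real.exp_add]; push_cast; ring_nf
  refine (Finset.sum_le_sum hpt).trans ?_
  rw [← Finset.mul_sum]
  have hsub : ∑ k ∈ S, tt k ≤ 2 * tt M :=
    (Finset.sum_le_sum_of_subset_of_nonneg (t := Finset.Icc (S.min' hne) M)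
      (fun k hk => Finset.mem_Icc.2 ⟨S.min'_le k hk, S.le_max' k hk⟩)
      fun k _ _ => (tt_pos k).le).trans (sum_tt_le _ _)
  refine (mul_le_mul_of_nonneg_left hsub (by have := tt_pos M; positivity)).trans ?_
  have e : Real.exp (a * M) / tt M * (2 * tt M) = 2 * Real.exp (a * M) := by
    have := (tt_pos M).ne'
    field_simp
  rw [e]
  exact mul_le_mul_of_nonneg_left (h M (S.max'_mem hne)) two_pos.le

variable {p : ℝ} [hp : Fact (1 ≤ ENNReal.ofReal p)] {V I : Type*} [Fintype V] [Fintype I]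

lemma envSize_le (hp1 : 1 ≤ p) {N γ Γ : ℝ} (hN : 0 ≤ N) (hγ : 0 ≤ γ) (hΓ0 : 0 ≤ Γ)
    (hΓ : Γ ≤ γ * N) : envSize p N Γ ≤ 1 + 400 * γ ^ (1 - p⁻¹) * N := by
  have hp0 : 0 < p := by linarith
  have hq : 0 ≤ p⁻¹ := by positivity
  have hq1 : p⁻¹ ≤ 1 := inv_le_one_of_one_le₀ hp1
  refine (Real.rpow_add_le_add_rpow zero_le_one (by positivity) hq hq1).trans ?_
  rw [Real.one_rpow]
  refine add_le_add le_rfl ?_
  have h1 : 24 * N * (16 * Γ) ^ (p - 1) ≤ (384 * γ ^ (1 - p⁻¹) * N) ^ p := by
    rcases eq_or_lt_of_le hN with rfl | hN'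
    · simp [Real.zero_rpow hp0.ne']
    rw [Real.mul_rpow (by positivity) hN, Real.mul_rpow (by norm_num) (Real.rpow_nonneg hγ _),
      ← Real.rpow_mul hγ, sub_mul, one_mul, inv_mul_cancel₀ hp0.ne']
    calc 24 * N * (16 * Γ) ^ (p - 1) ≤ 24 * N * (16 * (γ * N)) ^ (p - 1) := by gcongr
      _ = 24 * 16 ^ (p - 1) * γ ^ (p - 1) * N ^ p := by
          rw [Real.mul_rpow (by norm_num) (by positivity), Real.mul_rpow hγ hN,
            Real.rpow_sub_one hN'.ne' p]
          field_simp
      _ ≤ 384 ^ p * γ ^ (p - 1) * N ^ p := by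
          gcongr
          have e : (384 : ℝ) ^ p = 24 ^ p * 16 ^ p := by
            rw [← Real.mul_rpow (by norm_num) (by norm_num)]; norm_num
          rw [e]
          exact mul_le_mul (Real.self_le_rpow_of_one_le (by norm_num) hp1)
            (Real.rpow_le_rpow_of_exponent_le (by norm_num) (by linarith)) (by positivity)
            (by positivity)
  refine (Real.rpow_le_rpow (by positivity) h1 hq).trans ?_
  rw [Real.rpow_rpow_inv (by positivity) hp0.ne']
  have : 0 ≤ γ ^ (1 - p⁻¹) * N := by positivity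
  linarith

set_option maxHeartbeats 1000000 in
/-- The near isometry into few coordinates. -/
theorem exists_family_map (x : V → Ell p I) (hinj : Function.Injective x)
    (hn : 2 ≤ Fintype.card V) {γ : ℝ} (hγ : 0 < γ) (hγ1 : γ ≤ 1) {Kv : ℕ} (hKv : 1 ≤ Kv)
    {η : ℝ} (hη : 0 < η) (hη1 : η ≤ 1 / 10) {M : ℕ} (hM : 1 / η ≤ M) {wd : ℝ} (hwd : 1 ≤ wd)
    (hΓbig : 16 ≤ γ / 2 ^ Kv * Real.log (Fintype.card V))
    (herr : famErr p γ Kv (Real.log (Fintype.card V)) wd ≤ η / 2) :
    ∃ (d : ℕ) (H : V → Ell p (Fin d)),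
      (d : ℝ) ≤ compDim p η (famA p γ Kv (Real.log (Fintype.card V)) wd)
        (famW p γ Kv (Real.log (Fintype.card V))) (Fintype.card V) M ∧
      ∀ v w, (1 - 7 * η) * ‖x v - x w‖ ≤ ‖H v - H w‖ ∧
        ‖H v - H w‖ ≤ (1 + 7 * η) * ‖x v - x w‖ := by
  classical
  have hp1 : 1 ≤ p := one_le_p
  have hp0 : 0 < p := by linarith
  set n := Fintype.card V with hn_def
  set N := Real.log (n : ℝ) with hN
  have hN0 : 0 < N := Real.log_pos (by exact_mod_cast (show 1 < n by omega))
  have hwd0 : 0 < wd := by linarith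
  obtain ⟨v₀, w₀, hvw₀⟩ := Fintype.one_lt_card_iff.1 (show 1 < Fintype.card V by omega)
  set Pr := (Finset.univ : Finset (V × V)).filter fun e => e.1 ≠ e.2 with hPr
  have hne : Pr.Nonempty := ⟨(v₀, w₀), by simp [Pr, hvw₀]⟩
  obtain ⟨emin, hmin_mem, hmin⟩ := Pr.exists_min_image (fun e => ds x e.1 e.2) hne
  obtain ⟨emax, -, hmax⟩ := (Finset.univ : Finset (V × V)).exists_max_image
    (fun e => ds x e.1 e.2) ⟨(v₀, w₀), Finset.mem_univ _⟩
  set dmin := ds x emin.1 emin.2
  set Dm := ds x emax.1 emax.2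
  have hpos : ∀ v w, v ≠ w → 0 < ds x v w := fun v w hvw =>
    norm_pos_iff.2 (sub_ne_zero.2 fun h => hvw (hinj h))
  have hdmin0 : 0 < dmin := hpos _ _ (Finset.mem_filter.1 hmin_mem).2
  have hdmin : ∀ v w, v ≠ w → dmin ≤ ds x v w := fun v w hvw =>
    hmin (v, w) (by simp [Pr, hvw])
  have hDm : ∀ v w, ds x v w ≤ Dm := fun v w => hmax (v, w) (Finset.mem_univ _)
  have hDm0 : 0 < Dm := lt_of_lt_of_le (hpos v₀ w₀ hvw₀) (hDm _ _)
  obtain ⟨b, hb, -⟩ := exists_mem_Ico_zpow (x := min (η / 32 * (dmin / N)) (dmin / 2))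
    (y := (2 : ℝ)) (by positivity) one_lt_two
  have hb1 : tt b ≤ η / 32 * (dmin / N) := hb.trans (min_le_left _ _)
  have hb2 : tt b ≤ dmin / 2 := hb.trans (min_le_right _ _)
  obtain ⟨T₀, -, hT⟩ := exists_mem_Ico_zpow (x := 576 * Dm / η) (y := (2 : ℝ))
    (by positivity) one_lt_two
  set T := T₀ + 1
  have hT' : 576 * Dm / η ≤ tt T := hT.le
  have hDmT : Dm ≤ tt T := by
    refine le_trans ?_ hT'
    rw [le_div_iff₀ hη]; nlinarith
  set κ₀ : ℝ := ((1 : ℝ) / (Fintype.card I + 1)) ^ p⁻¹
  let P : ℕ → Prm := fun k => ⟨γ / 2 ^ k * N, lagNum γ k, κ₀, T⟩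
  have hPΓ : ∀ k < Kv, 16 ≤ γ / 2 ^ k * N := by
    intro k hk
    refine hΓbig.trans (mul_le_mul_of_nonneg_right ?_ hN0.le)
    exact div_le_div_of_nonneg_left hγ.le (by positivity) (pow_le_pow_right₀ one_le_two hk.le)
  have hok : ∀ k < Kv, (P k).Ok x := by
    intro k hk
    refine ⟨hPΓ k hk, ?_, Real.rpow_pos_of_pos (by positivity) _⟩
    have h1 : 2 * 2 ^ k / γ ≤ ((lagNum γ k : ℕ) : ℝ) := by
      unfold lagNum; push_cast
      linarith [Nat.le_ceil (2 * 2 ^ k / γ)]
    have h2 : 2 * N ≤ ((lagNum γ k : ℕ) : ℝ) * (γ / 2 ^ k * N) := by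
      calc 2 * N = 2 * 2 ^ k / γ * (γ / 2 ^ k * N) := by field_simp
        _ ≤ _ := mul_le_mul_of_nonneg_right h1 (by positivity)
    show N < ((lagNum γ k : ℕ) : ℝ) * (γ / 2 ^ k * N)
    linarith
  have hfl : ∀ k, Fintype.card I * (P k).floor ^ p ≤ 1 := by
    intro k
    simp only [P, κ₀]
    rw [Real.rpow_inv_rpow (by positivity) hp0.ne', mul_one_div, div_le_one (by positivity)]
    linarith
  have hΓle : ∀ k, (P k).Γ ≤ γ * N := fun k =>
    mul_le_mul_of_nonneg_right (div_le_self hγ.le (one_le_pow₀ one_le_two)) hN0.le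
  have hΓN : ∀ k, (P k).Γ ≤ N := fun k =>
    (hΓle k).trans (mul_le_of_le_one_left hN0.le hγ1)
  have hKK : ∀ k < Kv, KK (P k).L ≤ famK γ Kv := fun k hk => KK_mono (lagNum_mono hγ hk.le)
  set K := famK γ Kv with hKdef
  have hK1 : 1 ≤ K := one_le_KK _
  set Ks : Finset ℤ := (Finset.range Kv).biUnion fun k => Finset.univ.biUnion fun v : V =>
    Finset.univ.biUnion fun i : I => win wd (lam x (P k) b v i)
  have hlevel : ∀ v w, v ≠ w → ∃ J, IsLevel x v w J ∧ b ≤ J - 1 ∧ J ≤ T := by
    intro v w hvw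
    obtain ⟨m, hm1, hm2⟩ := exists_mem_Ico_zpow (x := ds x v w) (y := (2 : ℝ)) (hpos v w hvw)
      one_lt_two
    have hlev : IsLevel x v w (m + 1) :=
      ⟨hm2.le, by rw [tt_add_one]; exact mul_le_mul_of_nonneg_left hm1 two_pos.le⟩
    refine ⟨m + 1, hlev, ?_, ?_⟩
    · by_contra hc
      have h1 := tt_mono (show m + 1 ≤ b by omega)
      linarith [hdmin v w hvw, hlev.le, tt_pos b]
    · by_contra hc
      have h1 := tt_mono (show T ≤ m by omega)
      have h2 : 576 * Dm / η ≤ Dm := hT'.trans (h1.trans (hm1.trans (hDm v w)))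
      rw [div_le_iff₀ hη] at h2
      nlinarith
  set c : ℝ := ((1 : ℝ) / Kv) ^ p⁻¹ with hc
  have hc0 : 0 ≤ c := Real.rpow_nonneg (by positivity) _
  have hcp : c ^ p = 1 / (Kv : ℝ) := Real.rpow_inv_rpow (by positivity) hp0.ne'
  let u : V → Fin Kv × {k // k ∈ Ks} × I → ℝ := fun v f =>
    c * feat x (P f.1) b wd f.2.1 v f.2.2
  let U : Fin Kv → V → V → ℝ := fun k v w =>
    (∑ q ∈ Ks, ∑ i, |feat x (P k) b wd q w i - feat x (P k) b wd q v i| ^ p) ^ p⁻¹
  have hU0 : ∀ k v w, 0 ≤ U k v w := fun k v w => Real.rpow_nonneg (Finset.sum_nonneg fun q _ =>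
    Finset.sum_nonneg fun i _ => Real.rpow_nonneg (abs_nonneg _) _) _
  have hX : ∀ v w, ∑ f, |u w f - u v f| ^ p = nrm p (fun k => c * U k v w) ^ p := by
    intro v w
    rw [nrm_rpow, Fintype.sum_prod_type]
    refine Finset.sum_congr rfl fun k _ => ?_
    rw [abs_of_nonneg (mul_nonneg hc0 (hU0 k v w)), Real.mul_rpow hc0 (hU0 k v w),
      Real.rpow_inv_rpow (Finset.sum_nonneg fun q _ => Finset.sum_nonneg fun i _ =>
        Real.rpow_nonneg (abs_nonneg _) _) hp0.ne', Finset.mul_sum, Fintype.sum_prod_type,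
      ← Finset.sum_coe_sort Ks]
    refine Finset.sum_congr rfl fun q _ => ?_
    rw [Finset.mul_sum]
    refine Finset.sum_congr rfl fun i _ => ?_
    simp only [u]
    rw [← mul_sub, abs_mul, abs_of_nonneg hc0, Real.mul_rpow hc0 (abs_nonneg _)]
  set A₀ := pairC p / wd * (1 + 401 * γ ^ (1 - p⁻¹) * N + 10 * K ^ 3) + η / 2 with hA₀
  have hpc : 0 ≤ pairC p / wd := by
    have : 0 ≤ gainC p := by unfold gainC; positivity
    unfold pairC mainC; positivity
  let Z : V → V → Fin Kv → ℝ := fun v w k =>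
    (P k).Γ * (cnt x (P k) (b - (P k).L) v + cnt x (P k) (b - (P k).L) w)
  have hpair : ∀ v w, v ≠ w → ∀ k : Fin Kv,
      |U k v w - ds x v w| ≤ ds x v w * (A₀ + pairC p / wd * Z v w k) := by
    intro v w hvw k
    obtain ⟨J, hJ, hbJ, hJT⟩ := hlevel v w hvw
    have hD := hpos v w hvw
    have hKs : ∀ i, win wd (Lam x (P k) b J v w i b) ⊆ Ks := by
      intro i
      rw [Lam, if_pos (show b < J by omega)]
      rcases max_choice (lam x (P k) b v i) (lam x (P k) b w i) with he | he <;> rw [he]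
      · exact fun q hq => Finset.mem_biUnion.2 ⟨k, Finset.mem_range.2 k.2, Finset.mem_biUnion.2
          ⟨v, Finset.mem_univ v, Finset.mem_biUnion.2 ⟨i, Finset.mem_univ i, hq⟩⟩⟩
      · exact fun q hq => Finset.mem_biUnion.2 ⟨k, Finset.mem_range.2 k.2, Finset.mem_biUnion.2
          ⟨w, Finset.mem_univ w, Finset.mem_biUnion.2 ⟨i, Finset.mem_univ i, hq⟩⟩⟩
    refine (feat_pair (hok k k.2) hwd0 hD hJ hbJ hJT (hfl k) (hΓN k) hDm hDmT Ks hKs).trans ?_
    rw [← hn_def, ← hN]
    have hE := envSize_le hp1 hN0.le hγ.le (hok k k.2).pos.le (hΓle k)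
    have hγq : γ ≤ γ ^ (1 - p⁻¹) :=
      Real.self_le_rpow_of_le_one hγ.le hγ1 (sub_le_self _ (by positivity))
    have hk3 : KK (P k).L ^ 3 ≤ K ^ 3 := pow_le_pow_left₀ (KK_pos _).le (hKK k k.2) 3
    have hbot : 8 * tt b * N ≤ η / 4 * ds x v w := by
      have := mul_le_mul_of_nonneg_right hb1 hN0.le
      rw [mul_assoc, div_mul_cancel₀ _ hN0.ne'] at this
      have := mul_le_mul_of_nonneg_left (hdmin v w hvw) (show 0 ≤ η / 4 by linarith)
      linarith
    have htop : 144 * (Dm / tt T) ≤ η / 4 := by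
      rw [div_le_iff₀ hη] at hT'
      rw [mul_div_assoc', div_le_iff₀ (tt_pos T)]
      nlinarith
    have hmain : envSize p N (P k).Γ + (P k).Γ * (cnt x (P k) (b - (P k).L) v +
        cnt x (P k) (b - (P k).L) w + 1) + 10 * KK (P k).L ^ 3 ≤
        (1 + 401 * γ ^ (1 - p⁻¹) * N + 10 * K ^ 3) + Z v w k := by
      have := mul_le_mul_of_nonneg_right hγq hN0.le
      simp only [Z]
      linarith [hΓle k]
    have h1 := mul_le_mul_of_nonneg_left hmain hpc
    have h2 := mul_le_mul_of_nonneg_left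
      (add_le_add h1 htop) hD.le
    show _ * (_ + 144 * (Dm / tt T)) + _ ≤ _
    rw [hA₀]
    linarith
  have hZsum : ∀ v w, ∑ k, Z v w k ≤ 16 * N := by
    intro v w
    have key : ∀ y, ∑ k ∈ Finset.range Kv, (P k).Γ * cnt x (P k) (b - (P k).L) y ≤ 8 * N := by
      intro y
      set W0 := Finset.Icc (b - (lagNum γ Kv : ℤ)) T
      calc ∑ k ∈ Finset.range Kv, (P k).Γ * cnt x (P k) (b - (P k).L) y
          ≤ ∑ k ∈ Finset.range Kv, ∑ l ∈ W0,
              (if γ * N / 2 ^ k < 4 * gf x l y then γ * N / 2 ^ k else 0) := by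
            refine Finset.sum_le_sum fun k hk => ?_
            have hk' := Finset.mem_range.1 hk
            rw [cnt, Finset.mul_sum]
            refine (Finset.sum_le_sum_of_subset_of_nonneg (t := W0) ?_ fun l _ _ =>
              mul_nonneg (hok k hk').pos.le (irr_nonneg l y)).trans (Finset.sum_le_sum fun l _ => ?_)
            · refine Finset.Icc_subset_Icc ?_ le_rfl
              have := lagNum_mono hγ hk'.le
              simp only [P]; omega
            · have e : (P k).Γ = γ * N / 2 ^ k := by simp only [P]; ring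
              unfold irr
              rw [e]
              by_cases hlt : γ * N / 2 ^ k / 4 < gf x l y
              · rw [if_pos hlt, if_pos (by linarith), mul_one]
              · rw [if_neg hlt, mul_zero]
                split
                · positivity
                · exact le_rfl
        _ ≤ ∑ l ∈ W0, 2 * (4 * gf x l y) := by
            rw [Finset.sum_comm]
            exact Finset.sum_le_sum fun l _ => sum_dyadic_gate Kv (by positivity)
              (by have := gf_nonneg x l y; positivity)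
        _ ≤ _ := by
            rw [← Finset.mul_sum, ← Finset.mul_sum]
            linarith [sum_gf_le x W0 y]
    simp only [Z, mul_add, Finset.sum_add_distrib]
    rw [Fin.sum_univ_eq_sum_range (fun k => (P k).Γ * cnt x (P k) (b - (P k).L) v) Kv,
      Fin.sum_univ_eq_sum_range (fun k => (P k).Γ * cnt x (P k) (b - (P k).L) w) Kv]
    linarith [key v, key w]
  have hiso : ∀ v w, |nrm p (fun k => c * U k v w) - ds x v w| ≤ η * ds x v w := by
    intro v w
    rcases eq_or_ne v w with rfl | hvw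
    · have : ∀ k : Fin Kv, U k v v = 0 := fun k => by
        simp [U, Real.zero_rpow hp0.ne', Real.zero_rpow (inv_ne_zero hp0.ne')]
      simp [this, ds_self, nrm_zero]
    have hD := hpos v w hvw
    set D := ds x v w
    have hconst : nrm p (fun _ : Fin Kv => c * D) = D := by
      rw [nrm_eq, abs_of_nonneg (mul_nonneg hc0 hD.le), Finset.sum_const, Finset.card_univ,
        Fintype.card_fin, nsmul_eq_mul, Real.mul_rpow hc0 hD.le, hcp, ← mul_assoc,
        mul_one_div_cancel (by positivity), one_mul, Real.rpow_rpow_inv hD.le hp0.ne']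
    have h1 : |nrm p (fun k => c * U k v w) - nrm p (fun _ : Fin Kv => c * D)| ≤
        nrm p (fun k => c * U k v w - c * D) :=
      abs_norm_sub_norm_le (WithLp.toLp _ (fun k => c * U k v w) : Ell p (Fin Kv))
        (WithLp.toLp _ fun _ => c * D)
    rw [hconst] at h1
    refine h1.trans ?_
    have hA0 : 0 ≤ A₀ := by
      have : 0 ≤ γ ^ (1 - p⁻¹) := Real.rpow_nonneg hγ.le _
      positivity
    refine (nrm_le_add (a := fun _ => D * A₀ * c)
      (b := fun k => D * (pairC p / wd) * c * Z v w k) fun k => ?_).trans ?_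
    · rw [← mul_sub, abs_mul, abs_of_nonneg hc0]
      refine (mul_le_mul_of_nonneg_left (hpair v w hvw k) hc0).trans_eq ?_
      ring
    · have hZ0 : ∀ k, 0 ≤ Z v w k := fun k => mul_nonneg (hok k k.2).pos.le
        (add_nonneg (cnt_nonneg _ v) (cnt_nonneg _ w))
      have ha : nrm p (fun _ : Fin Kv => D * A₀ * c) = A₀ * D := by
        rw [show (fun _ : Fin Kv => D * A₀ * c) = fun _ => A₀ * (c * D) by funext; ring,
          nrm_mul hA0, hconst]
      have hb : nrm p (fun k => D * (pairC p / wd) * c * Z v w k) ≤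
          D * (pairC p / wd) * c * (16 * N) := by
        rw [nrm_mul (by positivity)]
        refine mul_le_mul_of_nonneg_left ?_ (by positivity)
        refine le_trans ?_ (hZsum v w)
        have h2 := sum_rpow_le_rpow_sum hp1 Finset.univ (Z v w)
        rw [nrm_eq]
        have h3 := Real.rpow_le_rpow (Finset.sum_nonneg fun k _ =>
          Real.rpow_nonneg (abs_nonneg _) _) h2 (inv_nonneg.2 hp0.le)
        rw [Real.rpow_rpow_inv (Finset.sum_nonneg fun k _ => abs_nonneg _) hp0.ne'] at h3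
        exact h3.trans_eq (Finset.sum_congr rfl fun k _ => abs_of_nonneg (hZ0 k))
      have e : A₀ * D + D * (pairC p / wd) * c * (16 * N) =
          D * (famErr p γ Kv N wd + η / 2) := by
        rw [hA₀, famErr, ← hc, ← hKdef]; ring
      rw [ha]
      refine (add_le_add le_rfl hb).trans ?_
      rw [e]
      nlinarith
  set A := famA p γ Kv N wd
  set W := famW p γ Kv N
  have hA1 : 1 ≤ A := by
    have h1 : (1 : ℝ) ≤ 6 * Real.exp (6 * p) + 4 := by linarith [Real.exp_pos (6 * p)]
    have h2 : 1 ≤ K ^ 5 := one_le_pow₀ hK1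
    have h3 : 1 ≤ (N + 1) ^ 3 := one_le_pow₀ (by linarith)
    have h4 : (1 : ℝ) ≤ Real.exp (4 * wd) := Real.one_le_exp (by linarith)
    simp only [A, famA, ← hKdef]
    exact one_le_mul_of_one_le_of_one_le (one_le_mul_of_one_le_of_one_le (by norm_num)
      (one_le_mul_of_one_le_of_one_le (one_le_mul_of_one_le_of_one_le
        (one_le_mul_of_one_le_of_one_le (by norm_num) h1) h2) h3)) h4
  have hW0 : 0 ≤ W := by simp only [W, famW, ← hKdef]; positivity
  set Tw : Fin Kv × {k // k ∈ Ks} × I → ℝ := fun f => Real.exp ((2 * (f.2.1 : ℝ) - 2) * wd * p)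
  have hlip : ∀ v w f, |u v f - u w f| ^ p ≤ A ^ p * Tw f * ∑ g, |u v g - u w g| ^ p := by
    intro v w f
    obtain ⟨k, ⟨q, hq⟩, i⟩ := f
    rcases eq_or_ne w v with rfl | hvw
    · simp only [sub_self, abs_zero, Real.zero_rpow hp0.ne', Finset.sum_const_zero, mul_zero,
        le_refl]
    obtain ⟨J, hJ, hbJ, hJT⟩ := hlevel w v hvw
    have h1 := coord_bound (hok k k.2) hJ hbJ hJT hwd q i
    have hD := hpos w v hvw
    have hC : coordC p (P k).Γ (P k).L ≤
        10000 * (6 * Real.exp (6 * p) + 4) * K ^ 5 * (N + 1) ^ 3 := by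
      have := (hok k k.2).pos
      have := KK_pos (P k).L
      unfold coordC
      refine mul_le_mul (mul_le_mul_of_nonneg_left (pow_le_pow_left₀ (KK_pos _).le (hKK k k.2) 5)
        (by positivity)) (pow_le_pow_left₀ (by positivity) (by linarith [hΓN k]) 3)
        (by positivity) (by positivity)
    set G := nrm p (fun k => c * U k w v)
    have hG : (∑ g, |u v g - u w g| ^ p) = G ^ p := hX w v
    have hGD : ds x w v ≤ 2 * G := by
      have := (abs_le.1 (hiso w v)).1
      nlinarith
    rw [hG]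
    have hc1 : c ≤ 1 := Real.rpow_le_one (by positivity)
      (by rw [div_le_one (by positivity)]; exact_mod_cast hKv) (by positivity)
    have hbound : |u v (k, ⟨q, hq⟩, i) - u w (k, ⟨q, hq⟩, i)| ≤
        A * Real.exp ((2 * (q : ℝ) - 2) * wd) * G := by
      simp only [u]
      rw [← mul_sub, abs_mul, abs_of_nonneg hc0]
      refine ((mul_le_of_le_one_left (abs_nonneg _) hc1).trans h1).trans ?_
      refine (mul_le_mul_of_nonneg_right (mul_le_mul hC hGD hD.le (by
        have := (one_le_pow₀ hK1 : 1 ≤ K ^ 5); positivity)) (Real.exp_pos _).le).trans (le_of_eq ?_)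
      simp only [A, famA, ← hKdef]
      rw [show (2 * (q : ℝ) + 2) * wd = 4 * wd + (2 * (q : ℝ) - 2) * wd by ring, Real.exp_add]
      ring
    refine (Real.rpow_le_rpow (abs_nonneg _) hbound hp0.le).trans_eq ?_
    rw [Real.mul_rpow (by positivity) (nrm_nonneg _),
      Real.mul_rpow (by linarith) (Real.exp_pos _).le, ← Real.exp_mul]
  have hsup : ∀ v, ∑ f, (if u v f = 0 then 0 else Tw f) ≤ W := by
    intro v
    rw [Fintype.sum_prod_type]
    have hk : ∀ k : Fin Kv, ∑ g : {k // k ∈ Ks} × I, (if u v (k, g) = 0 then 0 else Tw (k, g)) ≤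
        2 * (1 + 400 * N + K) ^ p := by
      intro k
      rw [Fintype.sum_prod_type, Finset.sum_comm]
      have hR : nrm p (Rf x (P k) b v) ≤ 1 + 400 * N + K := by
        refine (nrm_Rf_le (hok k k.2) (hfl k) (hΓN k) b v).trans ?_
        rw [← hn_def, ← hN]
        have h1 := envSize_le hp1 hN0.le hγ.le (hok k k.2).pos.le (hΓle k)
        have h2 : γ ^ (1 - p⁻¹) ≤ 1 := Real.rpow_le_one hγ.le hγ1
          (sub_nonneg.2 (inv_le_one_of_one_le₀ hp1))
        have := mul_le_mul_of_nonneg_right h2 hN0.le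
        linarith [hKK k k.2]
      calc ∑ i, ∑ q : {k // k ∈ Ks}, (if u v (k, q, i) = 0 then 0 else Tw (k, q, i))
          ≤ ∑ i, 2 * |Rf x (P k) b v i| ^ p := by
            refine Finset.sum_le_sum fun i _ => ?_
            have hR0 := Rf_pos (hok k k.2) b v i
            rw [abs_of_pos hR0]
            set a : ℝ := 2 * wd * p
            have ha : 1 ≤ a := by
              simp only [a]; nlinarith [mul_le_mul hwd hp1 zero_le_one hwd0.le]
            calc ∑ q : {k // k ∈ Ks}, (if u v (k, q, i) = 0 then 0 else Tw (k, q, i))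
                ≤ ∑ q ∈ Ks.filter (fun q => feat x (P k) b wd q v i ≠ 0),
                    Real.exp (-(2 * wd * p)) * Real.exp (a * q) := by
                  rw [Finset.sum_filter, ← Finset.sum_coe_sort Ks]
                  refine Finset.sum_le_sum fun q _ => ?_
                  by_cases hz : feat x (P k) b wd q v i = 0
                  · rw [if_pos (show u v (k, q, i) = 0 by simp [u, hz]),
                      if_neg (not_not.2 hz)]
                  · rw [if_pos hz]
                    have e : Tw (k, q, i) =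
                        Real.exp (-(2 * wd * p)) * Real.exp (a * (q : ℤ)) := by
                      simp only [Tw, a]; rw [← Real.exp_add]; ring_nf
                    rw [← e]
                    split
                    · exact (Real.exp_pos _).le
                    · exact le_rfl
              _ ≤ Real.exp (-(2 * wd * p)) * (2 * (Real.exp (2 * wd * p) *
                    Rf x (P k) b v i ^ p)) := by
                  rw [← Finset.mul_sum]
                  refine mul_le_mul_of_nonneg_left (sum_exp_le ha _ (by positivity) fun q hq => ?_)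
                    (Real.exp_pos _).le
                  have h1 := Real.rpow_le_rpow (Real.exp_pos _).le
                    (feat_support (hok k k.2) wd hwd0 q v i (Finset.mem_filter.1 hq).2) hp0.le
                  rw [← Real.exp_mul] at h1
                  calc Real.exp (a * q) =
                        Real.exp (2 * wd * p) * Real.exp ((2 * (q : ℝ) - 2) * wd * p) := by
                        rw [← Real.exp_add]; simp only [a]; ring_nf
                    _ ≤ _ := mul_le_mul_of_nonneg_left h1 (Real.exp_pos _).le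
              _ = _ := by
                  rw [Real.exp_neg]; field_simp
        _ = 2 * nrm p (Rf x (P k) b v) ^ p := by rw [nrm_rpow, Finset.mul_sum]
        _ ≤ _ := mul_le_mul_of_nonneg_left (Real.rpow_le_rpow (nrm_nonneg _) hR hp0.le) two_pos.le
    refine (Finset.sum_le_sum fun k _ => hk k).trans ?_
    simp only [W, famW, ← hKdef, Finset.sum_const, Finset.card_univ, Fintype.card_fin, nsmul_eq_mul]
    linarith
  obtain ⟨d, H, hd, hH⟩ := exists_compress u Tw (fun f => Real.exp_pos _) hη (by linarith) hA1 hW0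
    hM hlip hsup
  refine ⟨d, H, hd, fun v w => ?_⟩
  obtain ⟨h1, h2⟩ := hH w v
  rw [hX v w] at h1 h2
  obtain ⟨g1, g2⟩ := abs_le.1 (hiso v w)
  set G := nrm p (fun k => c * U k v w)
  have hG0 : 0 ≤ G := nrm_nonneg _
  have hD : ‖x v - x w‖ = ds x v w := rfl
  have hD0 := ds_nonneg x v w
  rw [hD, norm_sub_rev (H v)]
  constructor
  · have h3 : (1 - 3 * η) * G ≤ ‖H w - H v‖ := by
      have h := Real.rpow_le_rpow (mul_nonneg (by linarith) (Real.rpow_nonneg hG0 p)) h1
        (inv_nonneg.2 hp0.le)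
      rw [Real.mul_rpow (by linarith) (Real.rpow_nonneg hG0 p), Real.rpow_rpow_inv hG0 hp0.ne',
        Real.rpow_rpow_inv (norm_nonneg _) hp0.ne'] at h
      refine le_trans (mul_le_mul_of_nonneg_right ?_ hG0) h
      exact Real.self_le_rpow_of_le_one (by linarith) (by linarith) (inv_le_one_of_one_le₀ hp1)
    refine le_trans ?_ h3
    nlinarith [mul_le_mul_of_nonneg_left g1 (show 0 ≤ 1 - 3 * η by linarith),
      mul_nonneg (mul_nonneg hη.le hη.le) hD0, mul_nonneg hη.le hD0]
  · have h3 : ‖H w - H v‖ ≤ (1 + 5 * η) * G := by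
      have h := Real.rpow_le_rpow (Real.rpow_nonneg (norm_nonneg _) p) h2 (inv_nonneg.2 hp0.le)
      rw [Real.mul_rpow (by linarith) (Real.rpow_nonneg hG0 p), Real.rpow_rpow_inv hG0 hp0.ne',
        Real.rpow_rpow_inv (norm_nonneg _) hp0.ne'] at h
      refine h.trans (mul_le_mul_of_nonneg_right ?_ hG0)
      exact Real.rpow_le_self_of_one_le (by linarith) (inv_le_one_of_one_le₀ hp1)
    refine h3.trans ?_
    nlinarith [mul_le_mul_of_nonneg_left g2 (show 0 ≤ 1 + 5 * η by linarith),
      mul_le_mul_of_nonneg_left hη1 (mul_nonneg hη.le hD0)]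

end Vale.Agent.P249.Full
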