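import Vale.Agent.P249.Full.Drops
import Vale.Agent.P249.Full.Bands

/-!
The feature map and its deviation from an isometry.
-/

namespace Vale.Agent.P249.Full

open Finset Vale.Agent.P249.Sub

set_option linter.unusedSectionVars false
set_option linter.unusedVariables false

variable {p : ℝ} [hp : Fact (1 ≤ ENNReal.ofReal p)] {V I : Type*} [Fintype V] [Fintype I]

/-- One feature: the increments of the centres, gated by a band of the envelope. -/
noncomputable def feat (x : V → Ell p I) (P : Prm) (b : ℤ) (wd : ℝ) (k : ℤ) (v : V) (i : I) : ℝ :=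
  ∑ j ∈ Finset.Icc (b + 1) P.T, band p wd k (lam x P (j - 1) v i) * dC x P j v i

/-- The coordinatewise error of the feature map. -/
noncomputable def errF (x : V → Ell p I) (P : Prm) (b J : ℤ) (v w : V) (i : I) : ℝ :=
  ∑ j ∈ Finset.Icc (b + 1) P.T, (|dC x P j v i| * (Lam x P b J v w i (j - 1) - lam x P (j - 1) v i) +
    |dC x P j w i| * (Lam x P b J v w i (j - 1) - lam x P (j - 1) w i) +
    |Cf x P j w i - Cf x P j v i| * (Lam x P b J v w i (j - 1) - Lam x P b J v w i j))

/-- Constant of the main error term. -/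
noncomputable def mainC (p : ℝ) : ℝ := 28 + 2 * gainC p

variable {x : V → Ell p I} {P : Prm} {v w : V} {J b : ℤ}

lemma sum_abs_feat_sub (h : P.Ok x) {wd : ℝ} (hwd : 0 < wd) (hbJ : b ≤ J - 1) (hJT : J ≤ P.T)
    (Ks : Finset ℤ) (i : I) :
    ∑ k ∈ Ks, |feat x P b wd k w i - feat x P b wd k v i +
        band p wd k (Lam x P b J v w i b) * (x w i - x v i)| ≤
      12 / wd * errF x P b J v w i + 2 * |Cf x P P.T w i - Cf x P P.T v i| +
        2 * |Cf x P b w i - Cf x P b v i - (x w i - x v i)| := by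
  have hp1 : 1 ≤ p := one_le_p
  set Λ := Lam x P b J v w i with hΛ
  set c := fun j => Cf x P j w i - Cf x P j v i with hc
  set s := Finset.Icc (b + 1) P.T with hs
  have hbT : b + 1 ≤ P.T := by omega
  have hid : ∀ k, feat x P b wd k w i - feat x P b wd k v i +
      band p wd k (Λ b) * (x w i - x v i) =
      (∑ j ∈ s, ((band p wd k (lam x P (j - 1) w i) - band p wd k (Λ (j - 1))) * dC x P j w i -
        (band p wd k (lam x P (j - 1) v i) - band p wd k (Λ (j - 1))) * dC x P j v i +
        (band p wd k (Λ (j - 1)) - band p wd k (Λ j)) * c j)) +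
      (band p wd k (Λ P.T) * c P.T + band p wd k (Λ b) * ((x w i - x v i) - c b)) := by
    intro k
    have ht := sum_tele (fun j => band p wd k (Λ j) * c j) hbT
    simp only [add_sub_cancel_right] at ht
    have e : ∀ j, (band p wd k (lam x P (j - 1) w i) - band p wd k (Λ (j - 1))) * dC x P j w i -
        (band p wd k (lam x P (j - 1) v i) - band p wd k (Λ (j - 1))) * dC x P j v i +
        (band p wd k (Λ (j - 1)) - band p wd k (Λ j)) * c j =
        band p wd k (lam x P (j - 1) w i) * dC x P j w i -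
        band p wd k (lam x P (j - 1) v i) * dC x P j v i +
        (band p wd k (Λ (j - 1)) * c (j - 1) - band p wd k (Λ j) * c j) := by
      intro j; simp only [hc, dC]; ring
    simp only [e, feat, hs, Finset.sum_add_distrib, Finset.sum_sub_distrib]
    rw [Finset.sum_sub_distrib] at ht
    rw [ht]
    ring
  have hgap : ∀ j ∈ s, 0 ≤ Λ (j - 1) - lam x P (j - 1) v i ∧
      0 ≤ Λ (j - 1) - lam x P (j - 1) w i ∧ 0 ≤ Λ (j - 1) - Λ j := by
    intro j hj
    obtain ⟨h1, h2⟩ := Finset.mem_Icc.1 hj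
    have h3 := lam_le_Lam (v := v) (w := w) (J := J) h (show b ≤ j - 1 by omega) (by omega) i
    exact ⟨sub_nonneg.2 h3.1, sub_nonneg.2 h3.2, sub_nonneg.2 (Lam_step h hbJ h2 i)⟩
  calc ∑ k ∈ Ks, |feat x P b wd k w i - feat x P b wd k v i +
        band p wd k (Λ b) * (x w i - x v i)|
      ≤ ∑ k ∈ Ks, (∑ j ∈ s, (|band p wd k (lam x P (j - 1) w i) - band p wd k (Λ (j - 1))| *
          |dC x P j w i| + |band p wd k (lam x P (j - 1) v i) - band p wd k (Λ (j - 1))| *
          |dC x P j v i| + |band p wd k (Λ (j - 1)) - band p wd k (Λ j)| * |c j|) +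
        (band p wd k (Λ P.T) * |c P.T| + band p wd k (Λ b) * |c b - (x w i - x v i)|)) := by
        refine Finset.sum_le_sum fun k _ => ?_
        rw [hid k]
        refine (abs_add_le _ _).trans (add_le_add ?_ ((abs_add_le _ _).trans_eq ?_))
        · refine (Finset.abs_sum_le_sum_abs _ _).trans (Finset.sum_le_sum fun j _ => ?_)
          refine (abs_add_le _ _).trans (add_le_add ((abs_sub _ _).trans_eq ?_) (le_of_eq ?_))
          · rw [abs_mul, abs_mul]
          · rw [abs_mul]
        · rw [abs_mul, abs_mul, abs_of_nonneg (band_nonneg hp1 hwd k (Λ P.T)),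
            abs_of_nonneg (band_nonneg hp1 hwd k (Λ b)), abs_sub_comm (x w i - x v i)]
    _ ≤ _ := by
        simp only [Finset.sum_add_distrib]
        rw [Finset.sum_comm (s := Ks) (t := s), Finset.sum_comm (s := Ks) (t := s),
          Finset.sum_comm (s := Ks) (t := s)]
        simp only [← Finset.sum_mul]
        have h1 := mul_le_mul_of_nonneg_right (sum_band_le_two hp1 hwd Ks (Λ P.T))
          (abs_nonneg (c P.T))
        have h2 := mul_le_mul_of_nonneg_right (sum_band_le_two hp1 hwd Ks (Λ b))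
          (abs_nonneg (c b - (x w i - x v i)))
        simp only [hc] at h1 h2 ⊢
        rw [errF, ← hΛ, ← hs, Finset.mul_sum]
        have h3 : ∀ j ∈ s, (∑ k ∈ Ks, |band p wd k (lam x P (j - 1) w i) -
              band p wd k (Λ (j - 1))|) * |dC x P j w i| +
            (∑ k ∈ Ks, |band p wd k (lam x P (j - 1) v i) - band p wd k (Λ (j - 1))|) *
              |dC x P j v i| +
            (∑ k ∈ Ks, |band p wd k (Λ (j - 1)) - band p wd k (Λ j)|) *
              |Cf x P j w i - Cf x P j v i| ≤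
            12 / wd * (|dC x P j v i| * (Λ (j - 1) - lam x P (j - 1) v i) +
              |dC x P j w i| * (Λ (j - 1) - lam x P (j - 1) w i) +
              |Cf x P j w i - Cf x P j v i| * (Λ (j - 1) - Λ j)) := by
          intro j hj
          obtain ⟨g1, g2, g3⟩ := hgap j hj
          have a1 := sum_abs_band_sub hp1 hwd Ks (lam x P (j - 1) w i) (Λ (j - 1))
          have a2 := sum_abs_band_sub hp1 hwd Ks (lam x P (j - 1) v i) (Λ (j - 1))
          have a3 := sum_abs_band_sub hp1 hwd Ks (Λ (j - 1)) (Λ j)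
          rw [abs_sub_comm, abs_of_nonneg g2] at a1
          rw [abs_sub_comm (lam x P (j - 1) v i) (Λ (j - 1)), abs_of_nonneg g1] at a2
          rw [abs_of_nonneg g3] at a3
          have b1 := mul_le_mul_of_nonneg_right a1 (abs_nonneg (dC x P j w i))
          have b2 := mul_le_mul_of_nonneg_right a2 (abs_nonneg (dC x P j v i))
          have b3 := mul_le_mul_of_nonneg_right a3 (abs_nonneg (Cf x P j w i - Cf x P j v i))
          calc _ ≤ _ := add_le_add (add_le_add b1 b2) b3
            _ = _ := by ring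
        have h4 := Finset.sum_le_sum h3
        simp only [Finset.sum_add_distrib] at h4
        linarith

lemma log_gap_le {a c : ℝ} (ha : 0 < a) (hc : 0 < c) :
    max (Real.log a) (Real.log c) - Real.log a ≤ max 0 (c - a) / a := by
  rcases le_total (Real.log c) (Real.log a) with h | h
  · rw [max_eq_left h, sub_self]; positivity
  · rw [max_eq_right h]
    have h1 := Real.log_le_sub_one_of_pos (div_pos hc ha)
    rw [Real.log_div hc.ne' ha.ne'] at h1
    refine h1.trans ?_
    rw [div_sub_one ha.ne']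
    exact div_le_div_of_nonneg_right (le_max_right _ _) ha.le

lemma gap_sum (h : P.Ok x) (hJ : IsLevel x v w J) (hbJ : b ≤ J - 1) (hJT : J ≤ P.T) (i : I) :
    ∑ j ∈ Finset.Icc (b + 1) P.T,
        |dC x P j v i| * (Lam x P b J v w i (j - 1) - lam x P (j - 1) v i) ≤
      4 * ds x v w * (Rf x P b v i + Rf x P b w i) +
        2 * ∑ j ∈ Finset.Icc J P.T, tt j * max 0 (Rf x P j w i - Rf x P j v i) := by
  have hD := ds_nonneg x v w
  set Rs := Rf x P b v i + Rf x P b w i with hRs
  have hRs0 : 0 < Rs := by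
    have := Rf_pos h b v i
    have := Rf_pos h b w i
    linarith
  set m := fun j => max 0 (Rf x P j w i - Rf x P j v i)
  have hterm : ∀ j ∈ Finset.Icc (b + 1) P.T,
      |dC x P j v i| * (Lam x P b J v w i (j - 1) - lam x P (j - 1) v i) ≤
      (if j ≤ J then tt j * Rs else 0) + (if J < j then 2 * (tt (j - 1) * m (j - 1)) else 0) := by
    intro j hj
    obtain ⟨h1, h2⟩ := Finset.mem_Icc.1 hj
    have hg : 0 ≤ Lam x P b J v w i (j - 1) - lam x P (j - 1) v i :=
      sub_nonneg.2 (lam_le_Lam h (by omega) (by omega) i).1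
    have hR := Rf_pos h (j - 1) v i
    refine (mul_le_mul_of_nonneg_right ((abs_dC_le h j v i).trans
      (mul_le_mul_of_nonneg_left (ee_le_Rf h h2 v i) (tt_pos j).le)) hg).trans ?_
    rw [mul_assoc]
    by_cases hjJ : j ≤ J
    · rw [if_pos hjJ, if_neg (not_lt.2 hjJ), add_zero]
      refine mul_le_mul_of_nonneg_left (le_trans ?_ (mul_log_div_le hR.le hRs0)) (tt_pos j).le
      refine mul_le_mul_of_nonneg_left (sub_le_sub_right ?_ _) hR.le
      rw [← Real.exp_le_exp, Real.exp_log hRs0]
      exact exp_Lam_le h (by omega) (by omega) i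
    · rw [if_neg hjJ, if_pos (not_le.1 hjJ), zero_add]
      have e2 : tt j = 2 * tt (j - 1) := by rw [← tt_add_one]; congr 1; ring
      rw [e2, mul_assoc]
      refine mul_le_mul_of_nonneg_left (mul_le_mul_of_nonneg_left ?_ (tt_pos _).le) two_pos.le
      rw [Lam_of_ge (by omega)]
      have := log_gap_le hR (Rf_pos h (j - 1) w i)
      rw [le_div_iff₀ hR, mul_comm] at this
      exact this
  refine (Finset.sum_le_sum hterm).trans ?_
  rw [Finset.sum_add_distrib, ← Finset.sum_filter, ← Finset.sum_filter]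
  refine add_le_add ?_ ?_
  · calc ∑ j ∈ (Finset.Icc (b + 1) P.T).filter (fun j => j ≤ J), tt j * Rs
        ≤ (∑ j ∈ Finset.Icc (b + 1) J, tt j) * Rs := by
          rw [Finset.sum_mul]
          refine Finset.sum_le_sum_of_subset_of_nonneg (fun j hj => ?_)
            fun j _ _ => mul_nonneg (tt_pos j).le hRs0.le
          simp only [Finset.mem_filter, Finset.mem_Icc] at hj ⊢; omega
      _ ≤ 4 * ds x v w * Rs :=
          mul_le_mul_of_nonneg_right ((sum_tt_le _ _).trans (by linarith [hJ.ge])) hRs0.le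
  · rw [← Finset.mul_sum]
    refine mul_le_mul_of_nonneg_left ?_ two_pos.le
    rw [show ∑ j ∈ (Finset.Icc (b + 1) P.T).filter (fun j => J < j), tt (j - 1) * m (j - 1) =
        ∑ l ∈ ((Finset.Icc (b + 1) P.T).filter (fun j => J < j)).image (fun j => j - 1),
          tt l * m l by
      rw [Finset.sum_image]; intro a _ c _ hac; simpa using hac]
    refine Finset.sum_le_sum_of_subset_of_nonneg (fun l hl => ?_)
      fun l _ _ => mul_nonneg (tt_pos l).le (le_max_left _ _)
    simp only [Finset.mem_image, Finset.mem_filter, Finset.mem_Icc] at hl ⊢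
    obtain ⟨a, ⟨⟨h1, h2⟩, h3⟩, rfl⟩ := hl
    omega

lemma Lam_symm (i : I) (j : ℤ) : Lam x P b J w v i j = Lam x P b J v w i j := by
  unfold Lam; rw [max_comm (lam x P b w i), max_comm (lam x P j w i)]

lemma errF_nonneg (h : P.Ok x) (hbJ : b ≤ J - 1) (i : I) : 0 ≤ errF x P b J v w i := by
  refine Finset.sum_nonneg fun j hj => ?_
  obtain ⟨h1, h2⟩ := Finset.mem_Icc.1 hj
  have h3 := lam_le_Lam (v := v) (w := w) (J := J) h (show b ≤ j - 1 by omega) (by omega) i
  exact add_nonneg (add_nonneg (mul_nonneg (abs_nonneg _) (sub_nonneg.2 h3.1))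
    (mul_nonneg (abs_nonneg _) (sub_nonneg.2 h3.2)))
    (mul_nonneg (abs_nonneg _) (sub_nonneg.2 (Lam_step h hbJ h2 i)))

/-- The norm of the error. -/
theorem nrm_errF (h : P.Ok x) (hD : 0 < ds x v w) (hJ : IsLevel x v w J) (hbJ : b ≤ J - 1)
    (hJT : J ≤ P.T) :
    nrm p (errF x P b J v w) ≤ ds x v w *
      (mainC p * (nrm p (Rf x P b v) + nrm p (Rf x P b w)) +
        100000 * (P.Γ + KK P.L) * (cnt x P (b - P.L) v + cnt x P (b - P.L) w + 1) +
        4 * (KK P.L * KK P.L) * (nrm p (Bf x P b v) + nrm p (Bf x P b w))) := by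
  have hΓ := h.pos
  have hK := KK_pos P.L
  have hp0 : 0 < p := lt_of_lt_of_le one_pos one_le_p
  let Y1 : I → ℝ := fun i => ∑ j ∈ Finset.Icc J P.T, tt j * max 0 (Rf x P j w i - Rf x P j v i)
  let Y2 : I → ℝ := fun i => ∑ j ∈ Finset.Icc J P.T, tt j * max 0 (Rf x P j v i - Rf x P j w i)
  let Y3 : I → ℝ := fun i => ∑ j ∈ Finset.Icc J P.T, |Cf x P j w i - Cf x P j v i| *
    (Lam x P b J v w i (j - 1) - Lam x P b J v w i j)
  let Y0 : I → ℝ := fun i => 8 * ds x v w * Rf x P b v i + 8 * ds x v w * Rf x P b w i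
  have hpt : ∀ i, |errF x P b J v w i| ≤ (Y0 i + (2 * Y1 i + 2 * Y2 i)) + Y3 i := by
    intro i
    rw [abs_of_nonneg (errF_nonneg h hbJ i), errF]
    simp only [Finset.sum_add_distrib]
    have g1 := gap_sum (v := v) (w := w) h hJ hbJ hJT i
    have g2 := gap_sum (v := w) (w := v) h hJ.symm hbJ hJT i
    simp only [Lam_symm (v := v) (w := w), ds_comm x w v] at g2
    have g3 : ∑ j ∈ Finset.Icc (b + 1) P.T, |Cf x P j w i - Cf x P j v i| *
        (Lam x P b J v w i (j - 1) - Lam x P b J v w i j) = Y3 i := by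
      refine (Finset.sum_subset (Finset.Icc_subset_Icc (by omega) le_rfl) fun j hj hj' => ?_).symm
      simp only [Finset.mem_Icc] at hj hj'
      rw [Lam, Lam, if_pos (show j - 1 < J by omega), if_pos (show j < J by omega), sub_self,
        mul_zero]
    rw [g3]
    simp only [Y0, Y1, Y2]
    linarith
  refine (nrm_le_add hpt).trans ?_
  have h0 : nrm p (fun i => Y0 i + (2 * Y1 i + 2 * Y2 i)) ≤
      8 * ds x v w * (nrm p (Rf x P b v) + nrm p (Rf x P b w)) + 2 * nrm p Y1 + 2 * nrm p Y2 := by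
    refine (nrm_add_le _ _).trans ?_
    rw [add_assoc, mul_add]
    refine add_le_add ?_ ?_
    · refine (nrm_add_le _ _).trans (le_of_eq ?_)
      rw [nrm_mul (by positivity), nrm_mul (by positivity)]
    · refine (nrm_add_le _ _).trans (le_of_eq ?_)
      rw [nrm_mul two_pos.le, nrm_mul two_pos.le]
  have h1 : nrm p Y1 ≤ _ := nrm_incr_total h hJ hJT
  have h2 : nrm p Y2 ≤ _ := nrm_incr_total h hJ.symm hJT
  have h3 : nrm p Y3 ≤ _ := nrm_drop_total h hD hJ hbJ hJT
  rw [ds_comm x w v] at h2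
  have anti : ∀ u, nrm p (Rf x P J u) ≤ nrm p (Rf x P b u) ∧
      nrm p (Bf x P J u) ≤ nrm p (Bf x P b u) := fun u =>
    ⟨nrm_mono fun i => by
        rw [abs_of_pos (Rf_pos h J u i)]; exact Rf_anti h (by omega) hJT u i,
      nrm_mono fun i => by
        rw [abs_of_nonneg (Bf_nonneg h J u i)]; exact Bf_anti h (by omega) u i⟩
  have hg : 0 ≤ gainC p := by unfold gainC; positivity
  have hX : 0 ≤ excessSize P := excessSize_nonneg h
  have hKK : 0 ≤ KK P.L * KK P.L := by positivity
  have c1 := mul_le_mul_of_nonneg_left (anti v).1 hg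
  have c2 := mul_le_mul_of_nonneg_left (anti w).1 hg
  have c3 := mul_le_mul_of_nonneg_left (anti v).2 hKK
  have c4 := mul_le_mul_of_nonneg_left (anti w).2 hKK
  have nB1 := nrm_nonneg (p := p) (Bf x P b v)
  have nB2 := nrm_nonneg (p := p) (Bf x P b w)
  set q1 := cnt x P (b - P.L) v
  set q2 := cnt x P (b - P.L) w
  have hq1 : 0 ≤ q1 := cnt_nonneg _ v
  have hq2 : 0 ≤ q2 := cnt_nonneg _ w
  have a1 : cnt x P J v ≤ q1 := cnt_anti (by omega) v
  have a2 : cnt x P J w ≤ q2 := cnt_anti (by omega) w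
  have a3 : cnt x P (J - P.L - 1) v ≤ q1 := cnt_anti (by omega) v
  have d1 := mul_le_mul_of_nonneg_left a1 hX
  have d2 := mul_le_mul_of_nonneg_left a2 hX
  have d3 := mul_le_mul_of_nonneg_left a3 hΓ.le
  have main : 8 * (nrm p (Rf x P b v) + nrm p (Rf x P b w)) +
      2 * (gainC p * nrm p (Rf x P J v) + 8 * excessSize P * cnt x P J v +
        KK P.L * KK P.L * nrm p (Bf x P J v)) +
      2 * (gainC p * nrm p (Rf x P J w) + 8 * excessSize P * cnt x P J w +
        KK P.L * KK P.L * nrm p (Bf x P J w)) +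
      (20 * (nrm p (Rf x P b v) + nrm p (Rf x P b w)) +
        2000 * P.Γ * (cnt x P (J - P.L - 1) v + 1) + 10 * KK P.L +
        2 * (KK P.L * KK P.L) * nrm p (Bf x P b w)) ≤
      mainC p * (nrm p (Rf x P b v) + nrm p (Rf x P b w)) +
        100000 * (P.Γ + KK P.L) * (q1 + q2 + 1) +
        4 * (KK P.L * KK P.L) * (nrm p (Bf x P b v) + nrm p (Bf x P b w)) := by
    unfold mainC
    unfold excessSize at d1 d2 ⊢
    nlinarith [mul_nonneg hK.le hq1, mul_nonneg hK.le hq2, mul_nonneg hΓ.le hq1,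
      mul_nonneg hΓ.le hq2, mul_nonneg hKK nB1, mul_nonneg hKK nB2]
  have := mul_le_mul_of_nonneg_left main hD.le
  linarith

lemma sum_rpow_le_rpow_sum (hp1 : 1 ≤ p) {K : Type*} (s : Finset K) (a : K → ℝ) :
    ∑ k ∈ s, |a k| ^ p ≤ (∑ k ∈ s, |a k|) ^ p := by
  have hp0 : 0 < p := by linarith
  have h := root_sum hp1 s (le_refl (0 : ℝ)) (fun _ => 0) (fun k => |a k|)
    (fun k _ => le_rfl) fun k _ => abs_nonneg _
  simp only [zero_add, Real.zero_rpow hp0.ne', Finset.sum_const_zero,
    Real.zero_rpow (inv_ne_zero hp0.ne')] at h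
  have hnn : 0 ≤ ∑ k ∈ s, |a k| ^ p := Finset.sum_nonneg fun k _ =>
    Real.rpow_nonneg (abs_nonneg _) _
  have := Real.rpow_le_rpow (Real.rpow_nonneg hnn _) h hp0.le
  rwa [Real.rpow_inv_rpow hnn hp0.ne'] at this

lemma nrm_abs (f : I → ℝ) : nrm p (fun i => |f i|) = nrm p f := by
  rw [nrm_eq, nrm_eq]; simp only [abs_abs]

/-- The feature map is an isometry up to the error. -/
theorem abs_feat_norm_sub (h : P.Ok x) {wd : ℝ} (hwd : 0 < wd) (hbJ : b ≤ J - 1) (hJT : J ≤ P.T)
    (Ks : Finset ℤ) (hKs : ∀ i, win wd (Lam x P b J v w i b) ⊆ Ks) :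
    |(∑ k ∈ Ks, ∑ i, |feat x P b wd k w i - feat x P b wd k v i| ^ p) ^ p⁻¹ - ds x v w| ≤
      12 / wd * nrm p (errF x P b J v w) +
      2 * nrm p (fun i => Cf x P P.T w i - Cf x P P.T v i) +
      2 * nrm p (fun i => Cf x P b w i - Cf x P b v i - (x w i - x v i)) := by
  have hp1 : 1 ≤ p := one_le_p
  have hp0 : 0 < p := by linarith
  let U : {k // k ∈ Ks} × I → ℝ :=
    fun ki => feat x P b wd ki.1 w ki.2 - feat x P b wd ki.1 v ki.2
  let W : {k // k ∈ Ks} × I → ℝ :=
    fun ki => band p wd ki.1 (Lam x P b J v w ki.2 b) * (x w ki.2 - x v ki.2)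
  have hU : nrm p U = (∑ k ∈ Ks, ∑ i, |feat x P b wd k w i - feat x P b wd k v i| ^ p) ^ p⁻¹ := by
    rw [nrm_eq, Fintype.sum_prod_type, ← Finset.sum_coe_sort Ks]
  have hW : nrm p W = ds x v w := by
    rw [nrm_eq, ds_comm, ds, norm_eq_rpow, Fintype.sum_prod_type, Finset.sum_comm]
    congr 1
    refine Finset.sum_congr rfl fun i _ => ?_
    simp only [W, abs_mul, abs_of_nonneg (band_nonneg hp1 hwd _ _)]
    rw [Finset.sum_congr rfl fun k _ =>
      Real.mul_rpow (band_nonneg hp1 hwd _ _) (abs_nonneg _), ← Finset.sum_mul,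
      Finset.sum_coe_sort Ks (fun k => band p wd k (Lam x P b J v w i b) ^ p),
      sum_band_rpow hp1 hwd (hKs i), one_mul]
    simp
  have htri : |nrm p U - nrm p W| ≤ nrm p (fun ki => U ki + W ki) := by
    have := abs_norm_sub_norm_le (WithLp.toLp _ U : Ell p _) (-WithLp.toLp _ W)
    rwa [norm_neg, sub_neg_eq_add] at this
  rw [hU, hW] at htri
  refine htri.trans ?_
  let E : I → ℝ := fun i => ∑ k ∈ Ks,
    |feat x P b wd k w i - feat x P b wd k v i +
      band p wd k (Lam x P b J v w i b) * (x w i - x v i)|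
  have hE : nrm p (fun ki => U ki + W ki) ≤ nrm p E := by
    rw [nrm_eq, nrm_eq, Fintype.sum_prod_type, Finset.sum_comm]
    refine Real.rpow_le_rpow (Finset.sum_nonneg fun i _ => Finset.sum_nonneg fun k _ =>
      Real.rpow_nonneg (abs_nonneg _) _) ?_ (inv_nonneg.2 hp0.le)
    refine Finset.sum_le_sum fun i _ => ?_
    simp only [U, W, E]
    rw [abs_of_nonneg (Finset.sum_nonneg fun k _ => abs_nonneg _),
      Finset.sum_coe_sort Ks (fun k => |feat x P b wd k w i - feat x P b wd k v i +
        band p wd k (Lam x P b J v w i b) * (x w i - x v i)| ^ p)]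
    exact sum_rpow_le_rpow_sum hp1 Ks _
  refine hE.trans ?_
  refine (nrm_mono fun i => le_of_eq_of_le
    (abs_of_nonneg (Finset.sum_nonneg fun k _ => abs_nonneg _))
    (sum_abs_feat_sub h hwd hbJ hJT Ks i)).trans ?_
  refine (nrm_add_le _ _).trans (add_le_add ((nrm_add_le _ _).trans (add_le_add ?_ ?_)) ?_)
  · rw [nrm_mul (by positivity)]
  · rw [nrm_mul two_pos.le, nrm_abs]
  · rw [nrm_mul two_pos.le, nrm_abs]

lemma nrm_bottom (h : P.Ok x) (b : ℤ) (v w : V) :
    nrm p (fun i => Cf x P b w i - Cf x P b v i - (x w i - x v i)) ≤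
      4 * tt b * Real.log (Fintype.card V) := by
  have key : ∀ u, nrm p (fun i => Cf x P b u i - x u i) ≤
      2 * tt b * Real.log (Fintype.card V) := by
    intro u
    have e : (fun i => Cf x P b u i - x u i) = fun i =>
        ∑ m ∈ Finset.range P.L, pw x P b u m * (Mf x (b - m) u i - x u i) := by
      funext i
      simp only [Cf, mul_sub, Finset.sum_sub_distrib, ← Finset.sum_mul, sum_pw h, one_mul]
    rw [e]
    refine (nrm_weighted_le (Finset.range P.L) (pw x P b u) (fun m _ => pw_nonneg x P b u m)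
      fun m i => Mf x (b - m) u i - x u i).trans ?_
    calc ∑ m ∈ Finset.range P.L, pw x P b u m * nrm p (fun i => Mf x (b - m) u i - x u i)
        ≤ ∑ m ∈ Finset.range P.L, pw x P b u m * (2 * tt b * Real.log (Fintype.card V)) := by
          refine Finset.sum_le_sum fun m _ => mul_le_mul_of_nonneg_left ?_ (pw_nonneg x P b u m)
          refine (nrm_Mf_sub x (b - m) u).trans ?_
          have h1 := Gf_le x (b - m) u
          have h2 := gf_le_card x (b - m) u
          have h3 := tt_mono (show b - (m : ℤ) ≤ b by omega)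
          calc tt (b - m) * Gf x (b - m) u ≤ tt b * (2 * Real.log (Fintype.card V)) :=
                mul_le_mul h3 (by linarith) (Gf_nonneg x _ u) (tt_pos b).le
            _ = _ := by ring
      _ = _ := by rw [← Finset.sum_mul, sum_pw h, one_mul]
  have e : (fun i => Cf x P b w i - Cf x P b v i - (x w i - x v i)) =
      fun i => (Cf x P b w i - x w i) + (-1) * (Cf x P b v i - x v i) := by
    funext i; ring
  rw [e]
  refine (nrm_add_le _ _).trans ?_
  have : nrm p (fun i => (-1) * (Cf x P b v i - x v i)) =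
      nrm p (fun i => Cf x P b v i - x v i) := by
    rw [nrm_eq, nrm_eq]; simp [abs_sub_comm]
  rw [this]
  linarith [key v, key w]

lemma nrm_top (h : P.Ok x) (hJ : IsLevel x v w J) (hJT : J ≤ P.T) {Dm : ℝ}
    (hDm : ∀ u z, ds x u z ≤ Dm) (hsmall : Dm ≤ tt P.T) :
    nrm p (fun i => Cf x P P.T w i - Cf x P P.T v i) ≤ 72 * ds x v w * (Dm / tt P.T) := by
  have hΓ := h.big
  have hk : ∀ u, kap x P P.T u = 1 := fun u => kap_eq_one h (by
    have := gf_le_diam x P.T u (hDm u)
    have : Dm / tt P.T ≤ 1 := (div_le_one (tt_pos _)).2 hsmall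
    linarith)
  have hC : ∀ u i, Cf x P P.T u i = Mf x P.T u i := fun u i => by
    rw [Cf_rec h, hk, one_mul, sub_self, zero_mul, add_zero]
  simp only [hC]
  refine (nrm_le_mul (c := 18 * rf x P.T v w) (g := Qf x P.T v P.T v)
    (by have := rf_nonneg x P.T v w; positivity) fun i => ?_).trans ?_
  · exact (abs_Mf_gain x P.T v w i).trans (mul_le_mul_of_nonneg_right
      (exp_two_sub_one (rf_nonneg x P.T v w) (rf_le_one hJ hJT)) (Qf_nonneg x _ v _ v i))
  · refine (mul_le_mul_of_nonneg_left (nrm_QQ x P.T v P.T)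
      (by have := rf_nonneg x P.T v w; positivity)).trans ?_
    have h1 := Gf_le x P.T v
    have h2 := gf_le_diam x P.T v (hDm v)
    have h3 : 18 * rf x P.T v w * (tt P.T * Gf x P.T v + tt P.T * Gf x P.T v) =
        36 * ds x v w * Gf x P.T v := by rw [← tt_mul_rf x P.T v w]; ring
    rw [h3]
    nlinarith [mul_le_mul_of_nonneg_left (h1.trans (mul_le_mul_of_nonneg_left h2 two_pos.le))
      (ds_nonneg x v w)]

end Vale.Agent.P249.Full
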