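import Vale.Agent.P249.Full.Basic

/-!
Gibbs averages of a finite subset of a `p`-norm space at dyadic scales.
-/

namespace Vale.Agent.P249.Full

open Finset Vale.Agent.P249.Sub

set_option linter.unusedSectionVars false

variable {p : ℝ} [hp : Fact (1 ≤ ENNReal.ofReal p)] {V I : Type*} [Fintype V] [Fintype I]

/-- The distance between two points. -/
noncomputable def ds (x : V → Ell p I) (v z : V) : ℝ := ‖x v - x z‖

/-- Unnormalised Gibbs weight. -/
noncomputable def wt (x : V → Ell p I) (j : ℤ) (v z : V) : ℝ := Real.exp (-(ds x v z / tt j))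

/-- The partition function. -/
noncomputable def Zf (x : V → Ell p I) (j : ℤ) (v : V) : ℝ := ∑ z, wt x j v z

/-- The Gibbs probability. -/
noncomputable def mu (x : V → Ell p I) (j : ℤ) (v z : V) : ℝ := wt x j v z / Zf x j v

/-- The centre of mass. -/
noncomputable def Mf (x : V → Ell p I) (j : ℤ) (v : V) (i : I) : ℝ := ∑ z, mu x j v z * x z i

/-- The energy. -/
noncomputable def Gf (x : V → Ell p I) (j : ℤ) (v : V) : ℝ :=
  (∑ z, mu x j v z * ds x v z) / tt j

/-- The growth of the partition function. -/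
noncomputable def gf (x : V → Ell p I) (j : ℤ) (v : V) : ℝ :=
  Real.log (Zf x (j + 1) v) - Real.log (Zf x j v)

/-- Mean coordinatewise separation of two Gibbs samples. -/
noncomputable def Qf (x : V → Ell p I) (l : ℤ) (v : V) (k : ℤ) (u : V) (i : I) : ℝ :=
  ∑ z, mu x l v z * ∑ z', mu x k u z' * |x z i - x z' i|

/-- The relative distance at a scale. -/
noncomputable def rf (x : V → Ell p I) (j : ℤ) (v w : V) : ℝ := ds x v w / tt j

variable (x : V → Ell p I)

omit [Fintype V] in
lemma ds_nonneg (v z : V) : 0 ≤ ds x v z := norm_nonneg _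

omit [Fintype V] in
lemma ds_comm (v z : V) : ds x v z = ds x z v := norm_sub_rev _ _

omit [Fintype V] in
lemma ds_self (v : V) : ds x v v = 0 := by simp [ds]

omit [Fintype V] in
lemma ds_triangle (u v z : V) : ds x u z ≤ ds x u v + ds x v z :=
  norm_sub_le_norm_sub_add_norm_sub _ _ _

omit [Fintype V] in
lemma rf_nonneg (j : ℤ) (v w : V) : 0 ≤ rf x j v w := div_nonneg (ds_nonneg x v w) (tt_pos j).le

omit [Fintype V] in
lemma rf_comm (j : ℤ) (v w : V) : rf x j v w = rf x j w v := by rw [rf, rf, ds_comm]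

omit [Fintype V] in
lemma rf_sub_nat (j : ℤ) (m : ℕ) (v w : V) : rf x (j - m) v w = 2 ^ m * rf x j v w := by
  rw [rf, rf, tt_sub_nat]; field_simp

omit [Fintype V] in
lemma rf_succ (j : ℤ) (v w : V) : rf x (j + 1) v w = rf x j v w / 2 := by
  rw [rf, rf, tt_add_one]; field_simp

omit [Fintype V] in
lemma rf_anti {i j : ℤ} (h : i ≤ j) (v w : V) : rf x j v w ≤ rf x i v w :=
  div_le_div_of_nonneg_left (ds_nonneg x v w) (tt_pos i) (tt_mono h)

omit [Fintype V] in
lemma tt_mul_rf (j : ℤ) (v w : V) : tt j * rf x j v w = ds x v w :=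
  mul_div_cancel₀ _ (tt_pos j).ne'

lemma one_le_Zf (j : ℤ) (v : V) : 1 ≤ Zf x j v := by
  have h : wt x j v v = 1 := by simp [wt, ds_self]
  rw [Zf, ← h]
  exact Finset.single_le_sum (f := fun z => wt x j v z) (fun z _ => (Real.exp_pos _).le)
    (Finset.mem_univ v)

lemma Zf_pos (j : ℤ) (v : V) : 0 < Zf x j v := lt_of_lt_of_le one_pos (one_le_Zf x j v)

lemma Zf_le_card (j : ℤ) (v : V) : Zf x j v ≤ Fintype.card V := by
  calc Zf x j v ≤ ∑ _z : V, (1 : ℝ) := Finset.sum_le_sum fun z _ => by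
        rw [wt, Real.exp_le_one_iff, neg_nonpos]
        exact div_nonneg (ds_nonneg x v z) (tt_pos j).le
    _ = _ := by simp

lemma mu_nonneg (j : ℤ) (v z : V) : 0 ≤ mu x j v z :=
  div_nonneg (Real.exp_pos _).le (Zf_pos x j v).le

lemma sum_mu (j : ℤ) (v : V) : ∑ z, mu x j v z = 1 := by
  simp only [mu, ← Finset.sum_div]
  exact div_self (Zf_pos x j v).ne'

omit [Fintype V] in
lemma wt_ratio (j : ℤ) (v w z : V) : wt x j w z ≤ Real.exp (rf x j v w) * wt x j v z := by
  rw [wt, wt, ← Real.exp_add]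
  refine Real.exp_le_exp.2 ?_
  have h1 := div_le_div_of_nonneg_right (ds_triangle x v w z) (tt_pos j).le
  rw [add_div] at h1
  rw [rf]; linarith

lemma Zf_ratio (j : ℤ) (v w : V) : Zf x j w ≤ Real.exp (rf x j v w) * Zf x j v := by
  rw [Zf, Zf, Finset.mul_sum]; exact Finset.sum_le_sum fun z _ => wt_ratio x j v w z

lemma mu_ratio (j : ℤ) (v w z : V) : mu x j w z ≤ Real.exp (2 * rf x j v w) * mu x j v z := by
  rw [mu, mu, div_le_iff₀ (Zf_pos x j w)]
  have hzw := Zf_ratio x j w v
  rw [rf_comm x j w v] at hzw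
  calc wt x j w z ≤ Real.exp (rf x j v w) * wt x j v z := wt_ratio x j v w z
    _ = Real.exp (rf x j v w) * (wt x j v z / Zf x j v) * Zf x j v := by
      have := (Zf_pos x j v).ne'
      field_simp
    _ ≤ Real.exp (rf x j v w) * (wt x j v z / Zf x j v) *
        (Real.exp (rf x j v w) * Zf x j w) :=
      mul_le_mul_of_nonneg_left hzw (mul_nonneg (Real.exp_pos _).le (mu_nonneg x j v z))
    _ = _ := by rw [two_mul, Real.exp_add]; ring

lemma abs_mu_sub (j : ℤ) (v w z : V) :
    |mu x j w z - mu x j v z| ≤ (Real.exp (2 * rf x j v w) - 1) * mu x j v z := by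
  have h1 := mu_ratio x j v w z
  have h2 := mu_ratio x j w v z
  rw [rf_comm x j w v] at h2
  set e := Real.exp (2 * rf x j v w)
  have he : 1 ≤ e := Real.one_le_exp (by have := rf_nonneg x j v w; positivity)
  have hw := mu_nonneg x j w z
  rw [abs_le]
  constructor <;> nlinarith [mul_nonneg (sub_nonneg.2 he) hw]

lemma gf_nonneg (j : ℤ) (v : V) : 0 ≤ gf x j v := by
  refine sub_nonneg.2 (Real.log_le_log (Zf_pos x j v) ?_)
  refine Finset.sum_le_sum fun z _ => Real.exp_le_exp.2 (neg_le_neg ?_)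
  exact div_le_div_of_nonneg_left (ds_nonneg x v z) (tt_pos j) (tt_mono (by omega))

lemma Gf_nonneg (j : ℤ) (v : V) : 0 ≤ Gf x j v :=
  div_nonneg (Finset.sum_nonneg fun z _ => mul_nonneg (mu_nonneg x j v z) (ds_nonneg x v z))
    (tt_pos j).le

lemma Gf_le (j : ℤ) (v : V) : Gf x j v ≤ 2 * gf x j v := by
  have hz := Zf_pos x j v
  have hz1 := Zf_pos x (j + 1) v
  have key : Real.exp (Gf x j v / 2) * Zf x j v ≤ Zf x (j + 1) v := by
    have hw : ∀ z, wt x (j + 1) v z =
        wt x j v z * Real.exp (ds x v z / tt j / 2) := fun z => by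
      rw [wt, wt, ← Real.exp_add, tt_add_one]; congr 1; field_simp; ring
    have hj := convexOn_exp.map_sum_le (t := Finset.univ) (w := mu x j v)
      (p := fun z => ds x v z / tt j / 2) (fun z _ => mu_nonneg x j v z) (sum_mu x j v)
      (fun z _ => Set.mem_univ _)
    simp only [smul_eq_mul] at hj
    have e : ∑ z, mu x j v z * (ds x v z / tt j / 2) = Gf x j v / 2 := by
      simp only [Gf, Finset.sum_div]
      exact Finset.sum_congr rfl fun z _ => by ring
    rw [e] at hj
    refine (mul_le_mul_of_nonneg_right hj hz.le).trans_eq ?_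
    rw [Finset.sum_mul, Zf]
    refine Finset.sum_congr rfl fun z _ => ?_
    rw [hw z, mu, Zf]
    field_simp [show (∑ z, wt x j v z) ≠ 0 from hz.ne']
  have := Real.log_le_log (by positivity) key
  rw [Real.log_mul (Real.exp_ne_zero _) hz.ne', Real.log_exp] at this
  rw [gf]; linarith

lemma sum_gf_le (s : Finset ℤ) (v : V) :
    ∑ j ∈ s, gf x j v ≤ Real.log (Fintype.card V) := by
  rcases s.eq_empty_or_nonempty with rfl | hs
  · simpa using Real.log_natCast_nonneg _
  set a := s.min' hs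
  set b := s.max' hs
  have tele : ∀ k : ℕ, ∑ j ∈ Finset.Icc a (a + k), gf x j v =
      Real.log (Zf x (a + k + 1) v) - Real.log (Zf x a v) := by
    intro k
    induction k with
    | zero => simp [gf]
    | succ k ih =>
      have e : Finset.Icc a (a + ((k + 1 : ℕ) : ℤ)) =
          insert (a + k + 1) (Finset.Icc a (a + k)) := by
        ext j; simp only [Finset.mem_insert, Finset.mem_Icc]; omega
      rw [e, Finset.sum_insert (by simp), ih, gf]
      push_cast
      ring_nf
  have hab : a ≤ b := Finset.min'_le_max' s hs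
  calc ∑ j ∈ s, gf x j v ≤ ∑ j ∈ Finset.Icc a (a + ((b - a).toNat : ℤ)), gf x j v :=
        Finset.sum_le_sum_of_subset_of_nonneg (fun j hj => Finset.mem_Icc.2
          ⟨Finset.min'_le s j hj, by have := Finset.le_max' s j hj; omega⟩)
          fun j _ _ => gf_nonneg x j v
    _ = _ := tele _
    _ ≤ Real.log (Fintype.card V) := by
      have h1 := Real.log_le_log (Zf_pos x (a + ((b - a).toNat : ℤ) + 1) v) (Zf_le_card x _ v)
      have h2 := Real.log_nonneg (one_le_Zf x a v)
      linarith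

lemma gf_le_card (j : ℤ) (v : V) : gf x j v ≤ Real.log (Fintype.card V) := by
  simpa using sum_gf_le x {j} v

lemma gf_lip (j : ℤ) (v w : V) : |gf x j w - gf x j v| ≤ 2 * rf x j v w := by
  have h : ∀ k a b, Real.log (Zf x k a) ≤ rf x k b a + Real.log (Zf x k b) := by
    intro k a b
    have := Real.log_le_log (Zf_pos x k a) (Zf_ratio x k b a)
    rwa [Real.log_mul (Real.exp_ne_zero _) (Zf_pos x k b).ne', Real.log_exp] at this
  have h1 := h j v w
  have h2 := h j w v
  have h3 := h (j + 1) v w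
  have h4 := h (j + 1) w v
  rw [rf_comm x j w v] at h1
  rw [rf_comm x (j + 1) w v] at h3
  rw [rf_succ] at h3 h4
  have := rf_nonneg x j v w
  rw [gf, gf, abs_le]
  constructor <;> linarith

lemma gf_le_diam (j : ℤ) (v : V) {Dm : ℝ} (hD : ∀ z, ds x v z ≤ Dm) : gf x j v ≤ Dm / tt j := by
  have h1 := Real.log_le_log (Zf_pos x (j + 1) v) (Zf_le_card x (j + 1) v)
  have hn : (0 : ℝ) < Fintype.card V := by
    exact_mod_cast Fintype.card_pos_iff.2 ⟨v⟩
  have h2 : Real.exp (-(Dm / tt j)) * Fintype.card V ≤ Zf x j v := by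
    calc Real.exp (-(Dm / tt j)) * Fintype.card V = ∑ _z : V, Real.exp (-(Dm / tt j)) := by
          simp [mul_comm]
      _ ≤ _ := Finset.sum_le_sum fun z _ => Real.exp_le_exp.2
          (neg_le_neg (div_le_div_of_nonneg_right (hD z) (tt_pos j).le))
  have h3 := Real.log_le_log (by positivity) h2
  rw [Real.log_mul (Real.exp_ne_zero _) hn.ne', Real.log_exp] at h3
  rw [gf]; linarith

lemma mu_mul_le_ds (j : ℤ) (v : V) : ∑ z, mu x j v z * ds x v z = tt j * Gf x j v := by
  rw [Gf, mul_div_cancel₀ _ (tt_pos j).ne']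

lemma nrm_Mf_sub (j : ℤ) (v : V) :
    nrm p (fun i => Mf x j v i - x v i) ≤ tt j * Gf x j v := by
  have e : (fun i => Mf x j v i - x v i) = fun i => ∑ z, mu x j v z * (x z i - x v i) := by
    funext i
    simp [Mf, mul_sub, Finset.sum_sub_distrib, ← Finset.sum_mul, sum_mu]
  rw [e, ← mu_mul_le_ds]
  refine (nrm_weighted_le _ _ (fun z _ => mu_nonneg x j v z) fun z i => x z i - x v i).trans_eq ?_
  exact Finset.sum_congr rfl fun z _ => by
    rw [ds_comm]; congr 1

lemma Qf_nonneg (l : ℤ) (v : V) (k : ℤ) (u : V) (i : I) : 0 ≤ Qf x l v k u i :=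
  Finset.sum_nonneg fun z _ => mul_nonneg (mu_nonneg x l v z)
    (Finset.sum_nonneg fun z' _ => mul_nonneg (mu_nonneg x k u z') (abs_nonneg _))

lemma Qf_symm (l : ℤ) (v : V) (k : ℤ) (u : V) (i : I) : Qf x l v k u i = Qf x k u l v i := by
  simp only [Qf, Finset.mul_sum]
  rw [Finset.sum_comm]
  exact Finset.sum_congr rfl fun z _ => Finset.sum_congr rfl fun z' _ => by
    rw [abs_sub_comm]; ring

lemma Qf_le_left (l : ℤ) (v w : V) (k : ℤ) (u : V) (i : I) :
    Qf x l w k u i ≤ Real.exp (2 * rf x l v w) * Qf x l v k u i := by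
  rw [Qf, Qf, Finset.mul_sum]
  refine Finset.sum_le_sum fun z _ => ?_
  rw [← mul_assoc]
  exact mul_le_mul_of_nonneg_right (mu_ratio x l v w z)
    (Finset.sum_nonneg fun z' _ => mul_nonneg (mu_nonneg x k u z') (abs_nonneg _))

lemma Qf_le_both (l k : ℤ) (v w : V) (i : I) :
    Qf x l w k w i ≤ Real.exp (2 * rf x l v w + 2 * rf x k v w) * Qf x l v k v i := by
  refine (Qf_le_left x l v w k w i).trans ?_
  rw [Real.exp_add, mul_assoc]
  refine mul_le_mul_of_nonneg_left ?_ (Real.exp_pos _).le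
  rw [Qf_symm x l v k w, Qf_symm x l v k v]
  exact Qf_le_left x k v w l v i

lemma mean_gain (k : ℤ) (v w : V) (i : I) (f : V → ℝ)
    (hf : ∀ z z', |f z - f z'| ≤ |x z i - x z' i|) :
    |∑ z, mu x k w z * f z - ∑ z, mu x k v z * f z| ≤
      (Real.exp (2 * rf x k v w) - 1) * Qf x k v k v i := by
  set c := ∑ z, mu x k v z * f z with hc
  have e : ∑ z, mu x k w z * f z - c = ∑ z, (mu x k w z - mu x k v z) * (f z - c) := by
    simp only [sub_mul, mul_sub, Finset.sum_sub_distrib, ← Finset.sum_mul, sum_mu, one_mul]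
    ring
  rw [e, Qf, Finset.mul_sum]
  refine (Finset.abs_sum_le_sum_abs _ _).trans (Finset.sum_le_sum fun z _ => ?_)
  rw [abs_mul, ← mul_assoc]
  refine mul_le_mul (abs_mu_sub x k v w z) ?_ (abs_nonneg _) ?_
  · have e2 : f z - c = ∑ z', mu x k v z' * (f z - f z') := by
      simp [mul_sub, Finset.sum_sub_distrib, ← Finset.sum_mul, sum_mu, hc]
    rw [e2]
    refine (Finset.abs_sum_le_sum_abs _ _).trans (Finset.sum_le_sum fun z' _ => ?_)
    rw [abs_mul, abs_of_nonneg (mu_nonneg x k v z')]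
    exact mul_le_mul_of_nonneg_left (hf z z') (mu_nonneg x k v z')
  · exact mul_nonneg (sub_nonneg.2 (Real.one_le_exp (by have := rf_nonneg x k v w; positivity)))
      (mu_nonneg x k v z)

lemma mean_lip (l : ℤ) (a : V) (i : I) (z z' : V) :
    abs ((∑ y, mu x l a y * |x y i - x z i|) - (∑ y, mu x l a y * |x y i - x z' i|)) ≤
      |x z i - x z' i| := by
  rw [← Finset.sum_sub_distrib]
  refine (Finset.abs_sum_le_sum_abs _ _).trans ?_
  calc ∑ y, abs (mu x l a y * |x y i - x z i| - mu x l a y * |x y i - x z' i|)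
      ≤ ∑ y, mu x l a y * |x z i - x z' i| := Finset.sum_le_sum fun y _ => by
        rw [← mul_sub, abs_mul, abs_of_nonneg (mu_nonneg x l a y)]
        refine mul_le_mul_of_nonneg_left ((abs_abs_sub_abs_le_abs_sub _ _).trans_eq ?_)
          (mu_nonneg x l a y)
        rw [abs_sub_comm]; congr 1; ring
    _ = _ := by rw [← Finset.sum_mul, sum_mu, one_mul]

lemma Qf_gain (l : ℤ) (a : V) (k : ℤ) (v w : V) (i : I) :
    Qf x l a k w i - Qf x l a k v i ≤ (Real.exp (2 * rf x k v w) - 1) * Qf x k v k v i := by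
  rw [Qf_symm x l a k w, Qf_symm x l a k v]
  refine (le_abs_self _).trans ?_
  simp only [Qf]
  refine (mean_gain x k v w i (fun z => ∑ y, mu x l a y * |x z i - x y i|) fun z z' => ?_)
  simpa only [abs_sub_comm] using mean_lip x l a i z z'

lemma Qf_triangle (l : ℤ) (a : V) (k : ℤ) (v w : V) (i : I) :
    Qf x l a k w i ≤ Qf x l a k v i + Qf x k v k w i := by
  simp only [Qf]
  set B := ∑ z, mu x k v z * ∑ z', mu x k w z' * |x z i - x z' i|
  have hB : B = ∑ z', mu x k w z' * ∑ z'', mu x k v z'' * |x z'' i - x z' i| := by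
    simp only [B, Finset.mul_sum]
    rw [Finset.sum_comm]
    exact Finset.sum_congr rfl fun z _ => Finset.sum_congr rfl fun z' _ => by ring
  calc ∑ z, mu x l a z * ∑ z', mu x k w z' * |x z i - x z' i|
      ≤ ∑ z, mu x l a z * ∑ z', mu x k w z' * (∑ z'', mu x k v z'' * |x z i - x z'' i| +
          ∑ z'', mu x k v z'' * |x z'' i - x z' i|) := by
        gcongr with z _ z' _
        · exact mu_nonneg x l a z
        · exact mu_nonneg x k w z'
        · rw [← Finset.sum_add_distrib]
          calc |x z i - x z' i| = ∑ z'', mu x k v z'' * |x z i - x z' i| := by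
                rw [← Finset.sum_mul, sum_mu, one_mul]
            _ ≤ _ := Finset.sum_le_sum fun z'' _ => by
              rw [← mul_add]
              exact mul_le_mul_of_nonneg_left (abs_sub_le _ _ _) (mu_nonneg x k v z'')
    _ = _ := by
        simp only [mul_add, Finset.sum_add_distrib, ← Finset.sum_mul, sum_mu, one_mul]
        rw [← hB]

lemma abs_Mf_gain (k : ℤ) (v w : V) (i : I) :
    |Mf x k w i - Mf x k v i| ≤ (Real.exp (2 * rf x k v w) - 1) * Qf x k v k v i :=
  mean_gain x k v w i (fun z => x z i) fun _ _ => le_rfl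

lemma abs_Mf_sub_le (l : ℤ) (v : V) (k : ℤ) (u : V) (i : I) :
    |Mf x l v i - Mf x k u i| ≤ Qf x l v k u i := by
  have e : Mf x l v i - Mf x k u i =
      ∑ z, mu x l v z * ∑ z', mu x k u z' * (x z i - x z' i) := by
    simp [Mf, mul_sub, Finset.sum_sub_distrib, ← Finset.sum_mul, sum_mu]
  rw [e]
  refine (Finset.abs_sum_le_sum_abs _ _).trans (Finset.sum_le_sum fun z _ => ?_)
  rw [abs_mul, abs_of_nonneg (mu_nonneg x l v z)]
  refine mul_le_mul_of_nonneg_left ((Finset.abs_sum_le_sum_abs _ _).trans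
    (Finset.sum_le_sum fun z' _ => ?_)) (mu_nonneg x l v z)
  rw [abs_mul, abs_of_nonneg (mu_nonneg x k u z')]

lemma nrm_Qf (l : ℤ) (v : V) (k : ℤ) (u : V) :
    nrm p (Qf x l v k u) ≤ tt l * Gf x l v + ds x v u + tt k * Gf x k u := by
  have h1 : nrm p (Qf x l v k u) ≤
      ∑ z, mu x l v z * ∑ z', mu x k u z' * ds x z z' := by
    refine (nrm_weighted_le Finset.univ (mu x l v) (fun z _ => mu_nonneg x l v z)
      fun z i => ∑ z', mu x k u z' * |x z i - x z' i|).trans (Finset.sum_le_sum fun z _ => ?_)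
    refine mul_le_mul_of_nonneg_left ?_ (mu_nonneg x l v z)
    refine (nrm_weighted_le Finset.univ (mu x k u) (fun z' _ => mu_nonneg x k u z')
      fun z' i => |x z i - x z' i|).trans (Finset.sum_le_sum fun z' _ => ?_)
    refine mul_le_mul_of_nonneg_left ?_ (mu_nonneg x k u z')
    rw [ds, ← nrm_apply, nrm_eq, nrm_eq]
    simp [abs_abs]
  refine h1.trans ?_
  calc ∑ z, mu x l v z * ∑ z', mu x k u z' * ds x z z'
      ≤ ∑ z, mu x l v z * ∑ z', mu x k u z' * (ds x v z + ds x v u + ds x u z') := by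
        gcongr with z _ z' _
        · exact mu_nonneg x l v z
        · exact mu_nonneg x k u z'
        · linarith [ds_triangle x z v z', ds_triangle x v u z', ds_comm x z v]
    _ = _ := by
        simp only [mul_add, Finset.sum_add_distrib, ← Finset.sum_mul, sum_mu, one_mul,
          mu_mul_le_ds]

end Vale.Agent.P249.Full
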