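import Vale.Agent.P249.Full.Family

/-!
Choice of the parameters.
-/

namespace Vale.Agent.P249.Full

open Finset Filter

lemma log_bounds {n : ℕ} (hn : 16 ≤ n) :
    Real.log (8 * (n : ℝ) ^ 2 + 8) ≤ 3 * Real.log n ∧ (Nat.log 2 n : ℝ) ≤ 2 * Real.log n := by
  have hn16 : (16 : ℝ) ≤ n := by exact_mod_cast hn
  constructor
  · rw [show (3 : ℝ) * Real.log n = ((3 : ℕ) : ℝ) * Real.log n by norm_num, ← Real.log_pow]
    refine Real.log_le_log (by positivity) ?_
    nlinarith [mul_le_mul_of_nonneg_right hn16 (sq_nonneg (n : ℝ))]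
  · have h1 : ((2 : ℝ)) ^ Nat.log 2 n ≤ n := by
      exact_mod_cast Nat.pow_log_le_self 2 (show n ≠ 0 by omega)
    have h2 := Real.log_le_log (by positivity) h1
    rw [Real.log_pow] at h2
    nlinarith [Real.log_two_gt_d9, Nat.cast_nonneg (α := ℝ) (Nat.log 2 n)]

/-- Polylogarithmic factors times a small power are at most a small power. -/
lemma eventually_poly_exp (C : ℝ) (m : ℕ) {b : ℝ} (hb : 0 < b) :
    ∀ᶠ N : ℝ in atTop, C * (N + 1) ^ m ≤ Real.exp (b * N) := by
  have h := (isLittleO_pow_exp_pos_mul_atTop m hb).bound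
    (show (0 : ℝ) < 1 / ((|C| + 1) * 2 ^ m) by positivity)
  filter_upwards [h, eventually_ge_atTop (1 : ℝ)] with N hN h1
  rw [Real.norm_of_nonneg (by positivity), Real.norm_of_nonneg (Real.exp_pos _).le,
    div_mul_eq_mul_div, one_mul, le_div_iff₀ (by positivity)] at hN
  have h2 : (N + 1) ^ m ≤ 2 ^ m * N ^ m := by
    rw [← mul_pow]; exact pow_le_pow_left₀ (by linarith) (by linarith) m
  calc C * (N + 1) ^ m ≤ (|C| + 1) * (2 ^ m * N ^ m) :=
        mul_le_mul (by linarith [le_abs_self C]) h2 (by positivity) (by positivity)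
    _ = N ^ m * ((|C| + 1) * 2 ^ m) := by ring
    _ ≤ _ := hN

/-- For suitable fixed parameters the error is small and the dimension is a small power. -/
theorem exists_params {p : ℝ} (hp : 1 < p) {η : ℝ} (hη : 0 < η) (hη1 : η ≤ 1) (M : ℕ)
    {δ : ℝ} (hδ : 0 < δ) :
    ∃ γ : ℝ, 0 < γ ∧ γ ≤ 1 ∧ ∃ Kv : ℕ, 1 ≤ Kv ∧ ∃ a : ℝ, 0 < a ∧
      ∀ᶠ n : ℕ in atTop, 1 ≤ a * Real.log n ∧ 16 ≤ γ / 2 ^ Kv * Real.log n ∧
        famErr p γ Kv (Real.log n) (a * Real.log n) ≤ η / 2 ∧
        compDim p η (famA p γ Kv (Real.log n) (a * Real.log n)) (famW p γ Kv (Real.log n)) n M ≤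
          (n : ℝ) ^ δ := by
  have hp0 : 0 < p := by linarith
  have hpC : 0 < pairC p := by
    have : 0 ≤ gainC p := by unfold gainC; positivity
    unfold pairC mainC; positivity
  set P := ⌈p⌉₊ with hP
  set a := δ / (16 * p * (P + 3)) with ha_def
  have ha : 0 < a := by positivity
  have hq : 0 < 1 - p⁻¹ := sub_pos.2 (inv_lt_one_of_one_lt₀ hp)
  set t := η * a / (3208 * pairC p) with ht_def
  have ht : 0 < t := by positivity
  set γ := min 1 (t ^ (1 - p⁻¹)⁻¹) with hγ_def
  have hγ : 0 < γ := lt_min one_pos (Real.rpow_pos_of_pos ht _)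
  have hγq : γ ^ (1 - p⁻¹) ≤ t := by
    refine (Real.rpow_le_rpow hγ.le (min_le_right _ _) hq.le).trans_eq ?_
    exact Real.rpow_inv_rpow ht.le hq.ne'
  set s := 128 * pairC p / (a * η) with hs_def
  have hs : 0 < s := by positivity
  set Kv := ⌈s ^ p⌉₊ with hKv_def
  have hKv : 1 ≤ Kv := Nat.one_le_iff_ne_zero.2 (by
    simp only [Kv, ne_eq, Nat.ceil_eq_zero, not_le]; positivity)
  have hc : ((1 : ℝ) / Kv) ^ p⁻¹ ≤ 1 / s := by
    have h1 : (1 : ℝ) / Kv ≤ (1 / s) ^ p := by
      rw [Real.div_rpow zero_le_one hs.le, Real.one_rpow]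
      exact one_div_le_one_div_of_le (Real.rpow_pos_of_pos hs _) (Nat.le_ceil _)
    refine (Real.rpow_le_rpow (by positivity) h1 (inv_nonneg.2 hp0.le)).trans_eq ?_
    exact Real.rpow_rpow_inv (by positivity) hp0.ne'
  refine ⟨γ, hγ, min_le_left _ _, Kv, hKv, a, ha, ?_⟩
  set K := famK γ Kv with hK_def
  have hK : 1 ≤ K := one_le_KK _
  set cA := 2 * (10000 * (6 * Real.exp (6 * p) + 4) * K ^ 5) with hcA
  set cW := 2 * (Kv : ℝ) * (401 + K) ^ p with hcW
  set cY := 4 * (6 * cA ^ p / η ^ 2 * (2 * cW + 1) + 6) with hcY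
  have hcA0 : 0 ≤ cA := by positivity
  have hcW0 : 0 ≤ cW := by positivity
  set N0 := max (max (1 / a) (16 * 2 ^ Kv / γ))
    (max 1 (4 * pairC p * (1 + 10 * K ^ 3) / (a * η)))
  have hev : ∀ᶠ N : ℝ in atTop,
      (8 * M * cY ^ (P + 3)) ^ 2 * (N + 1) ^ (2 * (P + 3) * (4 * P + 1)) ≤
        Real.exp (δ / 2 * N) ∧ N0 ≤ N :=
    (eventually_poly_exp _ _ (by positivity)).and (eventually_ge_atTop N0)
  have hlog : Tendsto (fun n : ℕ => Real.log n) atTop atTop :=
    Real.tendsto_log_atTop.comp tendsto_natCast_atTop_atTop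
  filter_upwards [hlog.eventually hev, eventually_ge_atTop 16] with n hN hn
  obtain ⟨hpoly, hN0⟩ := hN
  set N := Real.log (n : ℝ) with hN_def
  have hNa : 1 / a ≤ N := le_trans (le_max_of_le_left (le_max_left _ _)) hN0
  have hNb : 16 * 2 ^ Kv / γ ≤ N := le_trans (le_max_of_le_left (le_max_right _ _)) hN0
  have hN1 : 1 ≤ N := le_trans (le_max_of_le_right (le_max_left _ _)) hN0
  have hNc : 4 * pairC p * (1 + 10 * K ^ 3) / (a * η) ≤ N :=
    le_trans (le_max_of_le_right (le_max_right _ _)) hN0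
  have hwd : 1 ≤ a * N := by
    rw [div_le_iff₀ ha] at hNa; linarith
  refine ⟨hwd, ?_, ?_, ?_⟩
  · rw [div_le_iff₀ hγ] at hNb
    rw [div_mul_eq_mul_div, le_div_iff₀ (by positivity)]
    linarith
  · rw [famErr, ← hK_def, div_mul_eq_mul_div, div_le_iff₀ (by positivity)]
    rw [div_le_iff₀ (by positivity)] at hNc
    have h1 : 401 * γ ^ (1 - p⁻¹) * N * pairC p ≤ η / 8 * (a * N) := by
      have := mul_le_mul_of_nonneg_right hγq (show 0 ≤ 401 * N * pairC p by positivity)
      rw [ht_def] at this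
      field_simp at this ⊢
      linarith
    have h2 : 16 * N * ((1 : ℝ) / Kv) ^ p⁻¹ * pairC p ≤ η / 8 * (a * N) := by
      have := mul_le_mul_of_nonneg_left hc (show 0 ≤ 16 * N * pairC p by positivity)
      rw [hs_def] at this
      field_simp at this ⊢
      linarith
    linarith
  · obtain ⟨hb1, hb2⟩ := log_bounds hn
    rw [← hN_def] at hb1 hb2
    set E := Real.exp (4 * (a * N))
    have hE : 1 ≤ E := Real.one_le_exp (by positivity)
    have hEp : 1 ≤ E ^ p := Real.one_le_rpow hE hp0.le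
    have hu : (1 : ℝ) ≤ N + 1 := by linarith
    have hpP : p ≤ (P : ℝ) := Nat.le_ceil p
    have hA : famA p γ Kv N (a * N) ^ p ≤ cA ^ p * (N + 1) ^ (3 * P) * E ^ p := by
      have e : famA p γ Kv N (a * N) = cA * (N + 1) ^ 3 * E := by
        rw [famA, ← hK_def, hcA]; ring
      rw [e, Real.mul_rpow (by positivity) (by positivity),
        Real.mul_rpow hcA0 (by positivity)]
      refine mul_le_mul_of_nonneg_right (mul_le_mul_of_nonneg_left ?_ (by positivity))
        (by positivity)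
      rw [← Real.rpow_natCast (N + 1) (3 * P), ← Real.rpow_natCast (N + 1) 3,
        ← Real.rpow_mul (by linarith)]
      refine Real.rpow_le_rpow_of_exponent_le hu ?_
      push_cast
      linarith
    have hW : famW p γ Kv N ≤ cW * (N + 1) ^ P := by
      rw [famW, ← hK_def, hcW, mul_assoc _ ((401 + K) ^ p)]
      refine mul_le_mul_of_nonneg_left ?_ (by positivity)
      refine (Real.rpow_le_rpow (by positivity) (show 1 + 400 * N + K ≤ (401 + K) * (N + 1) by
        nlinarith) hp0.le).trans ?_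
      rw [Real.mul_rpow (by linarith) (by linarith)]
      refine mul_le_mul_of_nonneg_left ?_ (by positivity)
      rw [← Real.rpow_natCast (N + 1) P]
      exact Real.rpow_le_rpow_of_exponent_le hu hpP
    set m := 4 * P + 1
    have hY : 4 * (2 * famA p γ Kv N (a * N) ^ p * Real.log (8 * (n : ℝ) ^ 2 + 8) / η ^ 2 *
        (2 * famW p γ Kv N + 1) + Nat.log 2 n + 4) ≤ cY * ((N + 1) ^ m * E ^ p) := by
      have hA0 : 0 ≤ famA p γ Kv N (a * N) ^ p := by
        refine Real.rpow_nonneg ?_ _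
        rw [famA, ← hK_def]; positivity
      have hW0 : 0 ≤ famW p γ Kv N := by rw [famW, ← hK_def]; positivity
      have hln0 : 0 ≤ Real.log (8 * (n : ℝ) ^ 2 + 8) :=
        Real.log_nonneg (by linarith [sq_nonneg (n : ℝ)])
      have hW1 : 2 * famW p γ Kv N + 1 ≤ (2 * cW + 1) * (N + 1) ^ P := by
        have : (1 : ℝ) ≤ (N + 1) ^ P := one_le_pow₀ hu
        linarith
      have h1 : 2 * famA p γ Kv N (a * N) ^ p * Real.log (8 * (n : ℝ) ^ 2 + 8) / η ^ 2 *
          (2 * famW p γ Kv N + 1) ≤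
          2 * (cA ^ p * (N + 1) ^ (3 * P) * E ^ p) * (3 * (N + 1)) / η ^ 2 *
            ((2 * cW + 1) * (N + 1) ^ P) := by
        refine mul_le_mul ?_ hW1 (by positivity) (by positivity)
        refine div_le_div_of_nonneg_right ?_ (sq_nonneg η)
        exact mul_le_mul (mul_le_mul_of_nonneg_left hA two_pos.le) (by linarith) hln0
          (by positivity)
      have e : 2 * (cA ^ p * (N + 1) ^ (3 * P) * E ^ p) * (3 * (N + 1)) / η ^ 2 *
            ((2 * cW + 1) * (N + 1) ^ P) =
          6 * cA ^ p / η ^ 2 * (2 * cW + 1) * ((N + 1) ^ m * E ^ p) := by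
        simp only [m]
        rw [show 4 * P + 1 = 3 * P + 1 + P by ring, pow_add, pow_add, pow_one]
        ring
      have hm1 : N + 1 ≤ (N + 1) ^ m * E ^ p := by
        refine le_trans ?_ (le_mul_of_one_le_right (by positivity) hEp)
        exact le_self_pow₀ hu (by simp only [m]; omega)
      rw [hcY]
      linarith
    rw [compDim, ← hP]
    calc (8 * M * (4 * (2 * famA p γ Kv N (a * N) ^ p * Real.log (8 * (n : ℝ) ^ 2 + 8) / η ^ 2 *
          (2 * famW p γ Kv N + 1) + Nat.log 2 n + 4)) ^ (P + 3)) ^ 2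
        ≤ (8 * M * (cY * ((N + 1) ^ m * E ^ p)) ^ (P + 3)) ^ 2 := by
          have hA0 : 0 ≤ famA p γ Kv N (a * N) := by rw [famA, ← hK_def]; positivity
          have hW0 : 0 ≤ famW p γ Kv N := by rw [famW, ← hK_def]; positivity
          have hln0 : 0 ≤ Real.log (8 * (n : ℝ) ^ 2 + 8) :=
            Real.log_nonneg (by linarith [sq_nonneg (n : ℝ)])
          gcongr
      _ = (8 * M * cY ^ (P + 3)) ^ 2 * (N + 1) ^ (2 * (P + 3) * m) *
            (E ^ p) ^ (2 * (P + 3)) := by
          simp only [mul_pow, ← pow_mul]; ring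
      _ ≤ Real.exp (δ / 2 * N) * (E ^ p) ^ (2 * (P + 3)) :=
          mul_le_mul_of_nonneg_right hpoly (by positivity)
      _ = (n : ℝ) ^ δ := by
          rw [Real.rpow_def_of_pos (show (0 : ℝ) < n by exact_mod_cast (show 0 < n by omega)),
            ← hN_def]
          simp only [E]
          rw [← Real.exp_mul, ← Real.exp_nat_mul, ← Real.exp_add]
          congr 1
          rw [ha_def]
          push_cast
          field_simp
          ring

end Vale.Agent.P249.Full
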