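import Vale.Agent.P249.Full.Excess

/-!
Total increase of the envelope above the level of a pair.
-/

namespace Vale.Agent.P249.Full

open Finset Vale.Agent.P249.Sub

set_option linter.unusedSectionVars false
set_option linter.unusedVariables false

variable {p : ℝ} [hp : Fact (1 ≤ ENNReal.ofReal p)] {V I : Type*} [Fintype V] [Fintype I]

/-- Constant of the multiplicative part of an increase. -/
noncomputable def gainC (p : ℝ) : ℝ := 24 * p * Real.exp (6 * p)

/-- Number of levels of fast growth in a range. -/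
noncomputable def cnt (x : V → Ell p I) (P : Prm) (a : ℤ) (v : V) : ℝ :=
  ∑ l ∈ Finset.Icc a P.T, irr x P l v

variable {x : V → Ell p I} {P : Prm} {v w : V} {J : ℤ}

lemma cnt_nonneg (a : ℤ) (v : V) : 0 ≤ cnt x P a v :=
  Finset.sum_nonneg fun l _ => irr_nonneg l v

lemma cnt_anti {a b : ℤ} (hab : a ≤ b) (v : V) : cnt x P b v ≤ cnt x P a v :=
  Finset.sum_le_sum_of_subset_of_nonneg (Finset.Icc_subset_Icc hab le_rfl)
    fun l _ _ => irr_nonneg l v

/-- Telescoping of the regular part. -/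
lemma regular_sum (h : P.Ok x) {j : ℤ} (hj : j ≤ P.T) (v : V) (i : I) :
    ∑ l ∈ Finset.Icc j P.T, aa x P l v i ^ p * Sf x P l v i ^ (p⁻¹ - 1) +
      ∑ l ∈ Finset.Icc (j + 1) P.T, ee x P l v i ^ p * Sf x P (l - 1) v i ^ (p⁻¹ - 1) ≤
      2 * p * Sf x P j v i ^ p⁻¹ := by
  have hp1 : 1 ≤ p := one_le_p
  have key : ∀ k : ℕ, ∀ j : ℤ, j + k = P.T →
      ∑ l ∈ Finset.Icc j P.T, aa x P l v i ^ p * Sf x P l v i ^ (p⁻¹ - 1) +
      ∑ l ∈ Finset.Icc (j + 1) P.T, ee x P l v i ^ p * Sf x P (l - 1) v i ^ (p⁻¹ - 1) ≤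
      2 * p * Sf x P j v i ^ p⁻¹ := by
    intro k
    induction k with
    | zero =>
      intro j hjk
      have hjT : j = P.T := by simpa using hjk
      rw [hjT, Finset.Icc_self, Finset.sum_singleton, Finset.Icc_eq_empty (by omega),
        Finset.sum_empty, add_zero]
      have hS := Sf_pos h P.T v i
      have hle : aa x P P.T v i ^ p ≤ Sf x P P.T v i := by
        have := Real.rpow_pos_of_pos h.floor_pos p
        have h1 : 0 ≤ ∑ m ∈ Finset.range P.L, lag x P P.T v i m ^ p :=
          Finset.sum_nonneg fun m _ => Real.rpow_nonneg (lag_nonneg _ v i m) _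
        rw [Sf, Finset.Icc_self, Finset.sum_singleton, Finset.Icc_eq_empty (by omega),
          Finset.sum_empty]
        linarith
      have h2 := mul_le_mul_of_nonneg_right hle (Real.rpow_nonneg hS.le (p⁻¹ - 1))
      rw [← Real.rpow_one_add' hS.le (by rw [add_sub_cancel]; positivity),
        add_sub_cancel] at h2
      exact h2.trans (le_mul_of_one_le_left (Real.rpow_nonneg hS.le _) (by linarith))
    | succ k ih =>
      intro j hjk
      have h1 := ih (j + 1) (by push_cast at hjk; omega)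
      have hdrop := Sf_drop h (show j + 1 ≤ P.T by push_cast at hjk; omega) v i
      rw [add_sub_cancel_right] at hdrop
      have e1 : Finset.Icc j P.T = insert j (Finset.Icc (j + 1) P.T) := by
        ext l; simp only [Finset.mem_insert, Finset.mem_Icc]; omega
      have e2 : Finset.Icc (j + 1) P.T = insert (j + 1) (Finset.Icc (j + 1 + 1) P.T) := by
        ext l; simp only [Finset.mem_insert, Finset.mem_Icc]; omega
      rw [e1, Finset.sum_insert (by simp)]
      conv_lhs => arg 2; rw [e2, Finset.sum_insert (by simp), add_sub_cancel_right]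
      have hd := root_drop hp1 (Sf_pos h (j + 1) v i).le (Sf_pos h j v i)
      have hq := Real.rpow_nonneg (Sf_pos h j v i).le (p⁻¹ - 1)
      nlinarith [mul_le_mul_of_nonneg_right hdrop hq]
  exact key (P.T - j).toNat j (by omega)

/-- The increase of the envelope at one level. -/
lemma Rf_incr (h : P.Ok x) (hJ : IsLevel x v w J) {j : ℤ} (hj : J ≤ j) (hjT : j ≤ P.T) (i : I) :
    Rf x P j w i - Rf x P j v i ≤
      6 * Real.exp (6 * p) * (∑ l ∈ Finset.Icc j P.T, rf x l v w * aa x P l v i ^ p +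
        ∑ l ∈ Finset.Icc (j + 1) P.T, rf x l v w * ee x P l v i ^ p) *
          Sf x P j v i ^ (p⁻¹ - 1) +
      (∑ l ∈ Finset.Icc j P.T, rhoA x P l v w i +
        ∑ l ∈ Finset.Icc (j + 1) P.T, rhoE x P l v w i +
        ∑ m ∈ Finset.range P.L, rhoL x P j m v w i) +
      (∑ l ∈ Finset.Icc (j - P.L - 1) P.T, KK P.L * rf x l v w * bb x P l v i) / P.Γ := by
  have hp1 : 1 ≤ p := one_le_p
  have hp0 : 0 < p := by linarith
  set A := fun l => Real.exp (6 * rf x l v w) * aa x P l v i
  set E := fun l => Real.exp (6 * rf x l v w) * ee x P l v i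
  set M := fun m => lag x P j v i m
  set F := P.floor ^ p
  have hF : 0 < F := Real.rpow_pos_of_pos h.floor_pos p
  have hA : ∀ l, 0 ≤ A l := fun l => mul_nonneg (Real.exp_pos _).le (aa_nonneg l v i)
  have hE : ∀ l, 0 ≤ E l := fun l => mul_nonneg (Real.exp_pos _).le (ee_nonneg l v i)
  have hM : ∀ m, 0 ≤ M m := fun m => lag_nonneg j v i m
  set SE := ∑ l ∈ Finset.Icc (j + 1) P.T, (E l + rhoE x P l v w i) ^ p
  set SM := ∑ m ∈ Finset.range P.L, (M m + rhoL x P j m v w i) ^ p
  have hSE : 0 ≤ SE := Finset.sum_nonneg fun l _ => Real.rpow_nonneg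
    (add_nonneg (hE l) (le_max_left _ _)) _
  have hSM : 0 ≤ SM := Finset.sum_nonneg fun m _ => Real.rpow_nonneg
    (add_nonneg (hM m) (le_max_left _ _)) _
  have hsA : 0 ≤ ∑ l ∈ Finset.Icc j P.T, A l ^ p :=
    Finset.sum_nonneg fun l _ => Real.rpow_nonneg (hA l) _
  have hsE : 0 ≤ ∑ l ∈ Finset.Icc (j + 1) P.T, E l ^ p :=
    Finset.sum_nonneg fun l _ => Real.rpow_nonneg (hE l) _
  have hinv : 0 ≤ p⁻¹ := by positivity
  have step0 : Sf x P j w i ^ p⁻¹ ≤
      (F + SE + SM + ∑ l ∈ Finset.Icc j P.T, (A l + rhoA x P l v w i) ^ p) ^ p⁻¹ := by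
    refine Real.rpow_le_rpow (Sf_pos h j w i).le ?_ hinv
    rw [Sf]
    have ha : ∀ l, aa x P l w i ≤ A l + rhoA x P l v w i := fun l => by
      have := le_max_right (0 : ℝ) (aa x P l w i - A l)
      simp only [A, rhoA] at this ⊢; linarith
    have he : ∀ l, ee x P l w i ≤ E l + rhoE x P l v w i := fun l => by
      have := le_max_right (0 : ℝ) (ee x P l w i - E l)
      simp only [E, rhoE] at this ⊢; linarith
    have hl : ∀ m, lag x P j w i m ≤ M m + rhoL x P j m v w i := fun m => by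
      have := le_max_right (0 : ℝ) (lag x P j w i m - M m)
      simp only [M, rhoL] at this ⊢; linarith
    have h1 := Finset.sum_le_sum (s := Finset.Icc j P.T) fun l _ =>
      Real.rpow_le_rpow (aa_nonneg (x := x) (P := P) l w i) (ha l) hp0.le
    have h2 := Finset.sum_le_sum (s := Finset.Icc (j + 1) P.T) fun l _ =>
      Real.rpow_le_rpow (ee_nonneg (x := x) (P := P) l w i) (he l) hp0.le
    have h3 := Finset.sum_le_sum (s := Finset.range P.L) fun m _ =>
      Real.rpow_le_rpow (lag_nonneg (x := x) (P := P) j w i m) (hl m) hp0.le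
    simp only [SE, SM, F]
    linarith
  have step1 := root_sum hp1 (Finset.Icc j P.T) (X := F + SE + SM) (by positivity) A
    (fun l => rhoA x P l v w i) (fun l _ => hA l) fun l _ => le_max_left _ _
  have step2 := root_sum hp1 (Finset.Icc (j + 1) P.T)
    (X := F + SM + ∑ l ∈ Finset.Icc j P.T, A l ^ p) (by positivity) E
    (fun l => rhoE x P l v w i) (fun l _ => hE l) fun l _ => le_max_left _ _
  have step3 := root_sum hp1 (Finset.range P.L)
    (X := F + ∑ l ∈ Finset.Icc j P.T, A l ^ p + ∑ l ∈ Finset.Icc (j + 1) P.T, E l ^ p)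
    (by positivity) M (fun m => rhoL x P j m v w i) (fun m _ => hM m) fun m _ => le_max_left _ _
  set c := 6 * p * Real.exp (6 * p)
  set Sr := ∑ l ∈ Finset.Icc j P.T, rf x l v w * aa x P l v i ^ p +
    ∑ l ∈ Finset.Icc (j + 1) P.T, rf x l v w * ee x P l v i ^ p with hSr
  have hpow : ∀ l, J ≤ l → ∀ a : ℝ, 0 ≤ a →
      (Real.exp (6 * rf x l v w) * a) ^ p ≤ a ^ p + c * (rf x l v w * a ^ p) := by
    intro l hl a ha
    rw [Real.mul_rpow (Real.exp_pos _).le ha, ← Real.exp_mul,
      show 6 * rf x l v w * p = 6 * p * rf x l v w by ring]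
    refine (mul_le_mul_of_nonneg_right (exp_mul_le (by positivity) (rf_nonneg x l v w)
      (rf_le_one hJ hl)) (Real.rpow_nonneg ha p)).trans_eq ?_
    simp only [c]; ring
  have step4 : F + ∑ l ∈ Finset.Icc j P.T, A l ^ p + ∑ l ∈ Finset.Icc (j + 1) P.T, E l ^ p +
      ∑ m ∈ Finset.range P.L, M m ^ p ≤ Sf x P j v i + c * Sr := by
    have h1 : ∑ l ∈ Finset.Icc j P.T, A l ^ p ≤ ∑ l ∈ Finset.Icc j P.T,
        (aa x P l v i ^ p + c * (rf x l v w * aa x P l v i ^ p)) :=
      Finset.sum_le_sum fun l hl =>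
        hpow l (hj.trans (Finset.mem_Icc.1 hl).1) _ (aa_nonneg l v i)
    have h2 : ∑ l ∈ Finset.Icc (j + 1) P.T, E l ^ p ≤ ∑ l ∈ Finset.Icc (j + 1) P.T,
        (ee x P l v i ^ p + c * (rf x l v w * ee x P l v i ^ p)) :=
      Finset.sum_le_sum fun l hl =>
        hpow l (by have := (Finset.mem_Icc.1 hl).1; omega) _ (ee_nonneg l v i)
    rw [Finset.sum_add_distrib, ← Finset.mul_sum] at h1 h2
    rw [Sf, hSr, mul_add]
    simp only [M, F]
    linarith
  have hSr0 : 0 ≤ Sr := add_nonneg
    (Finset.sum_nonneg fun l _ => mul_nonneg (rf_nonneg x l v w)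
      (Real.rpow_nonneg (aa_nonneg l v i) _))
    (Finset.sum_nonneg fun l _ => mul_nonneg (rf_nonneg x l v w)
      (Real.rpow_nonneg (ee_nonneg l v i) _))
  have hc : 0 ≤ c := by positivity
  have hbase : 0 ≤ F + ∑ l ∈ Finset.Icc j P.T, A l ^ p +
      ∑ l ∈ Finset.Icc (j + 1) P.T, E l ^ p + ∑ m ∈ Finset.range P.L, M m ^ p :=
    add_nonneg (by positivity) (Finset.sum_nonneg fun m _ => Real.rpow_nonneg (hM m) _)
  have step5 := (Real.rpow_le_rpow hbase step4 hinv).trans
    (root_add_le hp1 (Sf_pos h j v i) (by nlinarith [Sf_pos h j v i]))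
  have e : p⁻¹ * (c * Sr) = 6 * Real.exp (6 * p) * Sr := by
    simp only [c]; field_simp
  rw [e] at step5
  have hB := (Bf_lip h hJ hj i).2
  rw [Rf, Rf]
  have e1 : F + SM + (∑ l ∈ Finset.Icc j P.T, A l ^ p) + SE =
      F + SE + SM + ∑ l ∈ Finset.Icc j P.T, A l ^ p := by ring
  have e2 : F + SM + (∑ l ∈ Finset.Icc j P.T, A l ^ p) +
      ∑ l ∈ Finset.Icc (j + 1) P.T, E l ^ p =
      F + (∑ l ∈ Finset.Icc j P.T, A l ^ p) + (∑ l ∈ Finset.Icc (j + 1) P.T, E l ^ p) + SM := by
    ring
  simp only [SE, SM] at e1 e2 step0 step1 step2 step3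
  rw [e1, e2] at step2
  linarith

/-- The weighted total increase above the level of the pair. -/
theorem nrm_incr_total (h : P.Ok x) (hJ : IsLevel x v w J) (hJT : J ≤ P.T) :
    nrm p (fun i => ∑ j ∈ Finset.Icc J P.T, tt j * max 0 (Rf x P j w i - Rf x P j v i)) ≤
      ds x v w * (gainC p * nrm p (Rf x P J v) + 8 * excessSize P * cnt x P J v +
        KK P.L * KK P.L * nrm p (Bf x P J v)) := by
  have hp1 : 1 ≤ p := one_le_p
  have hp0 : 0 < p := by linarith
  have hD := ds_nonneg x v w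
  have htr : ∀ l, tt l * rf x l v w = ds x v w := fun l => tt_mul_rf x l v w
  have hX := excessSize_nonneg h
  have hK := KK_pos P.L
  let XA : I → ℝ := fun i => 2 * ∑ l ∈ Finset.Icc J P.T, tt l * rhoA x P l v w i
  let XE : I → ℝ := fun i => ∑ l ∈ Finset.Icc (J + 1) P.T, tt l * rhoE x P l v w i
  let XL : I → ℝ := fun i => ∑ j ∈ Finset.Icc J P.T, tt j *
    ∑ m ∈ Finset.range P.L, rhoL x P j m v w i
  have hpt : ∀ i, |∑ j ∈ Finset.Icc J P.T, tt j * max 0 (Rf x P j w i - Rf x P j v i)| ≤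
      ds x v w * gainC p * Rf x P J v i + ds x v w * (KK P.L * KK P.L) * Bf x P J v i +
        (XA i + XE i + XL i) := by
    intro i
    rw [abs_of_nonneg (Finset.sum_nonneg fun j _ =>
      mul_nonneg (tt_pos j).le (le_max_left _ _))]
    have hq : p⁻¹ - 1 ≤ 0 := by
      have := inv_le_one_of_one_le₀ hp1; linarith
    let fA := fun l => rf x l v w * aa x P l v i ^ p * Sf x P l v i ^ (p⁻¹ - 1)
    let fE := fun l => rf x l v w * ee x P l v i ^ p * Sf x P (l - 1) v i ^ (p⁻¹ - 1)
    let fB := fun l => KK P.L * rf x l v w * bb x P l v i / P.Γ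
    have hfA : ∀ l, 0 ≤ fA l := fun l => mul_nonneg (mul_nonneg (rf_nonneg x l v w)
      (Real.rpow_nonneg (aa_nonneg l v i) _)) (Real.rpow_nonneg (Sf_pos h l v i).le _)
    have hfE : ∀ l, 0 ≤ fE l := fun l => mul_nonneg (mul_nonneg (rf_nonneg x l v w)
      (Real.rpow_nonneg (ee_nonneg l v i) _)) (Real.rpow_nonneg (Sf_pos h (l - 1) v i).le _)
    have hfB : ∀ l, 0 ≤ fB l := fun l => by
      have := rf_nonneg x l v w
      have := bb_nonneg (x := x) (P := P) l v i
      have := h.pos
      positivity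
    have hterm : ∀ j ∈ Finset.Icc J P.T,
        tt j * max 0 (Rf x P j w i - Rf x P j v i) ≤
        6 * Real.exp (6 * p) * (tt j * ∑ l ∈ Finset.Icc j P.T, fA l) +
        6 * Real.exp (6 * p) * (tt j * ∑ l ∈ Finset.Icc (j + 1) P.T, fE l) +
        tt j * ∑ l ∈ Finset.Icc j P.T, rhoA x P l v w i +
        tt j * ∑ l ∈ Finset.Icc (j + 1) P.T, rhoE x P l v w i +
        tt j * ∑ m ∈ Finset.range P.L, rhoL x P j m v w i +
        tt j * ∑ l ∈ Finset.Icc (j + -((P.L : ℤ) + 1)) P.T, fB l := by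
      intro j hj
      obtain ⟨hjJ, hjT⟩ := Finset.mem_Icc.1 hj
      have hnn : 0 ≤ 6 * Real.exp (6 * p) * (∑ l ∈ Finset.Icc j P.T, fA l) +
          6 * Real.exp (6 * p) * (∑ l ∈ Finset.Icc (j + 1) P.T, fE l) +
          ∑ l ∈ Finset.Icc j P.T, rhoA x P l v w i +
          ∑ l ∈ Finset.Icc (j + 1) P.T, rhoE x P l v w i +
          ∑ m ∈ Finset.range P.L, rhoL x P j m v w i +
          ∑ l ∈ Finset.Icc (j + -((P.L : ℤ) + 1)) P.T, fB l := by
        have a1 : 0 ≤ ∑ l ∈ Finset.Icc j P.T, fA l := Finset.sum_nonneg fun l _ => hfA l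
        have a2 : 0 ≤ ∑ l ∈ Finset.Icc (j + 1) P.T, fE l := Finset.sum_nonneg fun l _ => hfE l
        have a3 : 0 ≤ ∑ l ∈ Finset.Icc j P.T, rhoA x P l v w i :=
          Finset.sum_nonneg fun l _ => le_max_left _ _
        have a4 : 0 ≤ ∑ l ∈ Finset.Icc (j + 1) P.T, rhoE x P l v w i :=
          Finset.sum_nonneg fun l _ => le_max_left _ _
        have a5 : 0 ≤ ∑ m ∈ Finset.range P.L, rhoL x P j m v w i :=
          Finset.sum_nonneg fun l _ => le_max_left _ _
        have a6 : 0 ≤ ∑ l ∈ Finset.Icc (j + -((P.L : ℤ) + 1)) P.T, fB l :=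
          Finset.sum_nonneg fun l _ => hfB l
        positivity
      refine le_trans (mul_le_mul_of_nonneg_left (max_le hnn ?_) (tt_pos j).le) (le_of_eq ?_)
      · refine (Rf_incr h hJ hjJ hjT i).trans ?_
        rw [Finset.sum_div, show j + -((P.L : ℤ) + 1) = j - P.L - 1 by ring]
        have hS := Sf_pos h j v i
        have hanti : ∀ l, j ≤ l → l ≤ P.T →
            Sf x P j v i ^ (p⁻¹ - 1) ≤ Sf x P l v i ^ (p⁻¹ - 1) := fun l hl hlT =>
          Real.rpow_le_rpow_of_nonpos (Sf_pos h l v i) (Sf_anti h hl hlT v i) hq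
        have h1 : (∑ l ∈ Finset.Icc j P.T, rf x l v w * aa x P l v i ^ p) *
            Sf x P j v i ^ (p⁻¹ - 1) ≤ ∑ l ∈ Finset.Icc j P.T, fA l := by
          rw [Finset.sum_mul]
          refine Finset.sum_le_sum fun l hl => mul_le_mul_of_nonneg_left
            (hanti l (Finset.mem_Icc.1 hl).1 (Finset.mem_Icc.1 hl).2)
            (mul_nonneg (rf_nonneg x l v w) (Real.rpow_nonneg (aa_nonneg l v i) _))
        have h2 : (∑ l ∈ Finset.Icc (j + 1) P.T, rf x l v w * ee x P l v i ^ p) *
            Sf x P j v i ^ (p⁻¹ - 1) ≤ ∑ l ∈ Finset.Icc (j + 1) P.T, fE l := by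
          rw [Finset.sum_mul]
          refine Finset.sum_le_sum fun l hl => mul_le_mul_of_nonneg_left
            (hanti (l - 1) (by have := (Finset.mem_Icc.1 hl).1; omega)
              (by have := (Finset.mem_Icc.1 hl).2; omega))
            (mul_nonneg (rf_nonneg x l v w) (Real.rpow_nonneg (ee_nonneg l v i) _))
        have he := (Real.exp_pos (6 * p)).le
        simp only [fB]
        nlinarith [mul_le_mul_of_nonneg_left h1 he, mul_le_mul_of_nonneg_left h2 he]
      · ring
    refine (Finset.sum_le_sum hterm).trans ?_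
    simp only [Finset.sum_add_distrib, ← Finset.mul_sum]
    have sA := sum_swap_geom J P.T 0 fA hfA
    have sE := sum_swap_geom J P.T 1 fE hfE
    have sX := sum_swap_geom J P.T 0 (fun l => rhoA x P l v w i) fun l => le_max_left _ _
    have sY := sum_swap_geom J P.T 1 (fun l => rhoE x P l v w i) fun l => le_max_left _ _
    have sB := sum_swap_geom J P.T (-((P.L : ℤ) + 1)) fB hfB
    simp only [add_zero] at sA sX
    have t0 : tt (-0) = 1 := by simp [tt]
    have t1 : tt (-1) = 1 / 2 := by norm_num [tt]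
    have t2 : tt (- -((P.L : ℤ) + 1)) = 2 ^ (P.L + 1) := by
      rw [neg_neg, ← tt_nat]; push_cast; rfl
    rw [t0] at sA sX
    rw [t1] at sE sY
    rw [t2] at sB
    have eA : ∑ l ∈ Finset.Icc J P.T, tt l * fA l = ds x v w *
        ∑ l ∈ Finset.Icc J P.T, aa x P l v i ^ p * Sf x P l v i ^ (p⁻¹ - 1) := by
      rw [Finset.mul_sum]
      exact Finset.sum_congr rfl fun l _ => by simp only [fA]; rw [← htr l]; ring
    have eE : ∑ l ∈ Finset.Icc (J + 1) P.T, tt l * fE l = ds x v w *
        ∑ l ∈ Finset.Icc (J + 1) P.T, ee x P l v i ^ p * Sf x P (l - 1) v i ^ (p⁻¹ - 1) := by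
      rw [Finset.mul_sum]
      exact Finset.sum_congr rfl fun l _ => by simp only [fE]; rw [← htr l]; ring
    have eB : ∑ l ∈ Finset.Icc (J + -((P.L : ℤ) + 1)) P.T, tt l * fB l =
        ds x v w * KK P.L * Bf x P J v i := by
      rw [Bf, show J + -((P.L : ℤ) + 1) = J - P.L - 1 by ring, Finset.sum_div, Finset.mul_sum]
      exact Finset.sum_congr rfl fun l _ => by simp only [fB]; rw [← htr l]; ring
    rw [eA] at sA
    rw [eE] at sE
    rw [eB] at sB
    have hreg := mul_le_mul_of_nonneg_left (regular_sum h hJT v i)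
      (show 0 ≤ 12 * Real.exp (6 * p) * ds x v w by positivity)
    have hroot : Sf x P J v i ^ p⁻¹ ≤ Rf x P J v i :=
      le_add_of_nonneg_right (Bf_nonneg h J v i)
    have hg := mul_le_mul_of_nonneg_left hroot
      (show 0 ≤ gainC p * ds x v w by unfold gainC; positivity)
    have hE2 : 0 ≤ ∑ l ∈ Finset.Icc (J + 1) P.T,
        ee x P l v i ^ p * Sf x P (l - 1) v i ^ (p⁻¹ - 1) :=
      Finset.sum_nonneg fun l _ => mul_nonneg (Real.rpow_nonneg (ee_nonneg l v i) _)
        (Real.rpow_nonneg (Sf_pos h _ v i).le _)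
    have hBB : 2 * 2 ^ (P.L + 1) * (ds x v w * KK P.L * Bf x P J v i) ≤
        ds x v w * (KK P.L * KK P.L) * Bf x P J v i := by
      have h2 : (2 : ℝ) * 2 ^ (P.L + 1) ≤ KK P.L := by
        rw [mul_comm, ← pow_succ]; exact two_pow_le_KK (by omega)
      have := mul_le_mul_of_nonneg_right h2
        (show 0 ≤ ds x v w * KK P.L * Bf x P J v i by
          have := Bf_nonneg h J v i; positivity)
      linarith
    have he := (Real.exp_pos (6 * p)).le
    simp only [XA, XE, XL]
    unfold gainC at hg ⊢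
    nlinarith [mul_le_mul_of_nonneg_left sA he, mul_le_mul_of_nonneg_left sE he,
      mul_nonneg (mul_nonneg he hD) hE2]
  refine (nrm_le_add (a := fun i => ds x v w * gainC p * Rf x P J v i +
    ds x v w * (KK P.L * KK P.L) * Bf x P J v i) (b := fun i => XA i + XE i + XL i) hpt).trans ?_
  have hA : nrm p XA ≤ 2 * (ds x v w * excessSize P * cnt x P J v) := by
    simp only [XA, cnt]
    rw [nrm_mul two_pos.le]
    refine mul_le_mul_of_nonneg_left ?_ two_pos.le
    rw [Finset.mul_sum]
    refine (nrm_weighted_le _ _ (fun l _ => (tt_pos l).le) fun l => rhoA x P l v w).trans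
      (Finset.sum_le_sum fun l hl => ?_)
    refine (mul_le_mul_of_nonneg_left (nrm_rhoA h hJ (Finset.mem_Icc.1 hl).1)
      (tt_pos l).le).trans_eq ?_
    rw [← htr l]; ring
  have hE : nrm p XE ≤ 2 * (ds x v w * excessSize P * cnt x P J v) := by
    simp only [XE]
    refine (nrm_weighted_le _ _ (fun l _ => (tt_pos l).le) fun l => rhoE x P l v w).trans ?_
    calc ∑ l ∈ Finset.Icc (J + 1) P.T, tt l * nrm p (rhoE x P l v w)
        ≤ ∑ l ∈ Finset.Icc (J + 1) P.T,
            ds x v w * excessSize P * (irr x P l v + irr x P (l - 1) v) := by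
          refine Finset.sum_le_sum fun l hl => ?_
          refine (mul_le_mul_of_nonneg_left
            (nrm_rhoE h hJ (by have := (Finset.mem_Icc.1 hl).1; omega)) (tt_pos l).le).trans_eq ?_
          rw [← htr l]; ring
      _ = ds x v w * excessSize P * (cnt x P (J + 1) v +
            ∑ l ∈ Finset.Icc (J + 1) P.T, irr x P (l - 1) v) := by
          rw [← Finset.mul_sum, Finset.sum_add_distrib]; rfl
      _ ≤ ds x v w * excessSize P * (cnt x P J v + cnt x P J v) := by
          refine mul_le_mul_of_nonneg_left (add_le_add (cnt_anti (by omega) v) ?_) (by positivity)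
          rw [show ∑ l ∈ Finset.Icc (J + 1) P.T, irr x P (l - 1) v =
              ∑ l ∈ (Finset.Icc (J + 1) P.T).image (fun l => l - 1), irr x P l v by
            rw [Finset.sum_image]; intro a _ b _ hab; simpa using hab]
          exact Finset.sum_le_sum_of_subset_of_nonneg (fun l hl => by
            simp only [Finset.mem_image, Finset.mem_Icc] at hl ⊢
            obtain ⟨a, ⟨h1, h2⟩, rfl⟩ := hl; omega) fun l _ _ => irr_nonneg l v
      _ = _ := by ring
  have hL : nrm p XL ≤ 2 * (ds x v w * excessSize P * cnt x P J v) := by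
    simp only [XL, cnt]
    refine (nrm_weighted_le _ _ (fun l _ => (tt_pos l).le)
      fun j i => ∑ m ∈ Finset.range P.L, rhoL x P j m v w i).trans ?_
    rw [Finset.mul_sum, Finset.mul_sum]
    refine Finset.sum_le_sum fun j hj => ?_
    refine (mul_le_mul_of_nonneg_left ((nrm_sum_le (Finset.range P.L)
      fun m => rhoL x P j m v w).trans (Finset.sum_le_sum fun m _ =>
        nrm_rhoL h hJ (Finset.mem_Icc.1 hj).1 m)) (tt_pos j).le).trans ?_
    have hgeo : ∑ m ∈ Finset.range P.L, (1 / 2 : ℝ) ^ (m + 1) ≤ 1 := by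
      simp only [pow_succ, ← Finset.sum_mul]
      have := sum_geometric_two_le P.L
      linarith
    have e : ∀ m : ℕ, 2 * excessSize P * rf x j v w * (1 / 2) ^ (m + 1) * irr x P j v =
        2 * excessSize P * rf x j v w * irr x P j v * (1 / 2) ^ (m + 1) := fun m => by ring
    simp only [e, ← Finset.mul_sum]
    have h0 : 0 ≤ tt j * (2 * excessSize P * rf x j v w * irr x P j v) := by
      have := tt_pos j
      have := rf_nonneg x j v w
      have := irr_nonneg (x := x) (P := P) j v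
      positivity
    have := mul_le_mul_of_nonneg_left hgeo h0
    rw [← htr j]
    linarith
  have hR : nrm p (fun i => ds x v w * gainC p * Rf x P J v i +
      ds x v w * (KK P.L * KK P.L) * Bf x P J v i) ≤
      ds x v w * gainC p * nrm p (Rf x P J v) +
        ds x v w * (KK P.L * KK P.L) * nrm p (Bf x P J v) := by
    refine (nrm_add_le _ _).trans (le_of_eq ?_)
    rw [nrm_mul (by unfold gainC; positivity), nrm_mul (by positivity)]
  have hXX : nrm p (fun i => XA i + XE i + XL i) ≤ nrm p XA + nrm p XE + nrm p XL :=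
    (nrm_add_le (fun i => XA i + XE i) XL).trans (by linarith [nrm_add_le (p := p) XA XE])
  have : 0 ≤ ds x v w * excessSize P * cnt x P J v := by
    have := cnt_nonneg (x := x) (P := P) J v; positivity
  linarith

end Vale.Agent.P249.Full
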