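import Vale.Agent.P249.Full.Centres

/-!
Behaviour of the cut-offs, weights and crude envelopes under a change of the base point.
-/

namespace Vale.Agent.P249.Full

open Finset Vale.Agent.P249.Sub

set_option linter.unusedSectionVars false
set_option linter.unusedVariables false

variable {p : ℝ} [hp : Fact (1 ≤ ENNReal.ofReal p)] {V I : Type*} [Fintype V] [Fintype I]

/-- A constant depending on the maximal lag only. -/
noncomputable def KK (L : ℕ) : ℝ := Real.exp ((2 : ℝ) ^ (3 * L + 10))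

lemma pow_le_KK {L a b : ℕ} (ha : a ≤ 3 * L + 9) (hb : b ≤ 3 * L + 9) :
    (2 : ℝ) ^ a * Real.exp ((2 : ℝ) ^ b) ≤ KK L := by
  have h1 : (2 : ℝ) ^ a ≤ Real.exp ((2 : ℝ) ^ a) := by
    linarith [Real.add_one_le_exp ((2 : ℝ) ^ a)]
  refine (mul_le_mul_of_nonneg_right h1 (Real.exp_pos _).le).trans ?_
  rw [← Real.exp_add, KK]
  refine Real.exp_le_exp.2 ?_
  have h2 : (2 : ℝ) ^ a ≤ 2 ^ (3 * L + 9) := pow_le_pow_right₀ one_le_two ha
  have h3 : (2 : ℝ) ^ b ≤ 2 ^ (3 * L + 9) := pow_le_pow_right₀ one_le_two hb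
  rw [show 3 * L + 10 = 3 * L + 9 + 1 by ring, pow_succ]
  linarith

lemma KK_pos (L : ℕ) : 0 < KK L := Real.exp_pos _

lemma one_le_KK (L : ℕ) : 1 ≤ KK L := Real.one_le_exp (by positivity)

lemma two_pow_le_KK {L a : ℕ} (ha : a ≤ 3 * L + 9) : (2 : ℝ) ^ a ≤ KK L := by
  refine le_trans ?_ (pow_le_KK (b := 0) ha (by omega))
  exact le_mul_of_one_le_right (by positivity) (Real.one_le_exp (by norm_num))

lemma natCast_le_two_pow (L : ℕ) : (L : ℝ) ≤ 2 ^ L := by exact_mod_cast Nat.lt_two_pow_self.le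

/-- The reference level of a pair: the first scale at least as large as the distance. -/
structure IsLevel (x : V → Ell p I) (v w : V) (J : ℤ) : Prop where
  le : ds x v w ≤ tt J
  ge : tt J ≤ 2 * ds x v w

variable {x : V → Ell p I} {P : Prm} {v w : V} {J : ℤ}

lemma IsLevel.symm (hJ : IsLevel x v w J) : IsLevel x w v J :=
  ⟨by rw [ds_comm]; exact hJ.le, by rw [ds_comm]; exact hJ.ge⟩

lemma rf_le_one (hJ : IsLevel x v w J) {j : ℤ} (hj : J ≤ j) : rf x j v w ≤ 1 :=
  (div_le_one (tt_pos j)).2 (hJ.le.trans (tt_mono hj))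

lemma rf_le_pow (hJ : IsLevel x v w J) {j : ℤ} {k : ℕ} (hj : J - k ≤ j) :
    rf x j v w ≤ 2 ^ k := by
  refine (rf_anti x hj v w).trans ?_
  rw [rf_sub_nat]
  exact mul_le_of_le_one_right (by positivity) (rf_le_one hJ le_rfl)

lemma log_le (h : P.Ok x) : Real.log (Fintype.card V) ≤ KK P.L * P.Γ := by
  refine h.lag_bound.le.trans (mul_le_mul_of_nonneg_right ?_ h.pos.le)
  exact (natCast_le_two_pow _).trans (two_pow_le_KK (by omega))

lemma abs_prod_sub {K : Type*} (s : Finset K) (a b : K → ℝ) (ha : ∀ k, 0 ≤ a k ∧ a k ≤ 1)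
    (hb : ∀ k, 0 ≤ b k ∧ b k ≤ 1) :
    |∏ k ∈ s, a k - ∏ k ∈ s, b k| ≤ ∑ k ∈ s, |a k - b k| := by
  classical
  induction s using Finset.induction_on with
  | empty => simp
  | insert c s hc ih =>
    rw [Finset.prod_insert hc, Finset.prod_insert hc, Finset.sum_insert hc]
    have e : a c * ∏ k ∈ s, a k - b c * ∏ k ∈ s, b k =
        (a c - b c) * ∏ k ∈ s, a k + b c * (∏ k ∈ s, a k - ∏ k ∈ s, b k) := by ring
    rw [e]
    refine (abs_add_le _ _).trans (add_le_add ?_ ?_)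
    · rw [abs_mul]
      refine mul_le_of_le_one_right (abs_nonneg _) ?_
      rw [abs_of_nonneg (Finset.prod_nonneg fun k _ => (ha k).1)]
      exact Finset.prod_le_one (fun k _ => (ha k).1) fun k _ => (ha k).2
    · rw [abs_mul, abs_of_nonneg (hb c).1]
      exact (mul_le_of_le_one_left (abs_nonneg _) (hb c).2).trans ih

lemma sum_two_pow (m : ℕ) : ∑ q ∈ Finset.range m, (2 : ℝ) ^ q ≤ 2 ^ m := by
  induction m with
  | zero => simp
  | succ m ih => rw [Finset.sum_range_succ, pow_succ]; linarith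

lemma abs_pw_sub (h : P.Ok x) (j : ℤ) (v w : V) (m : ℕ) :
    |pw x P j w m - pw x P j v m| ≤ 2 ^ (m + 2) * rf x j v w / P.Γ := by
  have hk : ∀ q : ℕ, |kap x P (j - q) w - kap x P (j - q) v| ≤
      2 * rf x j v w / P.Γ * 2 ^ q := fun q => by
    refine (cut_lip h (j - q) v w).1.trans_eq ?_
    rw [rf_sub_nat]; ring
  have hr : 0 ≤ 2 * rf x j v w / P.Γ := by
    have := rf_nonneg x j v w
    have := h.pos
    positivity
  simp only [pw]
  have e : kap x P (j - m) w * ∏ q ∈ Finset.range m, (1 - kap x P (j - q) w) -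
      kap x P (j - m) v * ∏ q ∈ Finset.range m, (1 - kap x P (j - q) v) =
      (kap x P (j - m) w - kap x P (j - m) v) * ∏ q ∈ Finset.range m, (1 - kap x P (j - q) w) +
      kap x P (j - m) v * (∏ q ∈ Finset.range m, (1 - kap x P (j - q) w) -
        ∏ q ∈ Finset.range m, (1 - kap x P (j - q) v)) := by ring
  rw [e]
  refine (abs_add_le _ _).trans ?_
  have h1 : |(kap x P (j - m) w - kap x P (j - m) v) *
      ∏ q ∈ Finset.range m, (1 - kap x P (j - q) w)| ≤ 2 * rf x j v w / P.Γ * 2 ^ m := by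
    rw [abs_mul, abs_of_nonneg (Finset.prod_nonneg fun q _ => sub_nonneg.2 (kap_le_one x P _ w))]
    exact (mul_le_of_le_one_right (abs_nonneg _) (Finset.prod_le_one
      (fun q _ => sub_nonneg.2 (kap_le_one x P _ w))
      fun q _ => by linarith [kap_nonneg x P (j - q) w])).trans (hk m)
  have h2 : |kap x P (j - m) v * (∏ q ∈ Finset.range m, (1 - kap x P (j - q) w) -
      ∏ q ∈ Finset.range m, (1 - kap x P (j - q) v))| ≤ 2 * rf x j v w / P.Γ * 2 ^ m := by
    rw [abs_mul, abs_of_nonneg (kap_nonneg x P _ v)]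
    refine (mul_le_of_le_one_left (abs_nonneg _) (kap_le_one x P _ v)).trans ?_
    refine (abs_prod_sub _ _ _ (fun q => ⟨sub_nonneg.2 (kap_le_one x P _ w),
      by linarith [kap_nonneg x P (j - q) w]⟩) (fun q => ⟨sub_nonneg.2 (kap_le_one x P _ v),
      by linarith [kap_nonneg x P (j - q) v]⟩)).trans ?_
    calc ∑ q ∈ Finset.range m, |1 - kap x P (j - q) w - (1 - kap x P (j - q) v)|
        ≤ ∑ q ∈ Finset.range m, 2 * rf x j v w / P.Γ * 2 ^ q := Finset.sum_le_sum fun q _ => by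
          rw [sub_sub_sub_cancel_left, abs_sub_comm]; exact hk q
      _ ≤ _ := by rw [← Finset.mul_sum]; exact mul_le_mul_of_nonneg_left (sum_two_pow m) hr
  refine (add_le_add h1 h2).trans_eq ?_
  ring

lemma abs_qq_sub (h : P.Ok x) (j : ℤ) (v w : V) (m : ℕ) :
    |qq x P j w m - qq x P j v m| ≤ 4 * (1 / 2) ^ m * rf x j v w / P.Γ := by
  rw [qq, qq, ← mul_sub, abs_mul, abs_of_nonneg (by positivity)]
  have hr : 0 ≤ 4 * rf x j v w / P.Γ := by
    have := rf_nonneg x j v w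
    have := h.pos
    positivity
  have h1 : |∏ q ∈ Finset.range m, nu x P (j - q) w - ∏ q ∈ Finset.range m, nu x P (j - q) v| ≤
      4 * rf x j v w / P.Γ * 2 ^ m := by
    refine (abs_prod_sub _ _ _ (fun q => ⟨nu_nonneg x P _ w, nu_le_one x P _ w⟩)
      (fun q => ⟨nu_nonneg x P _ v, nu_le_one x P _ v⟩)).trans ?_
    calc ∑ q ∈ Finset.range m, |nu x P (j - q) w - nu x P (j - q) v|
        ≤ ∑ q ∈ Finset.range m, 4 * rf x j v w / P.Γ * 2 ^ q := Finset.sum_le_sum fun q _ => by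
          refine (cut_lip h (j - q) v w).2.2.trans_eq ?_
          rw [rf_sub_nat]; ring
      _ ≤ _ := by rw [← Finset.mul_sum]; exact mul_le_mul_of_nonneg_left (sum_two_pow m) hr
  refine (mul_le_mul_of_nonneg_left h1 (by positivity)).trans_eq ?_
  have : (1 / 4 : ℝ) ^ m * 2 ^ m = (1 / 2) ^ m := by rw [← mul_pow]; norm_num
  rw [← this]
  ring

lemma bb_lip (hJ : IsLevel x v w J) {l : ℤ} (hl : J - P.L - 1 ≤ l) (i : I) :
    bb x P l w i ≤ KK P.L * bb x P l v i ∧
      bb x P l w i - bb x P l v i ≤ KK P.L * rf x l v w * bb x P l v i := by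
  have hr0 := rf_nonneg x l v w
  have hr := rf_le_pow hJ (k := P.L + 1) (j := l) (by push_cast; omega)
  set y := 2 ^ (P.L + 3) * rf x l v w with hy
  have hyle : y ≤ 2 ^ (2 * P.L + 4) := by
    rw [hy, show 2 * P.L + 4 = (P.L + 3) + (P.L + 1) by ring, pow_add (2 : ℝ) (P.L + 3) (P.L + 1)]
    exact mul_le_mul_of_nonneg_left hr (by positivity)
  have h0 := bb_nonneg (x := x) (P := P) l v i
  have h1 : bb x P l w i ≤ Real.exp y * bb x P l v i := by
    rw [bb, bb, mul_div_assoc']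
    refine div_le_div_of_nonneg_right ?_ (tt_pos l).le
    rw [Finset.mul_sum]
    refine Finset.sum_le_sum fun m hm => (Qf_le_both x l (l - m) v w i).trans ?_
    refine mul_le_mul_of_nonneg_right (Real.exp_le_exp.2 ?_) (Qf_nonneg x l v _ v i)
    rw [rf_sub_nat, hy]
    have hmm : (2 : ℝ) ^ m ≤ 2 ^ (P.L + 1) :=
      pow_le_pow_right₀ one_le_two (Nat.lt_succ_iff.1 (Finset.mem_range.1 hm))
    rw [show P.L + 3 = (P.L + 1) + 2 by ring, pow_add]
    have h12 : (1 : ℝ) ≤ 2 ^ (P.L + 1) := one_le_pow₀ one_le_two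
    nlinarith
  have hex : Real.exp y ≤ Real.exp ((2 : ℝ) ^ (2 * P.L + 4)) := Real.exp_le_exp.2 hyle
  constructor
  · refine h1.trans (mul_le_mul_of_nonneg_right (hex.trans ?_) h0)
    simpa using pow_le_KK (L := P.L) (a := 0) (b := 2 * P.L + 4) (by omega) (by omega)
  · have h2 : Real.exp y - 1 ≤ KK P.L * rf x l v w := by
      refine (exp_sub_one_le y).trans ?_
      have h3 := pow_le_KK (L := P.L) (a := P.L + 3) (b := 2 * P.L + 4) (by omega) (by omega)
      calc y * Real.exp y ≤ y * Real.exp ((2 : ℝ) ^ (2 * P.L + 4)) :=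
            mul_le_mul_of_nonneg_left hex (by positivity)
        _ = 2 ^ (P.L + 3) * Real.exp ((2 : ℝ) ^ (2 * P.L + 4)) * rf x l v w := by rw [hy]; ring
        _ ≤ _ := mul_le_mul_of_nonneg_right h3 hr0
    calc bb x P l w i - bb x P l v i ≤ (Real.exp y - 1) * bb x P l v i := by linarith
      _ ≤ _ := mul_le_mul_of_nonneg_right h2 h0

lemma Bf_lip (h : P.Ok x) (hJ : IsLevel x v w J) {j : ℤ} (hj : J ≤ j) (i : I) :
    Bf x P j w i ≤ KK P.L * Bf x P j v i ∧ Bf x P j w i - Bf x P j v i ≤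
      (∑ l ∈ Finset.Icc (j - P.L - 1) P.T, KK P.L * rf x l v w * bb x P l v i) / P.Γ := by
  constructor
  · rw [Bf, Bf, mul_div_assoc', Finset.mul_sum]
    refine div_le_div_of_nonneg_right (Finset.sum_le_sum fun l hl => ?_) h.pos.le
    exact (bb_lip hJ (by have := (Finset.mem_Icc.1 hl).1; omega) i).1
  · rw [Bf, Bf, ← sub_div, ← Finset.sum_sub_distrib]
    refine div_le_div_of_nonneg_right (Finset.sum_le_sum fun l hl => ?_) h.pos.le
    exact (bb_lip hJ (by have := (Finset.mem_Icc.1 hl).1; omega) i).2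

/-- Swapping a geometric double sum. -/
lemma sum_swap_geom (J T c : ℤ) (f : ℤ → ℝ) (hf : ∀ l, 0 ≤ f l) :
    ∑ j ∈ Finset.Icc J T, tt j * ∑ l ∈ Finset.Icc (j + c) T, f l ≤
      2 * tt (-c) * ∑ l ∈ Finset.Icc (J + c) T, tt l * f l := by
  simp only [Finset.mul_sum]
  rw [Finset.sum_comm' (t' := Finset.Icc (J + c) T)
    (s' := fun l => Finset.Icc J (min T (l - c))) (fun j l => by
      simp only [Finset.mem_Icc, le_min_iff]; omega)]
  refine Finset.sum_le_sum fun l _ => ?_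
  rw [← Finset.sum_mul, ← mul_assoc]
  refine mul_le_mul_of_nonneg_right ((sum_tt_le _ _).trans ?_) (hf l)
  rw [mul_assoc, ← tt_add]
  exact mul_le_mul_of_nonneg_left (tt_mono (by omega)) two_pos.le

end Vale.Agent.P249.Full
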