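import Vale.Agent.P249.Full.Feature

/-!
Norm of the envelope, and the resulting distortion of one variant of the feature map.
-/

namespace Vale.Agent.P249.Full

open Finset Vale.Agent.P249.Sub

set_option linter.unusedSectionVars false
set_option linter.unusedVariables false

variable {p : ℝ} [hp : Fact (1 ≤ ENNReal.ofReal p)] {V I : Type*} [Fintype V] [Fintype I]

/-- The size of the envelope. -/
noncomputable def envSize (p : ℝ) (N Γ : ℝ) : ℝ := (1 + 24 * N * (16 * Γ) ^ (p - 1)) ^ p⁻¹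

/-- Absolute constant of the distortion of one variant. -/
noncomputable def pairC (p : ℝ) : ℝ := 12 * (2 * mainC p + 100000)

variable {x : V → Ell p I} {P : Prm}

lemma sum_gf_shift (s : Finset ℤ) (c : ℤ) (v : V) :
    ∑ l ∈ s, gf x (l - c) v ≤ Real.log (Fintype.card V) := by
  rw [show ∑ l ∈ s, gf x (l - c) v = ∑ l ∈ s.image (fun l => l - c), gf x l v by
    rw [Finset.sum_image]; intro a _ c' _ hac; simpa using hac]
  exact sum_gf_le x _ v

lemma nrm_ee_le (h : P.Ok x) (l : ℤ) (v : V) :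
    nrm p (ee x P l v) ≤ 16 * P.Γ ∧ nrm p (ee x P l v) ≤
      2 * gf x l v + ∑ m ∈ Finset.range P.L, (1 / 2) ^ (m + 1) * (2 * gf x (l - 1 - m) v) := by
  have hΓ := h.pos
  have h1 : nrm p (ee x P l v) ≤ xi x P l v * ∑ m ∈ Finset.range P.L, pw x P (l - 1) v m *
      (Gf x l v + (1 / 2) ^ (m + 1) * Gf x (l - 1 - m) v) := by
    refine (nrm_le_mul (c := xi x P l v / tt l) (g := fun i => ∑ m ∈ Finset.range P.L,
      pw x P (l - 1) v m * Qf x l v (l - 1 - m) v i)
      (div_nonneg (xi_nonneg x P l v) (tt_pos l).le) fun i => ?_).trans ?_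
    · rw [abs_of_nonneg (ee_nonneg l v i), ee]; exact le_of_eq (by ring)
    · refine (mul_le_mul_of_nonneg_left (nrm_weighted_le (Finset.range P.L) (pw x P (l - 1) v)
        (fun m _ => pw_nonneg x P _ v m) fun m i => Qf x l v (l - 1 - m) v i)
        (div_nonneg (xi_nonneg x P l v) (tt_pos l).le)).trans ?_
      rw [div_mul_eq_mul_div, mul_div_assoc, Finset.sum_div]
      refine mul_le_mul_of_nonneg_left (Finset.sum_le_sum fun m _ => ?_) (xi_nonneg x P l v)
      rw [mul_div_assoc]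
      refine mul_le_mul_of_nonneg_left ?_ (pw_nonneg x P _ v m)
      rw [div_le_iff₀ (tt_pos l)]
      refine (nrm_QQ x l v _).trans_eq ?_
      rw [show l - 1 - (m : ℤ) = l - ((m + 1 : ℕ) : ℤ) by push_cast; ring, tt_sub_nat,
        div_pow, one_pow]
      field_simp
  have hG := Gf_nonneg x l v
  have hG' := fun m : ℕ => Gf_nonneg x (l - 1 - m) v
  refine ⟨h1.trans ?_, h1.trans ?_⟩
  · rcases eq_or_lt_of_le (xi_nonneg x P l v) with hz | hz
    · rw [← hz, zero_mul]; linarith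
    refine (mul_le_mul_of_nonneg_left (Finset.sum_le_sum (g := fun m =>
      pw x P (l - 1) v m * (12 * P.Γ)) fun m _ => ?_) hz.le).trans ?_
    · rcases eq_or_lt_of_le (pw_nonneg x P (l - 1) v m) with hz' | hz'
      · rw [← hz', zero_mul, zero_mul]
      refine mul_le_mul_of_nonneg_left ?_ hz'.le
      have a1 : Gf x l v ≤ 8 * P.Γ := by linarith [Gf_le x l v, gf_lt_of_xi_pos h hz]
      have a2 : Gf x (l - 1 - m) v ≤ 4 * P.Γ := by
        linarith [Gf_le x (l - 1 - m) v, gf_lt_of_kap_pos h (of_pw_pos x P hz').1]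
      have a3 := mul_le_of_le_one_left (hG' m)
        (pow_le_one₀ (by norm_num) (by norm_num : (1 / 2 : ℝ) ≤ 1) (n := m + 1))
      linarith
    · rw [← Finset.sum_mul, sum_pw h, one_mul]
      refine (mul_le_of_le_one_left (by linarith) (xi_le_one x P l v)).trans ?_
      linarith
  · refine (mul_le_of_le_one_left (Finset.sum_nonneg fun m _ => mul_nonneg (pw_nonneg x P _ v m)
      (add_nonneg hG (mul_nonneg (by positivity) (hG' m)))) (xi_le_one x P l v)).trans ?_
    simp only [mul_add, Finset.sum_add_distrib, ← Finset.sum_mul]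
    rw [sum_pw h, one_mul]
    refine add_le_add (Gf_le x l v) (Finset.sum_le_sum fun m _ => ?_)
    refine (mul_le_of_le_one_left (mul_nonneg (by positivity) (hG' m))
      (pw_le_one x P _ v m)).trans ?_
    exact mul_le_mul_of_nonneg_left (Gf_le x _ v) (by positivity)

lemma sum_half_pow (L : ℕ) : ∑ m ∈ Finset.range L, (1 / 2 : ℝ) ^ (m + 1) ≤ 1 := by
  simp only [pow_succ, ← Finset.sum_mul]
  have := sum_geometric_two_le L
  linarith

lemma sum_nrm_ee (h : P.Ok x) (s : Finset ℤ) (v : V) :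
    ∑ l ∈ s, nrm p (ee x P l v) ≤ 4 * Real.log (Fintype.card V) := by
  refine (Finset.sum_le_sum fun l _ => (nrm_ee_le h l v).2).trans ?_
  rw [Finset.sum_add_distrib, ← Finset.mul_sum, Finset.sum_comm]
  have h1 := mul_le_mul_of_nonneg_left (sum_gf_le x s v) (two_pos (α := ℝ)).le
  have h2 : ∑ m ∈ Finset.range P.L, ∑ l ∈ s, (1 / 2 : ℝ) ^ (m + 1) * (2 * gf x (l - 1 - m) v) ≤
      2 * Real.log (Fintype.card V) := by
    calc ∑ m ∈ Finset.range P.L, ∑ l ∈ s, (1 / 2 : ℝ) ^ (m + 1) * (2 * gf x (l - 1 - m) v)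
        ≤ ∑ m ∈ Finset.range P.L, (1 / 2 : ℝ) ^ (m + 1) * (2 * Real.log (Fintype.card V)) := by
          refine Finset.sum_le_sum fun m _ => ?_
          rw [← Finset.mul_sum, ← Finset.mul_sum]
          refine mul_le_mul_of_nonneg_left (mul_le_mul_of_nonneg_left ?_ two_pos.le) (by positivity)
          simpa only [sub_sub] using sum_gf_shift (x := x) s (1 + (m : ℤ)) v
      _ ≤ _ := by
          rw [← Finset.sum_mul]
          exact mul_le_of_le_one_left (by have := Real.log_natCast_nonneg (Fintype.card V); positivity)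
            (sum_half_pow P.L)
  linarith

lemma sum_rpow_bound {K : Type*} (hp1 : 1 ≤ p) (s : Finset K) (a : K → ℝ) (ha : ∀ k, 0 ≤ a k)
    {M : ℝ} (hM : ∀ k, a k ≤ M) : ∑ k ∈ s, a k ^ p ≤ M ^ (p - 1) * ∑ k ∈ s, a k := by
  rw [Finset.mul_sum]
  refine Finset.sum_le_sum fun k _ => ?_
  calc a k ^ p = a k ^ (p - 1) * a k := by
        rw [← Real.rpow_add_one' (ha k) (by linarith), sub_add_cancel]
    _ ≤ _ := mul_le_mul_of_nonneg_right (Real.rpow_le_rpow (ha k) (hM k) (by linarith)) (ha k)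

lemma nrm_aa_le_gf (h : P.Ok x) (l : ℤ) (v : V) : nrm p (aa x P l v) ≤ 4 * gf x l v := by
  refine (nrm_aa_le h l v).1.trans ?_
  refine (mul_le_of_le_one_left (by have := Gf_nonneg x l v; positivity)
    (xi_le_one x P l v)).trans ?_
  linarith [Gf_le x l v]

lemma sum_Sf_le (h : P.Ok x) (hfl : Fintype.card I * P.floor ^ p ≤ 1)
    (hΓN : P.Γ ≤ Real.log (Fintype.card V)) (j : ℤ) (v : V) :
    ∑ i, Sf x P j v i ≤ 1 + 24 * Real.log (Fintype.card V) * (16 * P.Γ) ^ (p - 1) := by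
  have hp1 : 1 ≤ p := one_le_p
  have hp0 : 0 < p := by linarith
  have hΓ := h.pos
  set N := Real.log (Fintype.card V)
  set M := (16 * P.Γ) ^ (p - 1) with hM
  have hM0 : 0 ≤ M := Real.rpow_nonneg (by positivity) _
  have e : ∀ f : I → ℝ, (∀ i, 0 ≤ f i) → ∑ i, f i ^ p = nrm p f ^ p := fun f hf => by
    rw [nrm_rpow]; exact Finset.sum_congr rfl fun i _ => by rw [abs_of_nonneg (hf i)]
  simp only [Sf, Finset.sum_add_distrib]
  have ea : ∑ i, ∑ l ∈ Finset.Icc j P.T, aa x P l v i ^ p =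
      ∑ l ∈ Finset.Icc j P.T, nrm p (aa x P l v) ^ p :=
    Finset.sum_comm.trans (Finset.sum_congr rfl fun l _ => e (aa x P l v) (aa_nonneg l v))
  have eb : ∑ i, ∑ l ∈ Finset.Icc (j + 1) P.T, ee x P l v i ^ p =
      ∑ l ∈ Finset.Icc (j + 1) P.T, nrm p (ee x P l v) ^ p :=
    Finset.sum_comm.trans (Finset.sum_congr rfl fun l _ => e (ee x P l v) (ee_nonneg l v))
  have ec : ∑ i, ∑ m ∈ Finset.range P.L, lag x P j v i m ^ p =
      ∑ m ∈ Finset.range P.L, nrm p (fun i => lag x P j v i m) ^ p :=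
    Finset.sum_comm.trans (Finset.sum_congr rfl fun m _ =>
      e (fun i => lag x P j v i m) (fun i => lag_nonneg j v i m))
  rw [ea, eb, ec]
  have h0 : ∑ _i : I, P.floor ^ p ≤ 1 := by simpa using hfl
  have h1 : ∑ l ∈ Finset.Icc j P.T, nrm p (aa x P l v) ^ p ≤ M * (4 * N) := by
    refine (sum_rpow_bound hp1 _ _ (fun l => nrm_nonneg _) fun l => (nrm_aa_le h l v).2).trans ?_
    refine mul_le_mul_of_nonneg_left ((Finset.sum_le_sum fun l _ => nrm_aa_le_gf h l v).trans ?_) hM0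
    rw [← Finset.mul_sum]
    exact mul_le_mul_of_nonneg_left (sum_gf_le x _ v) (by norm_num)
  have h2 : ∑ l ∈ Finset.Icc (j + 1) P.T, nrm p (ee x P l v) ^ p ≤ M * (4 * N) :=
    (sum_rpow_bound hp1 _ _ (fun l => nrm_nonneg _) fun l => (nrm_ee_le h l v).1).trans
      (mul_le_mul_of_nonneg_left (sum_nrm_ee h _ v) hM0)
  have h3 : ∑ m ∈ Finset.range P.L, nrm p (fun i => lag x P j v i m) ^ p ≤ M * (16 * N) := by
    have hb : ∀ m, nrm p (fun i => lag x P j v i m) ≤ (1 / 2) ^ (m + 1) * (16 * P.Γ) := by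
      intro m
      simp only [lag]
      rw [nrm_mul (qq_nonneg j v _)]
      exact mul_le_mul ((qq_le j v _).trans (pow_le_pow_left₀ (by norm_num) (by norm_num) _))
        (nrm_aa_le h _ v).2 (nrm_nonneg _) (by positivity)
    refine (sum_rpow_bound hp1 _ _ (fun m => nrm_nonneg _) fun m => (hb m).trans
      (mul_le_of_le_one_left (by positivity)
        (pow_le_one₀ (by norm_num) (by norm_num)))).trans ?_
    refine mul_le_mul_of_nonneg_left ((Finset.sum_le_sum fun m _ => hb m).trans ?_) hM0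
    rw [← Finset.sum_mul]
    exact (mul_le_of_le_one_left (by positivity) (sum_half_pow P.L)).trans (by linarith)
  linarith

lemma nrm_Bf_le (h : P.Ok x) (j : ℤ) (v : V) : nrm p (Bf x P j v) ≤ KK P.L := by
  have hΓ := h.pos
  set N := Real.log (Fintype.card V)
  have hN : N ≤ 2 ^ P.L * P.Γ :=
    h.lag_bound.le.trans (mul_le_mul_of_nonneg_right (natCast_le_two_pow _) hΓ.le)
  refine (nrm_le_mul (c := 1 / P.Γ)
    (g := fun i => ∑ l ∈ Finset.Icc (j - P.L - 1) P.T, bb x P l v i) (by positivity)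
    fun i => ?_).trans ?_
  · rw [abs_of_nonneg (Bf_nonneg h j v i), Bf]; exact le_of_eq (by ring)
  have hb : ∀ l, nrm p (bb x P l v) ≤
      ∑ m ∈ Finset.range (P.L + 2), (2 * gf x l v + 2 * gf x (l - (m : ℕ)) v) := by
    intro l
    refine (nrm_le_mul (c := 1 / tt l)
      (g := fun i => ∑ m ∈ Finset.range (P.L + 2), Qf x l v (l - m) v i)
      (by have := tt_pos l; positivity) fun i => ?_).trans ?_
    · rw [abs_of_nonneg (bb_nonneg l v i), bb]; exact le_of_eq (by ring)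
    refine (mul_le_mul_of_nonneg_left (nrm_sum_le (Finset.range (P.L + 2))
      fun m => Qf x l v (l - (m : ℕ)) v) (by have := tt_pos l; positivity)).trans ?_
    rw [Finset.mul_sum]
    refine Finset.sum_le_sum fun m _ => ?_
    rw [div_mul_eq_mul_div, one_mul, div_le_iff₀ (tt_pos l), add_mul]
    refine (nrm_QQ x l v _).trans (add_le_add ?_ ?_)
    · rw [mul_comm]; exact mul_le_mul_of_nonneg_right (Gf_le x l v) (tt_pos l).le
    · rw [mul_comm (2 * gf x (l - m) v)]
      exact mul_le_mul (tt_mono (by omega)) (Gf_le x _ v) (Gf_nonneg x _ v) (tt_pos l).le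
  refine (mul_le_mul_of_nonneg_left ((nrm_sum_le (Finset.Icc (j - P.L - 1) P.T)
    fun l => bb x P l v).trans ((Finset.sum_le_sum fun l _ => hb l).trans
      (le_of_eq Finset.sum_comm))) (by positivity)).trans ?_
  have hm : ∀ m : ℕ, ∑ l ∈ Finset.Icc (j - P.L - 1) P.T,
      (2 * gf x l v + 2 * gf x (l - m) v) ≤ 4 * N := by
    intro m
    rw [Finset.sum_add_distrib, ← Finset.mul_sum, ← Finset.mul_sum]
    have a := sum_gf_le x (Finset.Icc (j - P.L - 1) P.T) v
    have b := sum_gf_shift (x := x) (Finset.Icc (j - P.L - 1) P.T) (m : ℤ) v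
    linarith
  refine (mul_le_mul_of_nonneg_left (Finset.sum_le_sum fun m _ => hm m) (by positivity)).trans ?_
  rw [Finset.sum_const, Finset.card_range, nsmul_eq_mul, div_mul_eq_mul_div, one_mul,
    div_le_iff₀ hΓ]
  have h1 : ((P.L + 2 : ℕ) : ℝ) ≤ 2 ^ (P.L + 2) := natCast_le_two_pow _
  have h2 : (2 : ℝ) ^ (2 * P.L + 4) ≤ KK P.L := two_pow_le_KK (by omega)
  calc ((P.L + 2 : ℕ) : ℝ) * (4 * N) ≤ 2 ^ (P.L + 2) * (4 * (2 ^ P.L * P.Γ)) :=
        mul_le_mul h1 (by linarith) (by have := Real.log_natCast_nonneg (Fintype.card V); positivity)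
          (by positivity)
    _ = 2 ^ (2 * P.L + 4) * P.Γ := by
        rw [show 2 * P.L + 4 = (P.L + 2) + P.L + 2 by ring, pow_add, pow_add]; ring
    _ ≤ _ := mul_le_mul_of_nonneg_right h2 hΓ.le

lemma nrm_Rf_le (h : P.Ok x) (hfl : Fintype.card I * P.floor ^ p ≤ 1)
    (hΓN : P.Γ ≤ Real.log (Fintype.card V)) (j : ℤ) (v : V) :
    nrm p (Rf x P j v) ≤ envSize p (Real.log (Fintype.card V)) P.Γ + KK P.L := by
  have hp0 : 0 < p := lt_of_lt_of_le one_pos one_le_p
  refine (nrm_add_le (fun i => Sf x P j v i ^ p⁻¹) (Bf x P j v)).trans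
    (add_le_add ?_ (nrm_Bf_le h j v))
  rw [nrm_eq, envSize]
  refine Real.rpow_le_rpow (Finset.sum_nonneg fun i _ => Real.rpow_nonneg (abs_nonneg _) _) ?_
    (inv_nonneg.2 hp0.le)
  refine le_trans (le_of_eq (Finset.sum_congr rfl fun i _ => ?_)) (sum_Sf_le h hfl hΓN j v)
  rw [abs_of_nonneg (Real.rpow_nonneg (Sf_pos h j v i).le _),
    Real.rpow_inv_rpow (Sf_pos h j v i).le hp0.ne']

lemma cnt_mul_le (h : P.Ok x) (a : ℤ) (v : V) : cnt x P a v ≤ 4 * KK P.L := by
  have hΓ := h.pos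
  have h1 : P.Γ / 4 * cnt x P a v ≤ Real.log (Fintype.card V) := by
    rw [cnt, Finset.mul_sum]
    refine le_trans (Finset.sum_le_sum fun l _ => ?_) (sum_gf_le x (Finset.Icc a P.T) v)
    unfold irr; split
    · linarith
    · simpa using gf_nonneg x l v
  have h2 := log_le h
  nlinarith

/-- One variant of the feature map distorts a pair by little. -/
theorem feat_pair (h : P.Ok x) {wd : ℝ} (hwd : 0 < wd) {b J : ℤ} {v w : V} (hD : 0 < ds x v w)
    (hJ : IsLevel x v w J) (hbJ : b ≤ J - 1) (hJT : J ≤ P.T)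
    (hfl : Fintype.card I * P.floor ^ p ≤ 1) (hΓN : P.Γ ≤ Real.log (Fintype.card V))
    {Dm : ℝ} (hDm : ∀ u z, ds x u z ≤ Dm) (hsmall : Dm ≤ tt P.T)
    (Ks : Finset ℤ) (hKs : ∀ i, win wd (Lam x P b J v w i b) ⊆ Ks) :
    |(∑ k ∈ Ks, ∑ i, |feat x P b wd k w i - feat x P b wd k v i| ^ p) ^ p⁻¹ - ds x v w| ≤
      ds x v w * (pairC p / wd * (envSize p (Real.log (Fintype.card V)) P.Γ +
        P.Γ * (cnt x P (b - P.L) v + cnt x P (b - P.L) w + 1) + 10 * KK P.L ^ 3) +
        144 * (Dm / tt P.T)) + 8 * tt b * Real.log (Fintype.card V) := by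
  have hg : 0 ≤ gainC p := by
    unfold gainC; have : 1 ≤ p := one_le_p; positivity
  set E := envSize p (Real.log (Fintype.card V)) P.Γ
  set K := KK P.L
  set c1 := cnt x P (b - P.L) v
  set c2 := cnt x P (b - P.L) w
  have hK1 : 1 ≤ K := one_le_KK _
  have hE : 0 ≤ E := Real.rpow_nonneg (by
    have := Real.log_natCast_nonneg (Fintype.card V)
    have := h.pos
    positivity) _
  refine (abs_feat_norm_sub h hwd hbJ hJT Ks hKs).trans ?_
  have h1 := nrm_errF h hD hJ hbJ hJT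
  have h2 := nrm_bottom h b v w
  have h3 := nrm_top h hJ hJT hDm hsmall
  have main : mainC p * (nrm p (Rf x P b v) + nrm p (Rf x P b w)) +
      100000 * (P.Γ + K) * (c1 + c2 + 1) +
      4 * (K * K) * (nrm p (Bf x P b v) + nrm p (Bf x P b w)) ≤
      (2 * mainC p + 100000) * (E + P.Γ * (c1 + c2 + 1) + 10 * K ^ 3) := by
    have hm : 28 ≤ mainC p := by unfold mainC; linarith
    have a1 := mul_le_mul_of_nonneg_left
      (add_le_add (nrm_Rf_le h hfl hΓN b v) (nrm_Rf_le h hfl hΓN b w))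
      (show 0 ≤ mainC p by linarith)
    have a2 := mul_le_mul_of_nonneg_left (add_le_add (nrm_Bf_le h b v) (nrm_Bf_le h b w))
      (show 0 ≤ 4 * (K * K) by positivity)
    have a3 := mul_le_mul_of_nonneg_left (add_le_add (cnt_mul_le h (b - P.L) v)
      (cnt_mul_le h (b - P.L) w)) (show (0 : ℝ) ≤ 100000 * K by positivity)
    have c1n : 0 ≤ c1 := cnt_nonneg _ v
    have c2n : 0 ≤ c2 := cnt_nonneg _ w
    have hΓc : 0 ≤ P.Γ * (c1 + c2 + 1) := mul_nonneg h.pos.le (by linarith)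
    have hK2 : K ≤ K * K := le_mul_of_one_le_left (by linarith) hK1
    have hK3 : K * K ≤ K ^ 3 := by
      rw [show K ^ 3 = K * K * K by ring]; exact le_mul_of_one_le_right (by positivity) hK1
    have hmE : 0 ≤ mainC p * E := mul_nonneg (by linarith) hE
    have hmΓ : 0 ≤ mainC p * (P.Γ * (c1 + c2 + 1)) := mul_nonneg (by linarith) hΓc
    have hmK : mainC p * K ≤ mainC p * K ^ 3 :=
      mul_le_mul_of_nonneg_left (hK2.trans hK3) (by linarith)
    linarith [mul_nonneg (show (0 : ℝ) ≤ mainC p by linarith) (pow_nonneg (by linarith : 0 ≤ K) 3),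
      pow_nonneg (by linarith : 0 ≤ K) 3, mul_le_mul_of_nonneg_left hE (by norm_num : (0:ℝ) ≤ 100000)]
  have h4 : nrm p (errF x P b J v w) ≤
      ds x v w * ((2 * mainC p + 100000) * (E + P.Γ * (c1 + c2 + 1) + 10 * K ^ 3)) :=
    h1.trans (mul_le_mul_of_nonneg_left main hD.le)
  have h5 := mul_le_mul_of_nonneg_left h4 (show 0 ≤ 12 / wd by positivity)
  have e : ds x v w * (pairC p / wd * (E + P.Γ * (c1 + c2 + 1) + 10 * K ^ 3)) =
      12 / wd * (ds x v w * ((2 * mainC p + 100000) * (E + P.Γ * (c1 + c2 + 1) + 10 * K ^ 3))) := by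
    unfold pairC; ring
  rw [mul_add, e]
  linarith

end Vale.Agent.P249.Full
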